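import Mathlib

/-!
# P148: homeomorphisms of the plane which move four points of the circle
-/

open Set Metric Topology Filter

namespace P148

/-- The part of `[a, u]` below `b`. -/
noncomputable def clip (a b u : ℝ) : ℝ := min (max (u - a) 0) (b - a)

theorem clip_of_le {a b u : ℝ} (h : u ≤ a) (hab : a ≤ b) : clip a b u = 0 := by
  unfold clip
  rw [max_eq_right (by linarith), min_eq_left (by linarith)]

theorem clip_of_ge {a b u : ℝ} (h : b ≤ u) (hab : a ≤ b) : clip a b u = b - a := by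
  unfold clip
  rw [max_eq_left (by linarith), min_eq_right (by linarith)]

theorem clip_of_mem {a b u : ℝ} (h : a ≤ u) (h' : u ≤ b) : clip a b u = u - a := by
  unfold clip
  rw [max_eq_left (by linarith), min_eq_left (by linarith)]

/-- Five increasing angles, the last being the first plus `2π`. -/
structure Knots where
  a : ℝ
  b : ℝ
  c : ℝ
  d : ℝ
  hab : a < b
  hbc : b < c
  hcd : c < d
  hda : d < a + 2 * Real.pi

/-- The piecewise linear map between two systems of angles. -/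
noncomputable def Th (k l : Knots) (u : ℝ) : ℝ :=
  l.a + (l.b - l.a) / (k.b - k.a) * clip k.a k.b u + (l.c - l.b) / (k.c - k.b) * clip k.b k.c u +
    (l.d - l.c) / (k.d - k.c) * clip k.c k.d u +
    (l.a + 2 * Real.pi - l.d) / (k.a + 2 * Real.pi - k.d) * clip k.d (k.a + 2 * Real.pi) u

theorem continuous_Th (k l : Knots) : Continuous (Th k l) := by
  unfold Th clip
  fun_prop

section pieces

variable (k l : Knots) {u : ℝ}

theorem Th1 (h : k.a ≤ u) (h' : u ≤ k.b) :
    Th k l u = l.a + (l.b - l.a) / (k.b - k.a) * (u - k.a) := by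
  have h1 := k.hab
  have h2 := k.hbc
  have h3 := k.hcd
  have h4 := k.hda
  unfold Th
  rw [clip_of_mem h h', clip_of_le h' h2.le, clip_of_le (by linarith) h3.le,
    clip_of_le (by linarith) h4.le]
  ring

theorem Th2 (h : k.b ≤ u) (h' : u ≤ k.c) :
    Th k l u = l.b + (l.c - l.b) / (k.c - k.b) * (u - k.b) := by
  have h1 := k.hab
  have h2 := k.hbc
  have h3 := k.hcd
  have h4 := k.hda
  unfold Th
  rw [clip_of_ge h h1.le, clip_of_mem h h', clip_of_le (by linarith) h3.le,
    clip_of_le (by linarith) h4.le, div_mul_cancel₀ _ (sub_pos.2 h1).ne']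
  ring

theorem Th3 (h : k.c ≤ u) (h' : u ≤ k.d) :
    Th k l u = l.c + (l.d - l.c) / (k.d - k.c) * (u - k.c) := by
  have h1 := k.hab
  have h2 := k.hbc
  have h3 := k.hcd
  have h4 := k.hda
  unfold Th
  rw [clip_of_ge (by linarith) h1.le, clip_of_ge h h2.le, clip_of_mem h h',
    clip_of_le (by linarith) h4.le, div_mul_cancel₀ _ (sub_pos.2 h1).ne',
    div_mul_cancel₀ _ (sub_pos.2 h2).ne']
  ring

theorem Th4 (h : k.d ≤ u) (h' : u ≤ k.a + 2 * Real.pi) :
    Th k l u = l.d + (l.a + 2 * Real.pi - l.d) / (k.a + 2 * Real.pi - k.d) * (u - k.d) := by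
  have h1 := k.hab
  have h2 := k.hbc
  have h3 := k.hcd
  have h4 := k.hda
  unfold Th
  rw [clip_of_ge (by linarith) h1.le, clip_of_ge (by linarith) h2.le, clip_of_ge h h3.le,
    clip_of_mem h h', div_mul_cancel₀ _ (sub_pos.2 h1).ne',
    div_mul_cancel₀ _ (sub_pos.2 h2).ne', div_mul_cancel₀ _ (sub_pos.2 h3).ne']
  ring

end pieces

theorem lin_mem {a b a' b' u : ℝ} (hab : a < b) (hab' : a' < b') (h : a ≤ u) (h' : u ≤ b) :
    a' ≤ a' + (b' - a') / (b - a) * (u - a) ∧ a' + (b' - a') / (b - a) * (u - a) ≤ b' := by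
  have h1 : 0 < b - a := sub_pos.2 hab
  have h2 : 0 < b' - a' := sub_pos.2 hab'
  constructor
  · have : 0 ≤ (b' - a') / (b - a) * (u - a) := by
      apply mul_nonneg (by positivity)
      linarith
    linarith
  · have : (b' - a') / (b - a) * (u - a) ≤ (b' - a') / (b - a) * (b - a) := by
      apply mul_le_mul_of_nonneg_left _ (by positivity)
      linarith
    rw [div_mul_cancel₀ _ h1.ne'] at this
    linarith

theorem lin_inv {a b a' b' u : ℝ} (hab : a < b) (hab' : a' < b') :
    a + (b - a) / (b' - a') * (a' + (b' - a') / (b - a) * (u - a) - a') = u := by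
  have h1 : 0 < b - a := sub_pos.2 hab
  have h2 : 0 < b' - a' := sub_pos.2 hab'
  field_simp
  ring

/-- The image of each piece. -/
theorem Th_mem1 (k l : Knots) {u : ℝ} (h : k.a ≤ u) (h' : u ≤ k.b) :
    l.a ≤ Th k l u ∧ Th k l u ≤ l.b ∧ Th l k (Th k l u) = u := by
  obtain ⟨h1, h2⟩ := lin_mem k.hab l.hab h h'
  rw [Th1 k l h h']
  exact ⟨h1, h2, by rw [Th1 l k h1 h2]; exact lin_inv k.hab l.hab⟩

theorem Th_mem2 (k l : Knots) {u : ℝ} (h : k.b ≤ u) (h' : u ≤ k.c) :
    l.b ≤ Th k l u ∧ Th k l u ≤ l.c ∧ Th l k (Th k l u) = u := by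
  obtain ⟨h1, h2⟩ := lin_mem k.hbc l.hbc h h'
  rw [Th2 k l h h']
  exact ⟨h1, h2, by rw [Th2 l k h1 h2]; exact lin_inv k.hbc l.hbc⟩

theorem Th_mem3 (k l : Knots) {u : ℝ} (h : k.c ≤ u) (h' : u ≤ k.d) :
    l.c ≤ Th k l u ∧ Th k l u ≤ l.d ∧ Th l k (Th k l u) = u := by
  obtain ⟨h1, h2⟩ := lin_mem k.hcd l.hcd h h'
  rw [Th3 k l h h']
  exact ⟨h1, h2, by rw [Th3 l k h1 h2]; exact lin_inv k.hcd l.hcd⟩

theorem Th_mem4 (k l : Knots) {u : ℝ} (h : k.d ≤ u) (h' : u ≤ k.a + 2 * Real.pi) :
    l.d ≤ Th k l u ∧ Th k l u ≤ l.a + 2 * Real.pi ∧ Th l k (Th k l u) = u := by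
  obtain ⟨h1, h2⟩ := lin_mem k.hda l.hda h h'
  rw [Th4 k l h h']
  exact ⟨h1, h2, by rw [Th4 l k h1 h2]; exact lin_inv k.hda l.hda⟩

theorem Th_mem (k l : Knots) {u : ℝ} (h : u ∈ Icc k.a (k.a + 2 * Real.pi)) :
    Th k l u ∈ Icc l.a (l.a + 2 * Real.pi) ∧ Th l k (Th k l u) = u := by
  have h1 := l.hab
  have h2 := l.hbc
  have h3 := l.hcd
  have h4 := l.hda
  rcases le_total u k.b with hb | hb
  · obtain ⟨a1, a2, a3⟩ := Th_mem1 k l h.1 hb
    exact ⟨⟨a1, by linarith⟩, a3⟩
  rcases le_total u k.c with hc | hc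
  · obtain ⟨a1, a2, a3⟩ := Th_mem2 k l hb hc
    exact ⟨⟨by linarith, by linarith⟩, a3⟩
  rcases le_total u k.d with hd | hd
  · obtain ⟨a1, a2, a3⟩ := Th_mem3 k l hc hd
    exact ⟨⟨by linarith, by linarith⟩, a3⟩
  · obtain ⟨a1, a2, a3⟩ := Th_mem4 k l hd h.2
    exact ⟨⟨by linarith, a2⟩, a3⟩

instance : Fact (0 < 2 * Real.pi) := ⟨Real.two_pi_pos⟩

/-- The map of the circle of angles to the unit circle. -/
noncomputable def angMap (k l : Knots) : AddCircle (2 * Real.pi) → ℂ :=
  AddCircle.liftIco (2 * Real.pi) k.a fun u => Complex.exp (Th k l u * Complex.I)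

theorem Th_a (k l : Knots) : Th k l k.a = l.a := by
  rw [Th1 k l le_rfl k.hab.le]; ring

theorem Th_top (k l : Knots) : Th k l (k.a + 2 * Real.pi) = l.a + 2 * Real.pi := by
  have h4 := k.hda
  rw [Th4 k l h4.le le_rfl, div_mul_cancel₀ _ (sub_pos.2 h4).ne']
  ring

theorem exp_add_two_pi (u : ℝ) : Complex.exp ((u + 2 * Real.pi : ℝ) * Complex.I) =
    Complex.exp (u * Complex.I) := by
  push_cast
  rw [add_mul, Complex.exp_add, Complex.exp_two_pi_mul_I, mul_one]

theorem continuous_angMap (k l : Knots) : Continuous (angMap k l) := by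
  refine AddCircle.liftIco_continuous ?_ ?_
  · simp only [Th_a, Th_top, exp_add_two_pi]
  · have := continuous_Th k l
    fun_prop

theorem angMap_coe (k l : Knots) {u : ℝ} (h : u ∈ Icc k.a (k.a + 2 * Real.pi)) :
    angMap k l (u : AddCircle (2 * Real.pi)) = Complex.exp (Th k l u * Complex.I) := by
  unfold angMap
  rcases h.2.lt_or_eq with h1 | h1
  · exact AddCircle.liftIco_coe_apply ⟨h.1, h1⟩
  · have h2 : ((u : ℝ) : AddCircle (2 * Real.pi)) = (k.a : AddCircle (2 * Real.pi)) := by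
      rw [h1, AddCircle.coe_add, AddCircle.coe_period, add_zero]
    rw [h2, AddCircle.liftIco_coe_apply ⟨le_rfl, by linarith [Real.two_pi_pos]⟩, h1, Th_a, Th_top,
      exp_add_two_pi]

/-- The map of the plane. -/
noncomputable def plMap (k l : Knots) (z : ℂ) : ℂ := ‖z‖ * angMap k l ((Complex.arg z : Real.Angle))

theorem norm_angMap (k l : Knots) (x : AddCircle (2 * Real.pi)) : ‖angMap k l x‖ = 1 := by
  unfold angMap AddCircle.liftIco
  simp only [Function.comp_apply, Set.domRestrict_apply, Complex.norm_exp_ofReal_mul_I]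

theorem plMap_polar (k l : Knots) {r u : ℝ} (hr : 0 ≤ r) (h : u ∈ Icc k.a (k.a + 2 * Real.pi)) :
    plMap k l (r * Complex.exp (u * Complex.I)) = r * Complex.exp (Th k l u * Complex.I) := by
  unfold plMap
  rcases hr.eq_or_lt with rfl | hr
  · simp
  · have h1 : ((Complex.arg (r * Complex.exp (u * Complex.I)) : ℝ) : Real.Angle) = (u : Real.Angle) := by
      have := Complex.arg_mul_cos_add_sin_mul_I_coe_angle hr (u : Real.Angle)
      rw [Real.Angle.cos_coe, Real.Angle.sin_coe] at this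
      rw [Complex.exp_mul_I, ← Complex.ofReal_cos, ← Complex.ofReal_sin]
      exact this
    rw [h1, norm_mul, Complex.norm_exp_ofReal_mul_I, mul_one, Complex.norm_real,
      Real.norm_of_nonneg hr.le]
    congr 1
    exact angMap_coe k l h

theorem exists_polar (a : ℝ) (z : ℂ) : ∃ u ∈ Icc a (a + 2 * Real.pi),
    z = ‖z‖ * Complex.exp (u * Complex.I) := by
  refine ⟨toIcoMod Real.two_pi_pos a (Complex.arg z), ?_, ?_⟩
  · have := toIcoMod_mem_Ico Real.two_pi_pos a (Complex.arg z)
    exact ⟨this.1, this.2.le⟩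
  · have h1 : Complex.arg z = toIcoMod Real.two_pi_pos a (Complex.arg z) +
        toIcoDiv Real.two_pi_pos a (Complex.arg z) * (2 * Real.pi) := by
      have := toIcoMod_add_toIcoDiv_zsmul Real.two_pi_pos a (Complex.arg z)
      rw [zsmul_eq_mul] at this
      exact this.symm
    have h2 : Complex.exp (Complex.arg z * Complex.I) =
        Complex.exp ((toIcoMod Real.two_pi_pos a (Complex.arg z) : ℝ) * Complex.I) := by
      conv_lhs => rw [h1]
      push_cast
      rw [add_mul, Complex.exp_add]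
      have : Complex.exp ((toIcoDiv Real.two_pi_pos a (Complex.arg z) : ℂ) * (2 * Real.pi) *
          Complex.I) = 1 := by
        rw [Complex.exp_eq_one_iff]
        exact ⟨toIcoDiv Real.two_pi_pos a (Complex.arg z), by ring⟩
      rw [this, mul_one]
    rw [← h2]
    exact (Complex.norm_mul_exp_arg_mul_I z).symm

theorem plMap_plMap (k l : Knots) (z : ℂ) : plMap l k (plMap k l z) = z := by
  obtain ⟨u, hu, hz⟩ := exists_polar k.a z
  obtain ⟨h1, h2⟩ := Th_mem k l hu
  conv_lhs => rw [hz]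
  rw [plMap_polar k l (norm_nonneg z) hu, plMap_polar l k (norm_nonneg z) h1, h2]
  exact hz.symm

theorem norm_plMap (k l : Knots) (z : ℂ) : ‖plMap k l z‖ = ‖z‖ := by
  have h : ‖angMap k l ((Complex.arg z : ℝ) : Real.Angle)‖ = 1 := norm_angMap k l _
  unfold plMap
  rw [norm_mul, h, mul_one, Complex.norm_real, norm_norm]

theorem continuous_plMap (k l : Knots) : Continuous (plMap k l) := by
  rw [continuous_iff_continuousAt]
  intro z
  by_cases hz : z = 0
  · subst hz
    rw [ContinuousAt]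
    have h0 : plMap k l 0 = 0 := by simp [plMap]
    rw [h0, tendsto_zero_iff_norm_tendsto_zero]
    simp only [norm_plMap]
    exact tendsto_norm_zero
  · unfold plMap
    refine ContinuousAt.mul (by fun_prop) ?_
    exact ContinuousAt.comp (f := fun z => ((Complex.arg z : ℝ) : Real.Angle))
      (g := angMap k l) (continuous_angMap k l).continuousAt
      (Complex.continuousAt_arg_coe_angle hz)

/-- The homeomorphism of the plane. -/
noncomputable def plHomeo (k l : Knots) : ℂ ≃ₜ ℂ where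
  toFun := plMap k l
  invFun := plMap l k
  left_inv := plMap_plMap k l
  right_inv := plMap_plMap l k
  continuous_toFun := continuous_plMap k l
  continuous_invFun := continuous_plMap l k

theorem plHomeo_ball (k l : Knots) (r : ℝ) : plHomeo k l '' ball 0 r = ball 0 r := by
  have h : ∀ k l : Knots, plHomeo k l '' ball 0 r ⊆ ball 0 r := by
    rintro k l _ ⟨z, hz, rfl⟩
    rw [mem_ball_zero_iff] at hz ⊢
    exact (norm_plMap k l z).trans_lt hz
  refine (h k l).antisymm fun z hz => ?_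
  refine ⟨plMap l k z, h l k ⟨z, hz, rfl⟩, plMap_plMap l k z⟩

end P148
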