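import Vale.Agent.P148.Sep

/-!
# P148, row M: measurability of the crossing event of a random continuous function
-/

open MeasureTheory Set Metric Topology Filter

namespace P148

universe u

/-- reachable from `A` by a chain of `k` steps of length `< ε` in `D ∩ {g < ε}` -/
def Rch (g : ℂ → ℝ) (D A : Set ℂ) (ε : ℝ) : ℕ → ℂ → Prop
  | 0, d => g d < ε ∧ ∃ a ∈ A, dist d a < ε
  | k + 1, d => g d < ε ∧ ∃ d' ∈ D, dist d d' < ε ∧ Rch g D A ε k d'

theorem Rch.lt {g : ℂ → ℝ} {D A : Set ℂ} {ε : ℝ} {k : ℕ} {d : ℂ} (h : Rch g D A ε k d) :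
    g d < ε := by
  cases k with
  | zero => exact h.1
  | succ k => exact h.1

theorem meas_Rch {Ω : Type*} [MeasurableSpace Ω] {f : Ω → ℂ → ℝ}
    (hf : ∀ z, Measurable fun ω => f ω z) {D : Set ℂ} (hD : D.Countable) (A : Set ℂ) (ε : ℝ) :
    ∀ (k : ℕ) (d : ℂ), MeasurableSet {ω | Rch (f ω) D A ε k d} := by
  intro k
  induction k with
  | zero =>
    intro d
    have h1 : {ω | Rch (f ω) D A ε 0 d} = {ω | f ω d < ε} ∩ {ω | ∃ a ∈ A, dist d a < ε} := by
      ext ω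
      simp only [Rch, mem_setOf_eq, mem_inter_iff]
    rw [h1]
    exact (measurableSet_lt (hf d) measurable_const).inter (MeasurableSet.const _)
  | succ k ih =>
    intro d
    have h1 : {ω | Rch (f ω) D A ε (k + 1) d} = {ω | f ω d < ε} ∩
        ⋃ d' ∈ D, ({ω | dist d d' < ε} ∩ {ω | Rch (f ω) D A ε k d'}) := by
      ext ω
      simp only [Rch, mem_setOf_eq, mem_inter_iff, mem_iUnion, exists_prop]
    rw [h1]
    exact (measurableSet_lt (hf d) measurable_const).inter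
      (MeasurableSet.biUnion hD fun d' _ => (MeasurableSet.const _).inter (ih d'))

/-- a crossing is approximated by chains -/
theorem chain_of_cross {g : ℂ → ℝ} (hg : Continuous g) {X D A A' K : Set ℂ} (hD : X ⊆ closure D)
    (hK : K ⊆ {z | g z ≤ 0} ∩ X) (hKc : IsConnected K) (hA : (K ∩ A).Nonempty)
    (hA' : (K ∩ A').Nonempty) {ε : ℝ} (hε : 0 < ε) :
    ∃ k : ℕ, ∃ d ∈ D, (∃ a' ∈ A', dist d a' < ε) ∧ Rch g D A ε k d := by
  have h3 : 0 < ε / 3 := by positivity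
  have happ : ∀ x ∈ K, ∃ d ∈ D, g d < ε ∧ dist d x < ε / 3 := by
    intro x hx
    have h1 : ∀ᶠ y in 𝓝 x, g y < ε ∧ dist y x < ε / 3 := by
      refine (hg.continuousAt.eventually (gt_mem_nhds ?_)).and (ball_mem_nhds x h3)
      exact lt_of_le_of_lt (hK hx).1 hε
    obtain ⟨d, hd1, hd2⟩ := mem_closure_iff_nhds.1 (hD (hK hx).2) _ h1
    exact ⟨d, hd2, hd1⟩
  set T : Set ℂ := {d | d ∈ D ∧ ∃ k, Rch g D A ε k d} with hT
  set U : Set ℂ := ⋃ d ∈ T, ball d (ε / 3) with hU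
  set V : Set ℂ := ⋃ d ∈ {d | d ∈ D ∧ g d < ε ∧ d ∉ T}, ball d (ε / 3) with hV
  have hUo : IsOpen U := isOpen_biUnion fun _ _ => isOpen_ball
  have hVo : IsOpen V := isOpen_biUnion fun _ _ => isOpen_ball
  have hcov : K ⊆ U ∪ V := by
    intro x hx
    obtain ⟨d, hd1, hd2, hd3⟩ := happ x hx
    by_cases h : d ∈ T
    · exact Or.inl (mem_iUnion₂.2 ⟨d, h, by rw [mem_ball, dist_comm]; exact hd3⟩)
    · exact Or.inr (mem_iUnion₂.2 ⟨d, ⟨hd1, hd2, h⟩, by rw [mem_ball, dist_comm]; exact hd3⟩)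
  obtain ⟨a, haK, haA⟩ := hA
  obtain ⟨a', haK', haA'⟩ := hA'
  have haU : a ∈ U := by
    obtain ⟨d, hd1, hd2, hd3⟩ := happ a haK
    refine mem_iUnion₂.2 ⟨d, ⟨hd1, 0, hd2, a, haA, by linarith⟩, ?_⟩
    rw [mem_ball, dist_comm]
    exact hd3
  by_cases h : a' ∈ U
  · obtain ⟨d, ⟨hd1, k, hk⟩, hd2⟩ := mem_iUnion₂.1 h
    refine ⟨k, d, hd1, ⟨a', haA', ?_⟩, hk⟩
    rw [mem_ball, dist_comm] at hd2
    linarith
  · exfalso
    have haV : a' ∈ V := (hcov haK').resolve_left h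
    obtain ⟨x, hxK, hxU, hxV⟩ := hKc.isPreconnected U V hUo hVo hcov ⟨a, haK, haU⟩ ⟨a', haK', haV⟩
    obtain ⟨d, ⟨hd1, k, hk⟩, hd2⟩ := mem_iUnion₂.1 hxU
    obtain ⟨d', ⟨hd1', hd3', hd4'⟩, hd2'⟩ := mem_iUnion₂.1 hxV
    refine hd4' ⟨hd1', k + 1, hd3', d, hd1, ?_, hk⟩
    rw [mem_ball] at hd2 hd2'
    have := dist_triangle d' x d
    rw [dist_comm d' x] at this
    linarith

theorem exists_pos_dist {s t : Set ℂ} (hs : IsCompact s) (ht : IsClosed t) (hst : Disjoint s t) :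
    ∃ δ > 0, ∀ x ∈ s, ∀ y ∈ t, δ ≤ dist x y := by
  obtain ⟨δ, hδ, h⟩ := hst.exists_thickenings hs ht
  refine ⟨δ, hδ, fun x hx y hy => ?_⟩
  by_contra hlt
  push Not at hlt
  exact Set.disjoint_left.1 h (self_subset_thickening hδ s hx) (mem_thickening_iff.2 ⟨y, hy, hlt⟩)

/-- chains at all scales give a crossing -/
theorem cross_of_chain {g : ℂ → ℝ} (hg : Continuous g) {X D A A' : Set ℂ} (hX : IsCompact X)
    (hDX : D ⊆ X) (hA : IsCompact A) (hA' : IsCompact A')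
    (h : ∀ ε > 0, ∃ k : ℕ, ∃ d ∈ D, (∃ a' ∈ A', dist d a' < ε) ∧ Rch g D A ε k d) :
    ∃ K ⊆ {z | g z ≤ 0} ∩ X, IsConnected K ∧ (K ∩ A).Nonempty ∧ (K ∩ A').Nonempty := by
  by_contra hno
  have hF : IsCompact ({z | g z ≤ 0} ∩ X) :=
    hX.inter_left (isClosed_le hg continuous_const)
  obtain ⟨F₁, F₂, hF₁, hF₂, hd, hu, h1, h2⟩ := sep _ A A' hF hA.isClosed hA'.isClosed hno
  have hd1 : Disjoint F₂ A := by
    rw [Set.disjoint_left]
    intro x hx hxA
    exact Set.disjoint_left.1 hd (h1 ⟨hu ▸ Or.inr hx, hxA⟩) hx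
  have hd2 : Disjoint F₁ A' := by
    rw [Set.disjoint_left]
    intro x hx hxA
    exact Set.disjoint_left.1 hd hx (h2 ⟨hu ▸ Or.inl hx, hxA⟩)
  obtain ⟨δ₁, hδ₁, e1⟩ := exists_pos_dist hF₁ hF₂.isClosed hd
  obtain ⟨δ₂, hδ₂, e2⟩ := exists_pos_dist hF₂ hA.isClosed hd1
  obtain ⟨δ₃, hδ₃, e3⟩ := exists_pos_dist hF₁ hA'.isClosed hd2
  set δ : ℝ := min δ₁ (min δ₂ δ₃) / 3 with hδd
  have hδ : 0 < δ := by positivity
  have k1 : 3 * δ ≤ δ₁ := by
    rw [hδd]
    have := min_le_left δ₁ (min δ₂ δ₃)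
    linarith
  have k2 : 3 * δ ≤ δ₂ := by
    rw [hδd]
    have := (min_le_right δ₁ (min δ₂ δ₃)).trans (min_le_left _ _)
    linarith
  have k3 : 3 * δ ≤ δ₃ := by
    rw [hδd]
    have := (min_le_right δ₁ (min δ₂ δ₃)).trans (min_le_right _ _)
    linarith
  -- points of small value are near `F`
  obtain ⟨m, hm, hmd⟩ : ∃ m > 0, ∀ z ∈ X, g z < m → ∃ x ∈ {z | g z ≤ 0} ∩ X, dist z x < δ := by
    set C : Set ℂ := X \ thickening δ ({z | g z ≤ 0} ∩ X) with hC
    have hCc : IsCompact C := hX.diff isOpen_thickening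
    rcases C.eq_empty_or_nonempty with hCe | hCn
    · refine ⟨1, one_pos, fun z hz _ => ?_⟩
      by_contra hcon
      have : z ∈ C := ⟨hz, fun hth => hcon (mem_thickening_iff.1 hth)⟩
      rw [hCe] at this
      exact this
    · obtain ⟨z₀, hz₀, hmin⟩ := hCc.exists_isMinOn hCn hg.continuousOn
      refine ⟨g z₀, ?_, fun z hz hzm => ?_⟩
      · by_contra hcon
        push Not at hcon
        exact hz₀.2 (self_subset_thickening hδ _ ⟨hcon, hz₀.1⟩)
      · by_contra hcon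
        have hzC : z ∈ C := ⟨hz, fun hth => hcon (mem_thickening_iff.1 hth)⟩
        exact absurd (hmin hzC) (not_le.2 hzm)
  obtain ⟨k, d, hdD, ⟨a', ha', hda'⟩, hk⟩ := h (min δ m) (lt_min hδ hm)
  have key : ∀ (k : ℕ) (d : ℂ), d ∈ D → Rch g D A (min δ m) k d → ∃ x ∈ F₁, dist d x < δ := by
    intro k
    induction k with
    | zero =>
      rintro d hdD ⟨hd1, a, ha, hda⟩
      obtain ⟨x, hx, hdx⟩ := hmd d (hDX hdD) (hd1.trans_le (min_le_right _ _))
      rw [← hu] at hx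
      rcases hx with hx | hx
      · exact ⟨x, hx, hdx⟩
      · exfalso
        have f1 := e2 x hx a ha
        have f2 := dist_triangle x d a
        rw [dist_comm x d] at f2
        have f3 := min_le_left δ m
        linarith
    | succ k ih =>
      rintro d hdD ⟨hd1, d', hd'D, hdd', hr⟩
      obtain ⟨x', hx', hdx'⟩ := ih d' hd'D hr
      obtain ⟨x, hx, hdx⟩ := hmd d (hDX hdD) (hd1.trans_le (min_le_right _ _))
      rw [← hu] at hx
      rcases hx with hx | hx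
      · exact ⟨x, hx, hdx⟩
      · exfalso
        have f1 := e1 x' hx' x hx
        have f2 := dist_triangle x' d' x
        have f4 := dist_triangle d' d x
        rw [dist_comm x' d'] at f2
        rw [dist_comm d' d] at f4
        have f3 := min_le_left δ m
        linarith
  obtain ⟨x, hx, hdx⟩ := key k d hdD hk
  have f1 := e3 x hx a' ha'
  have f2 := dist_triangle x d a'
  rw [dist_comm x d] at f2
  have f3 := min_le_left δ m
  linarith

theorem cross_iff {g : ℂ → ℝ} (hg : Continuous g) {X D A A' : Set ℂ} (hX : IsCompact X)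
    (hDX : D ⊆ X) (hD : X ⊆ closure D) (hA : IsCompact A) (hA' : IsCompact A') :
    (∃ K ⊆ {z | g z ≤ 0} ∩ X, IsConnected K ∧ (K ∩ A).Nonempty ∧ (K ∩ A').Nonempty) ↔
      ∀ n : ℕ, ∃ k : ℕ, ∃ d ∈ D, (∃ a' ∈ A', dist d a' < 1 / ((n : ℝ) + 1)) ∧
        Rch g D A (1 / ((n : ℝ) + 1)) k d := by
  constructor
  · rintro ⟨K, hK, hKc, h1, h2⟩ n
    exact chain_of_cross hg hD hK hKc h1 h2 (by positivity)
  · intro h
    refine cross_of_chain hg hX hDX hA hA' fun ε hε => ?_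
    obtain ⟨n, hn⟩ := exists_nat_one_div_lt hε
    obtain ⟨k, d, hd, ⟨a', ha', hda'⟩, hk⟩ := h n
    refine ⟨k, d, hd, ⟨a', ha', hda'.trans hn⟩, ?_⟩
    have hmono : ∀ (k : ℕ) (d : ℂ), Rch g D A (1 / ((n : ℝ) + 1)) k d → Rch g D A ε k d := by
      intro k
      induction k with
      | zero =>
        rintro d ⟨h1, a, ha, h2⟩
        exact ⟨h1.trans hn, a, ha, h2.trans hn⟩
      | succ k ih =>
        rintro d ⟨h1, d', hd', h2, h3⟩
        exact ⟨h1.trans hn, d', hd', h2.trans hn, ih d' h3⟩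
    exact hmono k d hk

theorem measCross : MeasCrossStmt.{u} := by
  intro Ω _ f hfc hfm X A A' hX hA hA' _ _
  obtain ⟨D, hDX, hDc, hD⟩ : ∃ D ⊆ X, D.Countable ∧ X ⊆ closure D := by
    obtain ⟨c, hc1, hc2⟩ := TopologicalSpace.exists_countable_dense X
    refine ⟨Subtype.val '' c, ?_, hc1.image _, ?_⟩
    · rintro _ ⟨z, -, rfl⟩
      exact z.2
    · intro x hx
      have := hc2 ⟨x, hx⟩
      exact image_closure_subset_closure_image continuous_subtype_val ⟨_, this, rfl⟩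
  have h1 : {ω | ∃ K ⊆ {z | f ω z ≤ 0} ∩ X, IsConnected K ∧ (K ∩ A).Nonempty ∧
      (K ∩ A').Nonempty} = ⋂ n : ℕ, ⋃ k : ℕ, ⋃ d ∈ D,
        ({ω | ∃ a' ∈ A', dist d a' < 1 / ((n : ℝ) + 1)} ∩
          {ω | Rch (f ω) D A (1 / ((n : ℝ) + 1)) k d}) := by
    ext ω
    rw [mem_setOf_eq, cross_iff (hfc ω) hX hDX hD hA hA']
    simp only [mem_iInter, mem_iUnion, mem_inter_iff, mem_setOf_eq, exists_prop]
  rw [h1]
  exact MeasurableSet.iInter fun n => MeasurableSet.iUnion fun k => MeasurableSet.biUnion hDc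
    fun d _ => (MeasurableSet.const _).inter (meas_Rch hfm hDc A _ k d)

end P148
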