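import Vale.Agent.P148.Props2
import Vale.Agent.P148.Meas

/-!
# P148, row X2: crossing events are approximable
-/

open MeasureTheory Set Metric Topology Filter
open scoped ENNReal NNReal

namespace P148

namespace Appr8

lemma abs_pix {x : ℝ} {m : ℤ} {k : ℕ} (h : ⌊x * 2 ^ k⌋ = m) : |x - m / 2 ^ k| ≤ 1 / 2 ^ k := by
  have hp : (0 : ℝ) < 2 ^ k := by positivity
  have h1 := Int.floor_le (x * 2 ^ k)
  have h2 := Int.lt_floor_add_one (x * 2 ^ k)
  rw [h] at h1 h2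
  have e : x - m / 2 ^ k = (x * 2 ^ k - m) / 2 ^ k := by
    field_simp
  rw [e, abs_div, abs_of_pos hp, div_le_div_iff_of_pos_right hp, abs_le]
  constructor <;> linarith

lemma dist_pixPt {k : ℕ} {m : ℤ × ℤ} {v : ℂ} (h : v ∈ pixel k m) :
    dist v (pixPt k m) ≤ 2 / 2 ^ k := by
  rw [dist_eq_norm]
  refine (Complex.norm_le_abs_re_add_abs_im _).trans ?_
  have h1 := abs_pix h.1
  have h2 := abs_pix h.2
  simp only [Complex.sub_re, Complex.sub_im, pixPt]
  have e : (2 : ℝ) / 2 ^ k = 1 / 2 ^ k + 1 / 2 ^ k := by ring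
  rw [e]
  exact add_le_add h1 h2

lemma mem_col_pix {k : ℕ} {T : Set Pt} {c : Bool} {q : ℂ} :
    q ∈ col (pix k T) c ↔ ∃ m ∈ window k, q = pixPt k m ∧ ∃ v ∈ col T c, v ∈ pixel k m := by
  constructor
  · rintro ⟨m, hm, h1, ⟨v, b⟩, hv, hvp⟩
    have hb : b = c := hvp.2
    subst hb
    exact ⟨m, hm, h1, v, hv, hvp.1⟩
  · rintro ⟨m, hm, h1, v, hv, hvp⟩
    exact ⟨m, hm, h1, (v, c), hv, hvp, rfl⟩

lemma near1 {k : ℕ} {T : Set Pt} {c : Bool} {q : ℂ} (h : q ∈ col (pix k T) c) :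
    ∃ v ∈ col T c, dist v q ≤ 2 / 2 ^ k := by
  obtain ⟨m, -, rfl, v, hv, hvp⟩ := mem_col_pix.1 h
  exact ⟨v, hv, dist_pixPt hvp⟩

lemma floor_mem {x r : ℝ} {k : ℕ} (h : |x| ≤ r) (hr : r + 1 ≤ 2 ^ k) :
    -4 ^ k ≤ ⌊x * 2 ^ k⌋ ∧ ⌊x * 2 ^ k⌋ ≤ 4 ^ k := by
  have hp : (1 : ℝ) ≤ 2 ^ k := one_le_pow₀ (by norm_num)
  have e : (4 : ℝ) ^ k = 2 ^ k * 2 ^ k := by
    rw [← mul_pow]; norm_num
  obtain ⟨h1, h2⟩ := abs_le.1 h
  constructor
  · rw [Int.le_floor]
    push_cast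
    rw [e]
    nlinarith
  · have h3 : ((⌊x * 2 ^ k⌋ : ℤ) : ℝ) ≤ ((4 ^ k : ℤ) : ℝ) := by
      refine (Int.floor_le _).trans ?_
      push_cast
      rw [e]
      nlinarith
    exact_mod_cast h3

lemma near2 {k : ℕ} {T : Set Pt} {c : Bool} {v : ℂ} (h : v ∈ col T c) (hk : ‖v‖ + 1 ≤ 2 ^ k) :
    ∃ q ∈ col (pix k T) c, dist v q ≤ 2 / 2 ^ k := by
  set m : ℤ × ℤ := (⌊v.re * 2 ^ k⌋, ⌊v.im * 2 ^ k⌋) with hm
  have hv : v ∈ pixel k m := ⟨rfl, rfl⟩
  have h1 := floor_mem (Complex.abs_re_le_norm v) hk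
  have h2 := floor_mem (Complex.abs_im_le_norm v) hk
  refine ⟨pixPt k m, mem_col_pix.2 ⟨m, ?_, rfl, v, h, hv⟩, dist_pixPt hv⟩
  rw [window, Finset.mem_product, Finset.mem_Icc, Finset.mem_Icc]
  exact ⟨h1, h2⟩

lemma lemA {k : ℕ} {T : Set Pt} {c : Bool} (h : (col (pix k T) c).Nonempty) (z : ℂ) :
    infDist z (col T c) ≤ infDist z (col (pix k T) c) + 2 / 2 ^ k := by
  have h1 : infDist z (col T c) - 2 / 2 ^ k ≤ infDist z (col (pix k T) c) := by
    rw [le_infDist h]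
    intro q hq
    obtain ⟨v, hv, hd⟩ := near1 hq
    have h2 := infDist_le_dist_of_mem (x := z) hv
    have h3 := dist_triangle z q v
    rw [dist_comm q v] at h3
    linarith
  linarith

lemma lemB {k : ℕ} {T : Set Pt} {c : Bool} {v₀ z : ℂ} {ρ : ℝ} (h : v₀ ∈ col T c) (hz : ‖z‖ ≤ ρ)
    (hk : 2 * ρ + ‖v₀‖ + 1 ≤ 2 ^ k) :
    infDist z (col (pix k T) c) ≤ infDist z (col T c) + 2 / 2 ^ k := by
  have hρ : 0 ≤ ρ := (norm_nonneg z).trans hz
  have h1 : infDist z (col (pix k T) c) - 2 / 2 ^ k ≤ infDist z (col T c) := by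
    rw [le_infDist ⟨v₀, h⟩]
    have key : ∀ v ∈ col T c, ‖v‖ + 1 ≤ 2 ^ k →
        infDist z (col (pix k T) c) - 2 / 2 ^ k ≤ dist z v := by
      intro v hv hvk
      obtain ⟨q, hq, hd⟩ := near2 hv hvk
      have h2 := infDist_le_dist_of_mem (x := z) hq
      have h3 := dist_triangle z v q
      linarith
    intro v hv
    by_cases hc : dist z v ≤ dist z v₀
    · refine key v hv ?_
      have h2 : ‖v‖ ≤ ‖z‖ + dist z v := by
        have h4 : v = z - (z - v) := by ring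
        have h5 := norm_sub_le z (z - v)
        rw [← h4] at h5
        rw [dist_eq_norm]
        exact h5
      have h3 : dist z v₀ ≤ ‖z‖ + ‖v₀‖ := by
        rw [dist_eq_norm]
        exact norm_sub_le _ _
      linarith
    · refine (key v₀ h ?_).trans (not_le.1 hc).le
      linarith
  linarith

/-- the increasing approximations -/
noncomputable def FF (X A A' : Set ℂ) (k : ℕ) : Set (Set Pt) :=
  {T | ∃ K ⊆ {z | infEDist z (col T true) ≤ infEDist z (col T false) + ENNReal.ofReal (4 / 2 ^ k)} ∩ X,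
    IsConnected K ∧ (K ∩ A).Nonempty ∧ (K ∩ A').Nonempty}

lemma incr_FF (X A A' : Set ℂ) (k : ℕ) : Incr (FF X A A' k) := by
  rintro T T' h1 h2 ⟨K, hK, hc⟩
  refine ⟨K, fun z hz => ⟨?_, (hK hz).2⟩, hc⟩
  have h3 : infEDist z (col T' true) ≤ infEDist z (col T true) := infEDist_anti fun v hv => h1 v hv
  have h4 : infEDist z (col T false) ≤ infEDist z (col T' false) := infEDist_anti fun v hv => h2 v hv
  exact h3.trans ((hK hz).1.trans (by gcongr))

lemma rch_mono {g g' : ℂ → ℝ} {D A : Set ℂ} {ε ε' : ℝ} (hg : ∀ x, g' x < ε → g x < ε')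
    (hε : ε ≤ ε') : ∀ (k : ℕ) (d : ℂ), Rch g' D A ε k d → Rch g D A ε' k d := by
  intro k
  induction k with
  | zero =>
    rintro d ⟨h1, a, ha, h2⟩
    exact ⟨hg d h1, a, ha, h2.trans_le hε⟩
  | succ k ih =>
    rintro d ⟨h1, d', hd', h2, h3⟩
    exact ⟨hg d h1, d', hd', h2.trans_le hε, ih d' h3⟩

/-- crossings of all the sets `{g ≤ δ}` give a crossing of `{g ≤ 0}` -/
lemma cross_lim {g : ℂ → ℝ} (hg : Continuous g) {X A A' : Set ℂ} (hX : IsCompact X)
    (hA : IsCompact A) (hA' : IsCompact A')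
    (h : ∀ δ > 0, ∃ K ⊆ {z | g z ≤ δ} ∩ X, IsConnected K ∧ (K ∩ A).Nonempty ∧
      (K ∩ A').Nonempty) :
    ∃ K ⊆ {z | g z ≤ 0} ∩ X, IsConnected K ∧ (K ∩ A).Nonempty ∧ (K ∩ A').Nonempty := by
  refine cross_of_chain hg (D := X) hX subset_rfl hA hA' fun ε hε => ?_
  obtain ⟨K, hK, hc, h1, h2⟩ := h (ε / 2) (by positivity)
  obtain ⟨k, d, hd, ⟨a', ha', hd'⟩, hr⟩ := chain_of_cross (g := fun z => g z - ε / 2)
    (X := X) (D := X) (A := A) (A' := A') (K := K) (by fun_prop) subset_closure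
    (fun z hz => ⟨by have := (hK hz).1; simp only [mem_ofPred_eq] at this ⊢; linarith, (hK hz).2⟩)
    hc h1 h2 (ε := ε / 2) (by positivity)
  exact ⟨k, d, hd, ⟨a', ha', by linarith⟩,
    rch_mono (fun x hx => by linarith) (by linarith) k d hr⟩

lemma ofReal_infDist {z : ℂ} {s : Set ℂ} (h : s.Nonempty) :
    ENNReal.ofReal (infDist z s) = infEDist z s :=
  ENNReal.ofReal_toReal (infEDist_ne_top h)

lemma eventually_close {X : Set ℂ} (hX : IsCompact X) {T : Set Pt} (hT : Good T) :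
    ∀ᶠ k : ℕ in atTop, ∀ c : Bool, (col (pix k T) c).Nonempty ∧ ∀ z ∈ X,
      infDist z (col T c) ≤ infDist z (col (pix k T) c) + 2 / 2 ^ k ∧
      infDist z (col (pix k T) c) ≤ infDist z (col T c) + 2 / 2 ^ k := by
  obtain ⟨ρ, hρ⟩ := hX.isBounded.exists_norm_le
  have hρ0 : ∀ z ∈ X, ‖z‖ ≤ |ρ| := fun z hz => (hρ z hz).trans (le_abs_self ρ)
  choose v hv using hT.colours
  have h1 : Tendsto (fun k : ℕ => (2 : ℝ) ^ k) atTop atTop :=
    tendsto_pow_atTop_atTop_of_one_lt (by norm_num)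
  filter_upwards [h1.eventually_ge_atTop (2 * |ρ| + (‖v true‖ + ‖v false‖) + 1)] with k hk c
  have h2 : 2 * |ρ| + ‖v c‖ + 1 ≤ 2 ^ k := by
    have := norm_nonneg (v true)
    have := norm_nonneg (v false)
    cases c <;> linarith
  have h3 : (col (pix k T) c).Nonempty := by
    obtain ⟨q, hq, -⟩ := near2 (hv c) (by have := abs_nonneg ρ; linarith)
    exact ⟨q, hq⟩
  exact ⟨h3, fun z hz => ⟨lemA h3 z, lemB (hv c) (hρ0 z hz) h2⟩⟩

end Appr8

open Appr8 in
/-- Row X2. -/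
theorem appr : ApprStmt := by
  intro X A A' hX hA hA' hAX hAX'
  refine ⟨FF X A A', incr_FF X A A', fun T hT => ⟨?_, ?_⟩⟩
  · rintro ⟨K, hK, hc⟩
    filter_upwards [eventually_close hX hT] with k hk
    refine ⟨K, fun z hz => ⟨?_, (hK hz).2⟩, hc⟩
    have h1 := ((hk true).2 z (hK hz).2).2
    have h2 := ((hk false).2 z (hK hz).2).1
    have h3 : gap T z ≤ 0 := (hK hz).1
    rw [gap] at h3
    change infEDist z (col (pix k T) true) ≤
      infEDist z (col (pix k T) false) + ENNReal.ofReal (4 / 2 ^ k)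
    rw [← ofReal_infDist (hk true).1, ← ofReal_infDist (hk false).1,
      ← ENNReal.ofReal_add infDist_nonneg (by positivity)]
    refine ENNReal.ofReal_le_ofReal ?_
    have e : (4 : ℝ) / 2 ^ k = 2 / 2 ^ k + 2 / 2 ^ k := by ring
    rw [e]
    linarith
  · intro hno
    by_contra hcon
    rw [not_eventually] at hcon
    simp only [not_not] at hcon
    refine hno (cross_lim (continuous_gap T) hX hA hA' fun δ hδ => ?_)
    have h1 : Tendsto (fun k : ℕ => (8 : ℝ) / 2 ^ k) atTop (𝓝 0) :=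
      Tendsto.div_atTop tendsto_const_nhds
        (tendsto_pow_atTop_atTop_of_one_lt (by norm_num))
    obtain ⟨k, ⟨K, hK, hc⟩, hk, hkδ⟩ := (hcon.and_eventually
      ((eventually_close hX hT).and (h1.eventually (gt_mem_nhds hδ)))).exists
    refine ⟨K, fun z hz => ⟨?_, (hK hz).2⟩, hc⟩
    have h2 := ((hk true).2 z (hK hz).2).1
    have h3 := ((hk false).2 z (hK hz).2).2
    have h4 : infEDist z (col (pix k T) true) ≤
      infEDist z (col (pix k T) false) + ENNReal.ofReal (4 / 2 ^ k) := (hK hz).1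
    rw [← ofReal_infDist (hk true).1, ← ofReal_infDist (hk false).1,
      ← ENNReal.ofReal_add infDist_nonneg (by positivity),
      ENNReal.ofReal_le_ofReal_iff (add_nonneg infDist_nonneg (by positivity))] at h4
    change infDist z (col T true) - infDist z (col T false) ≤ δ
    have e : (8 : ℝ) / 2 ^ k = 2 / 2 ^ k + 2 / 2 ^ k + 4 / 2 ^ k := by ring
    rw [e] at hkδ
    linarith

end P148
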