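import Vale.Agent.P148.Props

/-!
# P148, assembly 1: quads and the gap function
-/

open MeasureTheory Set Metric Topology Filter ProbabilityTheory
open scoped ENNReal NNReal

namespace P148

theorem isCompact_sq : IsCompact sq := by
  have : sq = Icc (-1 : ℝ) 1 ×ℂ Icc (-1 : ℝ) 1 := by
    ext z
    simp only [sq, mem_ofPred_eq, Complex.mem_reProdIm, mem_Icc, abs_le]
  rw [this]
  exact isCompact_Icc.reProdIm isCompact_Icc

theorem closure_open_sq : closure {z : ℂ | |z.re| < 1 ∧ |z.im| < 1} = sq := by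
  have h1 : {z : ℂ | |z.re| < 1 ∧ |z.im| < 1} = Ioo (-1 : ℝ) 1 ×ℂ Ioo (-1 : ℝ) 1 := by
    ext z
    simp only [mem_ofPred_eq, Complex.mem_reProdIm, mem_Ioo, abs_lt]
  have h2 : sq = Icc (-1 : ℝ) 1 ×ℂ Icc (-1 : ℝ) 1 := by
    ext z
    simp only [sq, mem_ofPred_eq, Complex.mem_reProdIm, mem_Icc, abs_le]
  rw [h1, h2, Complex.closure_reProdIm, closure_Ioo (by norm_num)]

theorem side_subset_sq (i : Fin 4) : side i ⊆ sq := by
  intro z hz
  fin_cases i <;> simp only [side, sq, mem_ofPred_eq] at hz ⊢ <;> obtain ⟨h1, h2⟩ := hz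
  · exact ⟨h1, by rw [h2]; norm_num⟩
  · exact ⟨by rw [h1]; norm_num, h2⟩
  · exact ⟨h1, by rw [h2]; norm_num⟩
  · exact ⟨by rw [h1]; norm_num, h2⟩

theorem isClosed_side (i : Fin 4) : IsClosed (side i) := by
  have h1 : IsClosed {z : ℂ | |z.re| ≤ 1} :=
    isClosed_le (by fun_prop) continuous_const
  have h2 : IsClosed {z : ℂ | |z.im| ≤ 1} :=
    isClosed_le (by fun_prop) continuous_const
  have h3 : ∀ c : ℝ, IsClosed {z : ℂ | z.re = c} := fun c =>
    isClosed_eq Complex.continuous_re continuous_const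
  have h4 : ∀ c : ℝ, IsClosed {z : ℂ | z.im = c} := fun c =>
    isClosed_eq Complex.continuous_im continuous_const
  fin_cases i
  · exact h1.inter (h4 _)
  · exact (h3 _).inter h2
  · exact h1.inter (h4 _)
  · exact (h3 _).inter h2

/-- Near a point of a side which is no corner, the boundary of the square is that side. -/
theorem side_local (i : Fin 4) {p : ℂ} (hp : p ∈ side i) (hc : ∀ j, p ≠ corner j) :
    ∃ δ > 0, ∀ j, ∀ q ∈ side j, dist q p < δ → q ∈ side i := by
  have hcor : ¬ (|p.re| = 1 ∧ |p.im| = 1) := by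
    rintro ⟨h1, h2⟩
    rcases eq_or_eq_neg_of_abs_eq h1 with h1 | h1 <;> rcases eq_or_eq_neg_of_abs_eq h2 with h2 | h2
    · exact hc 2 (Complex.ext h1 h2)
    · exact hc 1 (Complex.ext h1 h2)
    · exact hc 3 (Complex.ext h1 h2)
    · exact hc 0 (Complex.ext h1 h2)
  have hre : ∀ q : ℂ, |q.re - p.re| ≤ dist q p := fun q => by
    rw [dist_eq_norm, ← Complex.sub_re]; exact Complex.abs_re_le_norm _
  have him : ∀ q : ℂ, |q.im - p.im| ≤ dist q p := fun q => by
    rw [dist_eq_norm, ← Complex.sub_im]; exact Complex.abs_im_le_norm _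
  -- the side is horizontal or vertical
  have key : ∀ q : ℂ, ∀ j, q ∈ side j → |q.re| ≤ 1 ∧ |q.im| ≤ 1 ∧ (|q.re| = 1 ∨ |q.im| = 1) := by
    intro q j hq
    have h := side_subset_sq j hq
    refine ⟨h.1, h.2, ?_⟩
    fin_cases j <;> simp only [side, mem_ofPred_eq] at hq
    · right; rw [hq.2]; norm_num
    · left; rw [hq.1]; norm_num
    · right; rw [hq.2]; norm_num
    · left; rw [hq.1]; norm_num
  obtain ⟨hp1, hp2, hp3⟩ := key p i hp
  rcases hp3 with hv | hh
  · -- vertical side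
    have hlt : |p.im| < 1 := lt_of_le_of_ne hp2 fun h => hcor ⟨hv, h⟩
    refine ⟨min 1 (1 - |p.im|), lt_min one_pos (by linarith), fun j q hq hd => ?_⟩
    obtain ⟨hq1, hq2, hq3⟩ := key q j hq
    have h1 := hre q
    have h2 := him q
    have h3 : dist q p < 1 := lt_of_lt_of_le hd (min_le_left _ _)
    have h4 : dist q p < 1 - |p.im| := lt_of_lt_of_le hd (min_le_right _ _)
    have h5 : |q.im| < 1 := by
      have := abs_add_le (q.im - p.im) p.im
      simp only [sub_add_cancel] at this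
      linarith
    have h6 : |q.re| = 1 := hq3.resolve_right h5.ne
    have h7 : q.re = p.re := by
      rcases eq_or_eq_neg_of_abs_eq hv with h | h <;>
        rcases eq_or_eq_neg_of_abs_eq h6 with h' | h'
      · rw [h, h']
      · rw [h, h'] at h1; norm_num at h1; linarith
      · rw [h, h'] at h1; norm_num at h1; linarith
      · rw [h, h']
    fin_cases i <;> simp only [side, mem_ofPred_eq] at hp ⊢
    · exfalso; rw [hp.2] at hlt; norm_num at hlt
    · exact ⟨by rw [h7]; exact hp.1, hq2⟩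
    · exfalso; rw [hp.2] at hlt; norm_num at hlt
    · exact ⟨by rw [h7]; exact hp.1, hq2⟩
  · have hlt : |p.re| < 1 := lt_of_le_of_ne hp1 fun h => hcor ⟨h, hh⟩
    refine ⟨min 1 (1 - |p.re|), lt_min one_pos (by linarith), fun j q hq hd => ?_⟩
    obtain ⟨hq1, hq2, hq3⟩ := key q j hq
    have h1 := hre q
    have h2 := him q
    have h3 : dist q p < 1 := lt_of_lt_of_le hd (min_le_left _ _)
    have h4 : dist q p < 1 - |p.re| := lt_of_lt_of_le hd (min_le_right _ _)
    have h5 : |q.re| < 1 := by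
      have := abs_add_le (q.re - p.re) p.re
      simp only [sub_add_cancel] at this
      linarith
    have h6 : |q.im| = 1 := hq3.resolve_left h5.ne
    have h7 : q.im = p.im := by
      rcases eq_or_eq_neg_of_abs_eq hh with h | h <;>
        rcases eq_or_eq_neg_of_abs_eq h6 with h' | h'
      · rw [h, h']
      · rw [h, h'] at h2; norm_num at h2; linarith
      · rw [h, h'] at h2; norm_num at h2; linarith
      · rw [h, h']
    fin_cases i <;> simp only [side, mem_ofPred_eq] at hp ⊢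
    · exact ⟨hq1, by rw [h7]; exact hp.2⟩
    · exfalso; rw [hp.1] at hlt; norm_num at hlt
    · exact ⟨hq1, by rw [h7]; exact hp.2⟩
    · exfalso; rw [hp.1] at hlt; norm_num at hlt

namespace Quad

variable (Q : Quad)

theorem closure_D : closure Q.D = Q.H '' sq := by
  rw [D, ← Q.H.image_closure, closure_open_sq]

theorem isCompact_closure_D : IsCompact (closure Q.D) := by
  rw [closure_D]
  exact isCompact_sq.image Q.H.continuous

theorem isCompact_arc (i : Fin 4) : IsCompact (Q.arc i) :=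
  (isCompact_sq.of_isClosed_subset (isClosed_side i) (side_subset_sq i)).image Q.H.continuous

theorem arc_subset (i : Fin 4) : Q.arc i ⊆ closure Q.D := by
  rw [closure_D]
  exact image_mono (side_subset_sq i)

/-- Crossings, pulled back to the square. -/
theorem cross_iff (i j : Fin 4) (R : Set ℂ) : Q.Cross i j R ↔
    ∃ K ⊆ (Q.H ⁻¹' R) ∩ sq, IsConnected K ∧ (K ∩ side i).Nonempty ∧ (K ∩ side j).Nonempty := by
  unfold Cross
  rw [closure_D]
  constructor
  · rintro ⟨K, hK, hc, ⟨a, ha, ha'⟩, ⟨b, hb, hb'⟩⟩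
    refine ⟨Q.H ⁻¹' K, ?_, ?_, ?_, ?_⟩
    · intro z hz
      have := hK hz
      refine ⟨this.1, ?_⟩
      obtain ⟨y, hy, hyz⟩ := this.2
      rwa [← Q.H.injective hyz]
    · have : Q.H ⁻¹' K = Q.H.symm '' K := by
        rw [Homeomorph.image_symm]
      rw [this]
      exact hc.image _ Q.H.symm.continuous.continuousOn
    · obtain ⟨x, hx, rfl⟩ := ha'
      exact ⟨x, ha, hx⟩
    · obtain ⟨x, hx, rfl⟩ := hb'
      exact ⟨x, hb, hx⟩
  · rintro ⟨K, hK, hc, ⟨a, ha, ha'⟩, ⟨b, hb, hb'⟩⟩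
    refine ⟨Q.H '' K, ?_, hc.image _ Q.H.continuous.continuousOn, ⟨Q.H a, mem_image_of_mem _ ha,
      mem_image_of_mem _ ha'⟩, ⟨Q.H b, mem_image_of_mem _ hb, mem_image_of_mem _ hb'⟩⟩
    rintro z ⟨y, hy, rfl⟩
    exact ⟨(hK hy).1, mem_image_of_mem _ (hK hy).2⟩

end Quad

/-! ### the gap function -/

theorem continuous_gap (S : Set Pt) : Continuous (gap S) :=
  (continuous_infDist_pt _).sub (continuous_infDist_pt _)

/-- Exchange of the colours. -/
def flip (S : Set Pt) : Set Pt := Prod.map (IsometryEquiv.refl ℂ) Equiv.boolNot '' S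

theorem col_map (σ : ℂ ≃ᵢ ℂ) (τ : Equiv.Perm Bool) (S : Set Pt) (c : Bool) :
    col (Prod.map σ τ '' S) c = σ '' col S (τ.symm c) := by
  ext v
  simp only [col, mem_ofPred_eq, mem_image, Prod.exists, Prod.map_apply, Prod.mk.injEq]
  constructor
  · rintro ⟨a, b, h, rfl, rfl⟩
    exact ⟨a, by simpa using h, rfl⟩
  · rintro ⟨a, h, rfl⟩
    exact ⟨a, _, h, rfl, by simp⟩

theorem gap_isometry (σ : ℂ ≃ᵢ ℂ) (S : Set Pt) (z : ℂ) :
    gap (Prod.map σ (Equiv.refl Bool) '' S) (σ z) = gap S z := by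
  unfold gap
  rw [col_map, col_map]
  simp only [Equiv.refl_symm, Equiv.refl_apply]
  rw [infDist_image σ.isometry, infDist_image σ.isometry]

theorem gap_flip (S : Set Pt) (z : ℂ) : gap (flip S) z = - gap S z := by
  unfold gap flip
  rw [col_map, col_map]
  have h1 : ∀ A : Set ℂ, (IsometryEquiv.refl ℂ) '' A = A := fun A => by
    have : ((IsometryEquiv.refl ℂ : ℂ ≃ᵢ ℂ) : ℂ → ℂ) = id := rfl
    rw [this, image_id]
  rw [h1, h1]
  simp

/-- A closed point set of one colour. -/
theorem Good.isClosed_col {S : Set Pt} (h : Good S) (c : Bool) : IsClosed (col S c) := by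
  have hfin : ∀ r : ℝ, (col S c ∩ ball (0 : ℂ) r).Finite := by
    intro r
    refine ((h.locFin r).image Prod.fst).subset ?_
    rintro v ⟨h1, h2⟩
    exact ⟨(v, c), ⟨h1, h2, mem_univ _⟩, rfl⟩
  rw [← isOpen_compl_iff, Metric.isOpen_iff]
  intro z hz
  have hf := hfin (‖z‖ + 1)
  obtain ⟨δ, hδ, hball⟩ := Metric.isOpen_iff.1 hf.isClosed.isOpen_compl z (fun h => hz h.1)
  refine ⟨min δ 1, lt_min hδ one_pos, fun y hy hyc => ?_⟩
  have hy1 : dist y z < δ := lt_of_lt_of_le hy (min_le_left _ _)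
  have hy2 : dist y z < 1 := lt_of_lt_of_le hy (min_le_right _ _)
  refine hball hy1 ⟨hyc, ?_⟩
  rw [mem_ball, dist_zero_right]
  have : ‖y‖ ≤ ‖y - z‖ + ‖z‖ := by
    have := norm_add_le (y - z) z
    simpa using this
  rw [dist_eq_norm] at hy2
  linarith

/-- At a zero of `gap` there is a black and a white point at the same distance. -/
theorem Good.exists_pair {S : Set Pt} (h : Good S) {z : ℂ} (hz : gap S z = 0) :
    ∃ v ∈ pts S, ∃ w ∈ pts S, v ≠ w ∧ dist z v = dist z w := by
  obtain ⟨v, hv, hv'⟩ := (h.isClosed_col true).exists_infDist_eq_dist (h.colours true) z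
  obtain ⟨w, hw, hw'⟩ := (h.isClosed_col false).exists_infDist_eq_dist (h.colours false) z
  refine ⟨v, ⟨(v, true), hv, rfl⟩, w, ⟨(w, false), hw, rfl⟩, ?_, ?_⟩
  · rintro rfl
    exact h.oneColour v ⟨hv, hw⟩
  · unfold gap at hz
    linarith

end P148
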