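import Vale.Agent.P148.Asm1

/-!
# P148, assembly 2: measurability and the almost sure dichotomy
-/

open MeasureTheory Set Metric Topology Filter ProbabilityTheory
open scoped ENNReal NNReal

namespace P148

universe u

theorem measurable_infEDist (z : ℂ) (c : Bool) :
    Measurable[voidSigma] fun S : Set Pt => infEDist z (col S c) := by
  let _ : MeasurableSpace (Set Pt) := voidSigma
  refine measurable_of_Iio fun a => ?_
  have : (fun S : Set Pt => infEDist z (col S c)) ⁻¹' Iio a =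
      ⋃ q ∈ {q : ℚ | 0 ≤ q ∧ ((Real.toNNReal q : ℝ≥0) : ℝ≥0∞) ≤ a},
        {S : Set Pt | S ∩ (ball z (q : ℝ) ×ˢ {c}) = ∅}ᶜ := by
    ext S
    simp only [mem_preimage, mem_Iio, mem_iUnion, mem_ofPred_eq, exists_prop, mem_compl_iff,
      ← nonempty_iff_ne_empty, ← ne_eq]
    constructor
    · intro h
      obtain ⟨q, hq0, hq1, hq2⟩ := ENNReal.lt_iff_exists_rat_btwn.1 h
      refine ⟨q, ⟨hq0, hq2.le⟩, ?_⟩
      obtain ⟨v, hv, hvd⟩ := infEDist_lt_iff.1 hq1
      refine ⟨(v, c), hv, ?_, rfl⟩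
      have hq0' : (0 : ℝ) ≤ q := by exact_mod_cast hq0
      rw [edist_dist, ENNReal.ofReal_lt_iff_lt_toReal dist_nonneg ENNReal.coe_ne_top] at hvd
      rw [ENNReal.coe_toReal, Real.coe_toNNReal _ hq0'] at hvd
      rw [mem_ball, dist_comm]
      exact hvd
    · rintro ⟨q, ⟨hq0, hq2⟩, ⟨v, c'⟩, hS, hv, hc⟩
      have hc' : c' = c := hc
      subst hc'
      have hq0' : (0 : ℝ) ≤ q := by exact_mod_cast hq0
      refine lt_of_lt_of_le (infEDist_lt_iff.2 ⟨v, hS, ?_⟩) hq2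
      rw [edist_dist, ENNReal.ofReal_lt_iff_lt_toReal dist_nonneg ENNReal.coe_ne_top,
        ENNReal.coe_toReal, Real.coe_toNNReal _ hq0', dist_comm]
      exact hv
  rw [this]
  refine MeasurableSet.biUnion (to_countable _) fun q hq => MeasurableSet.compl ?_
  refine MeasurableSpace.measurableSet_generateFrom ⟨_, measurableSet_ball.prod (.singleton c),
    ⟨‖z‖ + q, ?_⟩, rfl⟩
  rintro ⟨v, c'⟩ ⟨hv, -⟩
  refine ⟨?_, mem_univ _⟩
  rw [mem_ball, dist_zero_right]
  have hv' : dist v z < q := hv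
  rw [dist_eq_norm] at hv'
  have := norm_add_le (v - z) z
  simp only [sub_add_cancel] at this
  linarith

theorem measurable_gap (z : ℂ) : Measurable[voidSigma] fun S : Set Pt => gap S z := by
  let _ : MeasurableSpace (Set Pt) := voidSigma
  have h : ∀ c, Measurable fun S : Set Pt => infDist z (col S c) := fun c =>
    (measurable_infEDist z c).ennreal_toReal
  exact (h true).sub (h false)

/-- The crossing event in terms of the gap function. -/
def crossSet (Q : Quad) (i j : Fin 4) : Set (Set Pt) := {S | Q.Cross i j {z | gap S z ≤ 0}}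

theorem measurable_crossSet (hM : MeasCrossStmt.{0}) (Q : Quad) (i j : Fin 4) :
    MeasurableSet[voidSigma] (crossSet Q i j) :=
  @hM (Set Pt) voidSigma gap continuous_gap measurable_gap (closure Q.D) (Q.arc i) (Q.arc j)
    Q.isCompact_closure_D (Q.isCompact_arc i) (Q.isCompact_arc j) (Q.arc_subset i) (Q.arc_subset j)

/-- The boundary conditions on a configuration. -/
structure GoodBd (Q : Quad) (S : Set Pt) : Prop extends Good S where
  corner : ∀ i, gap S (Q.mark i) ≠ 0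
  bd : TameBd (gap S ∘ Q.H)

theorem tame_comp {G : ℂ → ℝ} (hG : Tame G) (H : ℂ ≃ₜ ℂ) : Tame (G ∘ H) := by
  intro p hp δ hδ
  have hcont : ∀ᶠ y in 𝓝 (H p), H.symm y ∈ ball p δ := by
    have := H.symm.continuous.continuousAt (x := H p)
    rw [ContinuousAt, H.symm_apply_apply] at this
    exact this (ball_mem_nhds p hδ)
  obtain ⟨ε, hε, hball⟩ := Metric.eventually_nhds_iff_ball.1 hcont
  obtain ⟨N, h1, h2, h3, h4, h5, h6, h7⟩ := hG (H p) hp ε hε
  have hcl : ∀ U : Set ℂ, H p ∈ closure U → p ∈ closure (H ⁻¹' U) := by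
    intro U hU
    rw [← H.preimage_closure]
    exact hU
  have hpre : ∀ U : Set ℂ, IsPreconnected U → IsPreconnected (H ⁻¹' U) := by
    intro U hU
    have : H ⁻¹' U = H.symm '' U := by rw [Homeomorph.image_symm]
    rw [this]
    exact hU.image _ H.symm.continuous.continuousOn
  refine ⟨H ⁻¹' N, h1.preimage H.continuous, h2, ?_, hpre _ h4, hpre _ h5, hcl _ h6, hcl _ h7⟩
  intro y hy
  have := hball (H y) (h3 hy)
  rwa [H.symm_apply_apply] at this

/-- Deterministic dichotomy. -/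
theorem dichotomy (hD : DualStmt) (hN : NotBothStmt) (hT : TameStmt) (Q : Quad) (S : Set Pt)
    (hS : GoodBd Q S) : S ∈ crossSet Q 0 2 ↔ flip S ∉ crossSet Q 1 3 := by
  have hcont : Continuous (gap S ∘ Q.H) := (continuous_gap S).comp Q.H.continuous
  have e1 : S ∈ crossSet Q 0 2 ↔ ∃ K ⊆ {z | (gap S ∘ Q.H) z ≤ 0} ∩ sq, IsConnected K ∧
      (K ∩ side 0).Nonempty ∧ (K ∩ side 2).Nonempty := Q.cross_iff 0 2 _
  have e2 : flip S ∈ crossSet Q 1 3 ↔ ∃ K ⊆ {z | 0 ≤ (gap S ∘ Q.H) z} ∩ sq, IsConnected K ∧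
      (K ∩ side 1).Nonempty ∧ (K ∩ side 3).Nonempty := by
    have : {z | gap (flip S) z ≤ 0} = {z | 0 ≤ gap S z} := by
      ext z
      simp only [mem_ofPred_eq, gap_flip, Left.neg_nonpos_iff]
    unfold crossSet
    rw [mem_ofPred_eq, this]
    exact Q.cross_iff 1 3 _
  rw [e1, e2]
  constructor
  · intro h1 h2
    exact hN (gap S ∘ Q.H) hcont (tame_comp (hT S hS.toGood) Q.H) hS.bd hS.corner h1 h2
  · intro h
    have hc1 : IsClosed {z | (gap S ∘ Q.H) z ≤ 0} := isClosed_le hcont continuous_const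
    have hc2 : IsClosed {z | 0 ≤ (gap S ∘ Q.H) z} := isClosed_le continuous_const hcont
    have hcov : sq ⊆ {z | (gap S ∘ Q.H) z ≤ 0} ∪ {z | 0 ≤ (gap S ∘ Q.H) z} := by
      intro z _
      rcases le_total ((gap S ∘ Q.H) z) 0 with h0 | h0
      · exact Or.inl h0
      · exact Or.inr h0
    rcases hD _ _ hc1 hc2 hcov with h' | h'
    · exact h'
    · exact absurd h' h

section prob

variable {Ω : Type u} [MeasurableSpace Ω] {P : Measure Ω} [IsProbabilityMeasure P]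
  {S : Ω → Set Pt} {lam : ℝ≥0}

theorem ae_good (hK : KPointStmt.{u}) (hC : ColoursStmt.{u}) (hF : FourStmt) (hlam : 0 < lam)
    (h : IsColouredPoisson P S lam) : ∀ᵐ ω ∂P, Good (S ω) := by
  filter_upwards [hC Ω P S lam hlam h, hK Ω P S lam h 4 _ hF] with ω h1 h2
  exact ⟨h.locFin ω, h.oneColour ω, h1, fun x hx hxS hz => h2 x hx hxS ⟨hx, hz⟩⟩

theorem ae_corner (hK : KPointStmt.{u}) (hCo : CornerStmt) (a : ℂ)
    (h : IsColouredPoisson P S lam) : ∀ᵐ ω ∂P, Good (S ω) → gap (S ω) a ≠ 0 := by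
  filter_upwards [hK Ω P S lam h 2 _ (hCo a)] with ω h1 hg h0
  obtain ⟨v, hv, w, hw, hvw, hd⟩ := hg.exists_pair h0
  refine h1 ![v, w] ?_ ?_ ?_
  · intro i j hij
    fin_cases i <;> fin_cases j <;> first | rfl | (exfalso; simp at hij; first | exact hvw hij | exact hvw hij.symm)
  · intro i
    fin_cases i
    · exact hv
    · exact hw
  · exact hd

/-- The boundary of the domain. -/
def bdry (Q : Quad) : Set ℂ := ⋃ i, Q.arc i

theorem isCompact_bdry (Q : Quad) : IsCompact (bdry Q) := isCompact_iUnion fun i => Q.isCompact_arc i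

theorem ae_bd (hK : KPointStmt.{u}) (hPair : PairStmt) (hDe : DensityStmt) (hCi : CircStmt)
    (hBd : BdStmt) (Q : Quad) (h : IsColouredPoisson P S lam) :
    ∀ᵐ ω ∂P, Good (S ω) → (∀ i, gap (S ω) (Q.mark i) ≠ 0) → TameBd (gap (S ω) ∘ Q.H) := by
  have hB : ∀ᵐ ω ∂P, ∀ U ∈ TopologicalSpace.countableBasis ℂ, ∀ x : Fin 2 → ℂ,
      Function.Injective x → (∀ i, x i ∈ pts (S ω)) →
        x ∉ {x : Fin 2 → ℂ | x 0 ≠ x 1 ∧ (∀ y ∈ bdry Q ∩ U, 0 ≤ ell (x 0) (x 1) y) ∧
          ∀ ε > 0, ∃ y ∈ bdry Q ∩ U, ell (x 0) (x 1) y < ε} := by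
    rw [ae_ball_iff (TopologicalSpace.countable_countableBasis ℂ)]
    intro U _
    exact hK Ω P S lam h 2 _ (hPair _ ((isCompact_bdry Q).isBounded.subset inter_subset_left))
  have hCC := hK Ω P S lam h 3 _ (hCi (coneFree (bdry Q)) (hDe _ (isCompact_bdry Q).isClosed))
  filter_upwards [hB, hCC] with ω h1 h2 hg hco
  -- the two excluded situations
  have key : ∀ z ∈ bdry Q, gap (S ω) z = 0 → ∀ r > 0,
      ¬ ((∀ y ∈ bdry Q ∩ ball z r, 0 ≤ gap (S ω) y) ∨
        (∀ y ∈ bdry Q ∩ ball z r, gap (S ω) y ≤ 0)) := by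
    intro z hz h0 r hr hbad
    rcases hBd (S ω) hg (bdry Q) (isCompact_bdry Q).isClosed z hz h0 r hr hbad with
      ⟨v, hv, w, hw, hvw, hell, r', hr', hsup⟩ | ⟨hcone, x, hx, hxS, hx1, hx2⟩
    · obtain ⟨U, hU, hzU, hUr⟩ := (TopologicalSpace.isBasis_countableBasis ℂ).exists_subset_of_mem_open
        (mem_ball_self hr' : z ∈ ball z r') isOpen_ball
      refine h1 U hU ![v, w] ?_ ?_ ⟨hvw, fun y hy => hsup y ⟨hy.1, hUr hy.2⟩, fun ε hε =>
        ⟨z, ⟨hz, hzU⟩, ?_⟩⟩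
      · intro i j hij
        fin_cases i <;> fin_cases j <;> first | rfl | (exfalso; simp at hij; first | exact hvw hij | exact hvw hij.symm)
      · intro i
        fin_cases i
        · exact hv
        · exact hw
      · show ell v w z < ε
        rw [hell]; exact hε
    · exact h2 x hx hxS ⟨hx, z, hcone, hx1, hx2⟩
  intro i p hp h0 δ hδ
  have hpc : ∀ j, p ≠ corner j := by
    rintro j rfl
    exact hco j h0
  obtain ⟨δ', hδ', hloc⟩ := side_local i hp hpc
  have hev : ∀ᶠ y in 𝓝 (Q.H p), Q.H.symm y ∈ ball p (min δ δ') := by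
    have := Q.H.symm.continuous.continuousAt (x := Q.H p)
    rw [ContinuousAt, Q.H.symm_apply_apply] at this
    exact this (ball_mem_nhds p (lt_min hδ hδ'))
  obtain ⟨r, hr, hball⟩ := Metric.eventually_nhds_iff_ball.1 hev
  have hpull : ∀ y ∈ bdry Q ∩ ball (Q.H p) r, ∃ q ∈ side i, dist q p < δ ∧ Q.H q = y := by
    rintro y ⟨hy1, hy2⟩
    obtain ⟨j, q, hq, rfl⟩ := mem_iUnion.1 hy1
    have h3 := hball _ hy2
    rw [Q.H.symm_apply_apply, mem_ball] at h3
    exact ⟨q, hloc j q hq (lt_of_lt_of_le h3 (min_le_right _ _)),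
      lt_of_lt_of_le h3 (min_le_left _ _), rfl⟩
  have hzb : Q.H p ∈ bdry Q := mem_iUnion.2 ⟨i, p, hp, rfl⟩
  have hk := key (Q.H p) hzb h0 r hr
  push Not at hk
  obtain ⟨⟨y, hy, hy'⟩, ⟨y', hy1, hy1'⟩⟩ := hk
  obtain ⟨q, hq, hq', rfl⟩ := hpull y hy
  obtain ⟨q', hq1, hq1', rfl⟩ := hpull y' hy1
  exact ⟨⟨q, hq, hq', hy'⟩, ⟨q', hq1, hq1', hy1'⟩⟩

theorem ae_goodBd (hK : KPointStmt.{u}) (hC : ColoursStmt.{u}) (hF : FourStmt) (hCo : CornerStmt)
    (hPair : PairStmt) (hDe : DensityStmt) (hCi : CircStmt) (hBd : BdStmt) (hlam : 0 < lam)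
    (Q : Quad) (h : IsColouredPoisson P S lam) : ∀ᵐ ω ∂P, GoodBd Q (S ω) := by
  have hc : ∀ᵐ ω ∂P, ∀ i, Good (S ω) → gap (S ω) (Q.mark i) ≠ 0 :=
    ae_all_iff.2 fun i => ae_corner hK hCo _ h
  filter_upwards [ae_good hK hC hF hlam h, hc, ae_bd hK hPair hDe hCi hBd Q h] with ω h1 h2 h3
  exact { toGood := h1, corner := fun i => h2 i h1, bd := h3 h1 fun i => h2 i h1 }

end prob

end P148
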