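import Vale.Agent.P148.Asm2

/-!
# P148, assembly 3: exact self-duality and symmetric quads
-/

open MeasureTheory Set Metric Topology Filter ProbabilityTheory
open scoped ENNReal NNReal

namespace P148

universe u

theorem pts_flip (S : Set Pt) : pts (flip S) = pts S := by
  unfold pts flip
  rw [image_image]
  rfl

theorem whiteRegion_eq (S : Set Pt) : whiteRegion S = blackRegion (flip S) := by
  have h1 : {v : ℂ | (v, true) ∈ flip S} = {v : ℂ | (v, false) ∈ S} := by
    have := col_map (IsometryEquiv.refl ℂ) Equiv.boolNot S true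
    unfold col at this
    unfold flip
    rw [this]
    have h2 : ((IsometryEquiv.refl ℂ : ℂ ≃ᵢ ℂ) : ℂ → ℂ) = id := rfl
    rw [h2, image_id]
    rfl
  unfold whiteRegion blackRegion cell
  rw [h1, pts_flip]

theorem Good.flip {S : Set Pt} (h : Good S) : Good (flip S) where
  locFin := by
    intro r
    refine ((h.locFin r).image (Prod.map (IsometryEquiv.refl ℂ) Equiv.boolNot)).subset ?_
    rintro _ ⟨⟨⟨v, c⟩, hv, rfl⟩, hb⟩
    exact ⟨(v, c), ⟨hv, hb.1, mem_univ _⟩, rfl⟩
  oneColour := by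
    rintro z ⟨⟨⟨v, c⟩, h1, h2⟩, ⟨⟨v', c'⟩, h3, h4⟩⟩
    simp only [Prod.map_apply, Prod.mk.injEq] at h2 h4
    obtain ⟨h5, h6⟩ := h2
    obtain ⟨h7, h8⟩ := h4
    have h9 : v = z := h5
    have h10 : v' = z := h7
    subst h9
    subst h10
    have h11 : c = false := by cases c <;> simp_all
    have h12 : c' = true := by cases c' <;> simp_all
    subst h11
    subst h12
    exact h.oneColour _ ⟨h3, h1⟩
  colours := by
    intro c
    obtain ⟨v, hv⟩ := h.colours (!c)
    refine ⟨v, ⟨(v, !c), hv, ?_⟩⟩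
    simp only [Prod.map_apply, Prod.mk.injEq]
    exact ⟨rfl, by simp⟩
  four := by
    intro x hx hxS
    exact h.four x hx (fun i => by rw [← pts_flip]; exact hxS i)

section prob

variable {Ω : Type u} [MeasurableSpace Ω] {P : Measure Ω} [IsProbabilityMeasure P]
  {S : Ω → Set Pt} {lam : ℝ≥0}

/-- The crossing probability does not depend on which colour is used. -/
theorem prob_flip (hI : InvStmt.{u}) (hM : MeasCrossStmt.{0}) (Q : Quad) (i j : Fin 4)
    (h : IsColouredPoisson P S lam) :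
    MeasurableSet {ω | S ω ∈ crossSet Q i j} ∧ MeasurableSet {ω | flip (S ω) ∈ crossSet Q i j} ∧
      P {ω | flip (S ω) ∈ crossSet Q i j} = P {ω | S ω ∈ crossSet Q i j} :=
  hI Ω P S lam h (IsometryEquiv.refl ℂ) Equiv.boolNot _ (measurable_crossSet hM Q i j)

theorem prob_sum (hI : InvStmt.{u}) (hM : MeasCrossStmt.{0}) (hD : DualStmt) (hN : NotBothStmt)
    (hT : TameStmt) (Q : Quad) (h : IsColouredPoisson P S lam) (hg : ∀ᵐ ω ∂P, GoodBd Q (S ω)) :
    P {ω | S ω ∈ crossSet Q 0 2} + P {ω | S ω ∈ crossSet Q 1 3} = 1 := by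
  obtain ⟨-, hm2, he⟩ := prob_flip hI hM Q 1 3 h
  rw [← he]
  have h1 : P {ω | S ω ∈ crossSet Q 0 2} = P {ω | flip (S ω) ∈ crossSet Q 1 3}ᶜ := by
    refine measure_congr ?_
    filter_upwards [hg] with ω hω
    exact propext (dichotomy hD hN hT Q (S ω) hω)
  rw [h1, add_comm]
  exact prob_add_prob_compl hm2

/-- Symmetric quads. -/
theorem prob_symm (hI : InvStmt.{u}) (hM : MeasCrossStmt.{0}) (Q : Quad) (hQ : Q.SelfDual)
    (h : IsColouredPoisson P S lam) :
    P {ω | S ω ∈ crossSet Q 1 3} = P {ω | S ω ∈ crossSet Q 0 2} := by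
  obtain ⟨σ, hσD, p, harc, hpar⟩ := hQ
  have hcl : σ '' closure Q.D = closure Q.D := by
    have := (σ.toHomeomorph).image_closure Q.D
    have h2 : (σ.toHomeomorph : ℂ → ℂ) = σ := rfl
    rw [h2, hσD] at this
    exact this
  have h13 : (p 0 = 1 ∧ p 2 = 3) ∨ (p 0 = 3 ∧ p 2 = 1) := by
    have h0 := hpar 0
    have h2 := hpar 2
    have hne : p 0 ≠ p 2 := fun h => by
      have := p.injective h
      exact absurd this (by decide)
    revert h0 h2 hne
    generalize p 0 = a
    generalize p 2 = b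
    revert a b
    decide
  have hset : ∀ T : Set Pt, Prod.map σ (Equiv.refl Bool) '' T ∈ crossSet Q 1 3 ↔
      T ∈ crossSet Q 0 2 := by
    intro T
    have hK : ∀ K : Set ℂ, (K ⊆ {z | gap T z ≤ 0} ∩ closure Q.D ∧ IsConnected K ∧
        (K ∩ Q.arc 0).Nonempty ∧ (K ∩ Q.arc 2).Nonempty) ↔
        (σ '' K ⊆ {z | gap (Prod.map σ (Equiv.refl Bool) '' T) z ≤ 0} ∩ closure Q.D ∧
          IsConnected (σ '' K) ∧ (σ '' K ∩ Q.arc 1).Nonempty ∧ (σ '' K ∩ Q.arc 3).Nonempty) := by
      intro K
      have a1 : K ⊆ {z | gap T z ≤ 0} ∩ closure Q.D ↔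
          σ '' K ⊆ {z | gap (Prod.map σ (Equiv.refl Bool) '' T) z ≤ 0} ∩ closure Q.D := by
        rw [image_subset_iff]
        refine forall_congr' fun z => forall_congr' fun _ => ?_
        simp only [mem_inter_iff, mem_ofPred_eq, mem_preimage, gap_isometry]
        refine and_congr_right fun _ => ?_
        constructor
        · intro hz
          rw [← hcl]
          exact mem_image_of_mem _ hz
        · intro hz
          rw [← hcl] at hz
          obtain ⟨y, hy, hyz⟩ := hz
          rwa [← σ.injective hyz]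
      have a2 : IsConnected K ↔ IsConnected (σ '' K) :=
        (σ.toHomeomorph.isConnected_image).symm
      have a3 : ∀ i, (K ∩ Q.arc i).Nonempty ↔ (σ '' K ∩ Q.arc (p i)).Nonempty := by
        intro i
        rw [← harc i, ← image_inter σ.injective, image_nonempty]
      rw [← a1, ← a2]
      refine and_congr_right fun _ => and_congr_right fun _ => ?_
      rcases h13 with ⟨h1, h3⟩ | ⟨h1, h3⟩
      · rw [a3 0, a3 2, h1, h3]
      · rw [a3 0, a3 2, h1, h3, and_comm]
    constructor
    · rintro ⟨K, h1, h2, h3, h4⟩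
      have hKe : σ '' (σ ⁻¹' K) = K := image_preimage_eq _ σ.surjective
      have := (hK (σ ⁻¹' K)).2 (by rw [hKe]; exact ⟨h1, h2, h3, h4⟩)
      exact ⟨_, this⟩
    · rintro ⟨K, h1⟩
      exact ⟨_, (hK K).1 h1⟩
  obtain ⟨-, -, he⟩ := hI Ω P S lam h σ (Equiv.refl Bool) _ (measurable_crossSet hM Q 1 3)
  rw [← he]
  congr 1
  ext ω
  exact hset (S ω)

end prob

end P148
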