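import Vale.Agent.P148.Tame

/-!
# P148, row L2: a zero of `gap` on a closed set near which only one sign occurs on the set
-/

open MeasureTheory Set Metric Topology Filter ProbabilityTheory
open scoped ENNReal NNReal

namespace P148

theorem nearest_finite {C : Set ℂ} (hf : ∀ r : ℝ, (C ∩ ball (0 : ℂ) r).Finite) (z : ℂ) :
    (nearest C z).Finite := by
  refine (hf (‖z‖ + infDist z C + 1)).subset ?_
  rintro v ⟨hv, hd⟩
  refine ⟨hv, ?_⟩
  rw [mem_ball_zero_iff]
  have : ‖v‖ ≤ ‖z‖ + dist z v := by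
    rw [dist_comm, dist_eq_norm]
    calc ‖v‖ = ‖z + (v - z)‖ := by congr 1; ring
      _ ≤ _ := norm_add_le _ _
  linarith

theorem coneFree_aux {A : Set ℂ} {z b : ℂ} {W : Set ℂ} (hW : W.Finite)
    (hd : ∀ w ∈ W, dist z w = dist z b) (hb : b ∉ W) {r : ℝ} (hr : 0 < r)
    (hA : ∀ y ∈ A ∩ ball z r, ¬ ∀ w ∈ W, dist y b < dist y w) (hz : z ∈ A) :
    z ∈ coneFree A := by
  have hopen : IsOpen {y : ℂ | ∀ w ∈ W, dist y b < dist y w} := by
    have : {y : ℂ | ∀ w ∈ W, dist y b < dist y w} = ⋂ w ∈ W, {y : ℂ | dist y b < dist y w} := by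
      ext y; simp
    rw [this]
    exact hW.isOpen_biInter fun w _ => isOpen_lt (by fun_prop) (by fun_prop)
  have hmem : z + ((1 : ℝ) : ℂ) * (b - z) ∈ {y : ℂ | ∀ w ∈ W, dist y b < dist y w} := by
    intro w hw
    exact dist_lt_toward (hd w hw).symm (fun h => hb (h ▸ hw)) one_pos
  obtain ⟨τ, hτ, hball⟩ := Metric.isOpen_iff.1 hopen _ hmem
  have hpos : 0 < ‖b - z‖ + τ := by positivity
  refine ⟨hz, b - z, τ, hτ, r / (‖b - z‖ + τ), by positivity, fun s hs hsr => ?_⟩
  rw [Set.disjoint_left]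
  intro y hy hyA
  rw [mem_ball, dist_eq_norm] at hy
  have hs' : (s : ℂ) ≠ 0 := by exact_mod_cast hs.ne'
  -- rescale
  have hy' : z + (s : ℂ)⁻¹ * (y - z) ∈ {y : ℂ | ∀ w ∈ W, dist y b < dist y w} := by
    apply hball
    rw [mem_ball, dist_eq_norm]
    have e : z + (s : ℂ)⁻¹ * (y - z) - (z + ((1 : ℝ) : ℂ) * (b - z)) =
        (s : ℂ)⁻¹ * (y - (z + s * (b - z))) := by
      field_simp
      push_cast
      ring
    rw [e, norm_mul, norm_inv, Complex.norm_real, Real.norm_of_nonneg hs.le, inv_mul_lt_iff₀ hs]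
    exact hy
  refine hA y ⟨hyA, ?_⟩ ?_
  · rw [mem_ball, dist_eq_norm]
    have h1 : ‖y - z‖ ≤ ‖y - (z + s * (b - z))‖ + s * ‖b - z‖ := by
      calc ‖y - z‖ = ‖(y - (z + s * (b - z))) + s * (b - z)‖ := by congr 1; ring
        _ ≤ ‖y - (z + s * (b - z))‖ + ‖(s : ℂ) * (b - z)‖ := norm_add_le _ _
        _ = _ := by rw [norm_mul, Complex.norm_real, Real.norm_of_nonneg hs.le]
    rw [lt_div_iff₀ hpos] at hsr
    linarith
  · intro w hw
    have h := hy' w hw
    rw [dist_lt_iff (hd w hw).symm] at h ⊢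
    have e : z + (s : ℂ)⁻¹ * (y - z) - z = s⁻¹ • (y - z) := by
      rw [Complex.real_smul]; push_cast; ring
    rw [e, real_inner_smul_left] at h
    exact pos_of_mul_pos_right h (inv_pos.2 hs).le

theorem ell_eq_zero {z v w : ℂ} (h : dist z v = dist z w) : ell v w z = 0 := by
  rw [ell, h, sub_self]

theorem ell_nonneg {y v w : ℂ} (h : dist y w ≤ dist y v) : 0 ≤ ell v w y := by
  rw [ell, sub_nonneg]
  exact pow_le_pow_left₀ dist_nonneg h 2

theorem bd_aux {S : Set Pt} {A : Set ℂ} {z w : ℂ} {B : Set ℂ} (hBf : B.Finite)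
    (hne : B.Nonempty) (hB : ∀ b ∈ B, dist z b = dist z w) (hw : w ∉ B)
    (hwp : w ∈ pts S) (hBp : ∀ b ∈ B, b ∈ pts S) {r : ℝ} (hr : 0 < r) (hz : z ∈ A)
    (h : (∀ y ∈ A ∩ ball z r, ¬ ∃ b ∈ B, dist y b < dist y w) ∨
      (∀ y ∈ A ∩ ball z r, ¬ ∀ b ∈ B, dist y w < dist y b)) :
    (∃ v ∈ pts S, ∃ w ∈ pts S, v ≠ w ∧ ell v w z = 0 ∧
      ∃ r' > 0, ∀ y ∈ A ∩ ball z r', 0 ≤ ell v w y) ∨
    (z ∈ coneFree A ∧ ∃ x : Fin 3 → ℂ, Function.Injective x ∧ (∀ i, x i ∈ pts S) ∧
      dist z (x 0) = dist z (x 1) ∧ dist z (x 0) = dist z (x 2)) := by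
  obtain ⟨b, hb⟩ := hne
  have hbw : b ≠ w := fun h => hw (h ▸ hb)
  rcases h with h | h
  · left
    refine ⟨b, hBp b hb, w, hwp, hbw, ell_eq_zero (hB b hb), r, hr, fun y hy => ?_⟩
    refine ell_nonneg (le_of_not_gt fun hlt => h y hy ⟨b, hb, hlt⟩)
  · by_cases hsub : ∀ b' ∈ B, b' = b
    · left
      refine ⟨w, hwp, b, hBp b hb, hbw.symm, ell_eq_zero (hB b hb).symm, r, hr, fun y hy => ?_⟩
      refine ell_nonneg (le_of_not_gt fun hlt => h y hy fun b' hb' => ?_)
      rwa [hsub b' hb']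
    · right
      push Not at hsub
      obtain ⟨b', hb', hbb⟩ := hsub
      refine ⟨coneFree_aux hBf hB hw hr h hz, ![w, b, b'], ?_, ?_, ?_, ?_⟩
      · have hb'w : b' ≠ w := fun h => hw (h ▸ hb')
        intro i j hij
        fin_cases i <;> fin_cases j <;> simp_all
      · intro i
        fin_cases i
        exacts [hwp, hBp b hb, hBp b' hb']
      · exact (hB b hb).symm
      · exact (hB b' hb').symm

/-- L2. -/
theorem bd : BdStmt := by
  intro S hS A _ z hz hgap r hr hsign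
  obtain ⟨r₀, hr₀, h⟩ := hS.local z
  have hm : 0 < min r r₀ := lt_min hr hr₀
  have hb1 : ∀ y ∈ A ∩ ball z (min r r₀), y ∈ A ∩ ball z r := fun y hy =>
    ⟨hy.1, ball_subset_ball (min_le_left _ _) hy.2⟩
  have hb2 : ∀ y ∈ A ∩ ball z (min r r₀), y ∈ ball z r₀ := fun y hy =>
    ball_subset_ball (min_le_right _ _) hy.2
  rcases hS.one_near hgap with ⟨b, hb⟩ | ⟨w, hw⟩
  · have hbm : b ∈ nearest (col S true) z := by rw [hb]; rfl
    refine bd_aux (w := b) (B := nearest (col S false) z)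
      (nearest_finite (hS.finite_col false) z) (hS.near_nonempty false z)
      (fun w hw => near_dist hgap hw hbm) (fun hbw => hS.near_ne hbm hbw rfl)
      (mem_pts_of_col hbm.1) (fun w hw => mem_pts_of_col hw.1) hm hz ?_
    rcases hsign with hs | hs
    · right
      intro y hy hall
      have := hs y (hb1 y hy)
      have h2 : gap S y < 0 := (h y (hb2 y hy)).1.2 ⟨b, hbm, hall⟩
      linarith
    · left
      rintro y hy ⟨w, hw, hlt⟩
      have := hs y (hb1 y hy)
      have h2 : 0 < gap S y := (h y (hb2 y hy)).2.2 ⟨w, hw, fun v hv => by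
        rw [hb, mem_singleton_iff] at hv
        rwa [hv]⟩
      linarith
  · have hwm : w ∈ nearest (col S false) z := by rw [hw]; rfl
    refine bd_aux (w := w) (B := nearest (col S true) z)
      (nearest_finite (hS.finite_col true) z) (hS.near_nonempty true z)
      (fun v hv => near_dist hgap hv hwm) (fun hbw => hS.near_ne hbw hwm rfl)
      (mem_pts_of_col hwm.1) (fun w hw => mem_pts_of_col hw.1) hm hz ?_
    rcases hsign with hs | hs
    · left
      rintro y hy ⟨v, hv, hlt⟩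
      have := hs y (hb1 y hy)
      have h2 : gap S y < 0 := (h y (hb2 y hy)).1.2 ⟨v, hv, fun w' hw' => by
        rw [hw, mem_singleton_iff] at hw'
        rwa [hw']⟩
      linarith
    · right
      intro y hy hall
      have := hs y (hb1 y hy)
      have h2 : 0 < gap S y := (h y (hb2 y hy)).2.2 ⟨w, hwm, hall⟩
      linarith

end P148
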