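import Vale.Agent.P148.Props

/-!
# P148: Cardy's function at one half
-/

open MeasureTheory Set intervalIntegral

namespace P148

lemma cardyHalf_symm (u : ℝ) :
    ((1 - u) * (1 - (1 - u))) ^ (-(2 / 3) : ℝ) = (u * (1 - u)) ^ (-(2 / 3) : ℝ) := by
  congr 1; ring

lemma cardyHalf_int : IntervalIntegrable (fun u : ℝ => (u * (1 - u)) ^ (-(2 / 3) : ℝ)) volume 0
    (1 / 2) := by
  have h1 : IntervalIntegrable (fun u : ℝ => u ^ (-(2 / 3) : ℝ)) volume 0 (1 / 2) :=
    intervalIntegrable_rpow' (by norm_num)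
  have h2 : ContinuousOn (fun u : ℝ => (1 - u) ^ (-(2 / 3) : ℝ)) (uIcc 0 (1 / 2)) := by
    refine ContinuousOn.rpow_const (by fun_prop) ?_
    intro u hu
    rw [uIcc_of_le (by norm_num)] at hu
    left
    have := hu.2
    linarith
  have h3 := h1.mul_continuousOn h2
  refine h3.congr ?_
  intro u hu
  rw [uIoc_of_le (by norm_num)] at hu
  have ha := hu.1
  have hb := hu.2
  simp only
  rw [Real.mul_rpow (by linarith) (by linarith)]

/-- Row F. -/
theorem cardyHalf : CardyHalfStmt := by
  unfold CardyHalfStmt cardy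
  set f : ℝ → ℝ := fun u => (u * (1 - u)) ^ (-(2 / 3) : ℝ) with hf
  have i1 : IntervalIntegrable f volume 0 (1 / 2) := cardyHalf_int
  have e1 : ∫ u in (1 / 2 : ℝ)..1, f u = ∫ u in (0 : ℝ)..(1 / 2), f u := by
    have h := intervalIntegral.integral_comp_sub_left (a := 0) (b := 1 / 2) f 1
    have e2 : (∫ u in (0 : ℝ)..(1 / 2), f (1 - u)) = ∫ u in (0 : ℝ)..(1 / 2), f u := by
      refine intervalIntegral.integral_congr ?_
      intro u _
      exact cardyHalf_symm u
    rw [e2] at h
    rw [h]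
    norm_num
  have i2 : IntervalIntegrable f volume (1 / 2) 1 := by
    have h := (i1.comp_sub_left 1).symm
    have e3 : (fun u => f (1 - u)) = f := by
      funext u
      exact cardyHalf_symm u
    rw [e3] at h
    norm_num at h
    exact h
  have e4 : ∫ u in (0 : ℝ)..1, f u = 2 * ∫ u in (0 : ℝ)..(1 / 2), f u := by
    rw [← intervalIntegral.integral_add_adjacent_intervals i1 i2, e1]
    ring
  have pos : 0 < ∫ u in (0 : ℝ)..(1 / 2), f u := by
    refine intervalIntegral.intervalIntegral_pos_of_pos_on i1 ?_ (by norm_num)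
    intro u hu
    have ha := hu.1
    have hb := hu.2
    exact Real.rpow_pos_of_pos (mul_pos ha (by linarith)) _
  change (∫ u in (0 : ℝ)..(1 / 2), f u) / (∫ u in (0 : ℝ)..1, f u) = 1 / 2
  rw [e4]
  field_simp

end P148
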