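import Vale.Agent.P148.Props

/-!
# P148, row N4: circumcentres of triples avoid a null set; no four points are concyclic
-/

open MeasureTheory Set Metric Topology Filter
open scoped ENNReal NNReal

namespace P148

/-- A measurable set which meets every complex line of direction `d` in a null set is null. -/
theorem null_of_lines {ι : Type*} [Fintype ι] (d : ι → ℂ) {B : Set (ι → ℂ)}
    (hB : MeasurableSet B) (h : ∀ x : ι → ℂ, volume {t : ℂ | x + t • d ∈ B} = 0) :
    volume B = 0 := by
  have hm : Measurable fun p : (ι → ℂ) × ℂ => p.1 + p.2 • d := by fun_prop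
  set E : Set ((ι → ℂ) × ℂ) := (fun p : (ι → ℂ) × ℂ => p.1 + p.2 • d) ⁻¹' B with hE
  have hEm : MeasurableSet E := hm hB
  have h0 : ((volume : Measure (ι → ℂ)).prod (volume : Measure ℂ)) E = 0 := by
    rw [Measure.measure_prod_null hEm]
    exact Eventually.of_forall fun x => h x
  rw [Measure.prod_apply_symm hEm, lintegral_eq_zero_iff (measurable_measure_prodMk_right hEm)] at h0
  obtain ⟨t, ht⟩ := h0.exists
  have h1 : volume ((fun x : ι → ℂ => x + t • d) ⁻¹' B) = 0 := ht
  rwa [measure_preimage_add_right] at h1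

/-- The circumcentre of three points. -/
noncomputable def ccen (u v w : ℂ) : ℂ :=
  u + (v - u) * (w - u) * ((starRingEnd ℂ) (v - u) - (starRingEnd ℂ) (w - u)) /
    ((starRingEnd ℂ) (v - u) * (w - u) - (v - u) * (starRingEnd ℂ) (w - u))

theorem ccen_add (u v w t : ℂ) : ccen (u + t) (v + t) (w + t) = ccen u v w + t := by
  unfold ccen
  have h1 : v + t - (u + t) = v - u := by ring
  have h2 : w + t - (u + t) = w - u := by ring
  rw [h1, h2]
  ring

theorem measurable_ccen : Measurable fun p : ℂ × ℂ × ℂ => ccen p.1 p.2.1 p.2.2 := by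
  unfold ccen
  have hc : Measurable (starRingEnd ℂ) := Complex.continuous_conj.measurable
  fun_prop

theorem eq_ccen {z u v w : ℂ} (huv : u ≠ v) (huw : u ≠ w) (hvw : v ≠ w)
    (h1 : dist z u = dist z v) (h2 : dist z u = dist z w) : z = ccen u v w := by
  set a := v - u with ha
  set b := w - u with hb
  set c := z - u with hc
  have ha0 : a ≠ 0 := sub_ne_zero.2 huv.symm
  have hb0 : b ≠ 0 := sub_ne_zero.2 huw.symm
  have hab : a ≠ b := by
    intro h; apply hvw
    have : v - u = w - u := h
    linear_combination this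
  -- the two equations
  have key : ∀ p : ℂ, dist z u = dist z p →
      c * (starRingEnd ℂ) (p - u) + (starRingEnd ℂ) c * (p - u) = (p - u) * (starRingEnd ℂ) (p - u) := by
    intro p hp
    have e1 : ‖z - u‖ ^ 2 = ‖z - p‖ ^ 2 := by
      rw [← dist_eq_norm, ← dist_eq_norm, hp]
    have e2 : (z - u) * (starRingEnd ℂ) (z - u) = (z - p) * (starRingEnd ℂ) (z - p) := by
      rw [Complex.mul_conj, Complex.mul_conj, Complex.normSq_eq_norm_sq, Complex.normSq_eq_norm_sq, e1]
    simp only [hc, map_sub] at e2 ⊢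
    linear_combination e2
  have k1 := key v h1
  have k2 := key w h2
  rw [← ha] at k1
  rw [← hb] at k2
  set A := (starRingEnd ℂ) a with hA
  set B := (starRingEnd ℂ) b with hB
  set C := (starRingEnd ℂ) c with hC
  have hA0 : A ≠ 0 := by simpa [hA] using ha0
  have hB0 : B ≠ 0 := by simpa [hB] using hb0
  have hAB : A - B ≠ 0 := by
    intro h
    apply hab
    exact (starRingEnd ℂ).injective (sub_eq_zero.1 h)
  have k3 : c * (A * b - a * B) = a * b * (A - B) := by
    linear_combination b * k1 - a * k2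
  have hD : A * b - a * B ≠ 0 := by
    intro h
    rw [h, mul_zero] at k3
    exact (mul_ne_zero (mul_ne_zero ha0 hb0) hAB) k3.symm
  have k4 : c = a * b * (A - B) / (A * b - a * B) := by
    rw [eq_div_iff hD]; exact k3
  show z = u + a * b * (A - B) / (A * b - a * B)
  rw [← k4, hc]; ring

theorem measurable_ccen_pi {ι : Type*} [Fintype ι] (i j k : ι) :
    Measurable fun x : ι → ℂ => ccen (x i) (x j) (x k) := by
  have h : Measurable fun x : ι → ℂ => ((x i, x j, x k) : ℂ × ℂ × ℂ) :=
    (measurable_pi_apply i).prodMk ((measurable_pi_apply j).prodMk (measurable_pi_apply k))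
  exact measurable_ccen.comp h

/-- Row N4, first part. -/
theorem circ : CircStmt := by
  intro N hN
  set N' := toMeasurable volume N with hN'
  have hN'0 : volume N' = 0 := by rw [hN', measure_toMeasurable, hN]
  have hN'm : MeasurableSet N' := measurableSet_toMeasurable _ _
  have hB : volume ((fun x : Fin 3 → ℂ => ccen (x 0) (x 1) (x 2)) ⁻¹' N') = 0 := by
    refine null_of_lines (fun _ => 1) (measurable_ccen_pi 0 1 2 hN'm) fun x => ?_
    have : {t : ℂ | x + t • (fun _ : Fin 3 => (1 : ℂ)) ∈
        (fun x : Fin 3 → ℂ => ccen (x 0) (x 1) (x 2)) ⁻¹' N'} =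
        (fun t : ℂ => ccen (x 0) (x 1) (x 2) + t) ⁻¹' N' := by
      ext t
      simp [ccen_add]
    rw [this, measure_preimage_add]
    exact hN'0
  refine measure_mono_null ?_ hB
  rintro x ⟨hx, z, hz, h1, h2⟩
  have := eq_ccen (hx.ne (by decide : (0 : Fin 3) ≠ 1)) (hx.ne (by decide : (0 : Fin 3) ≠ 2))
    (hx.ne (by decide : (1 : Fin 3) ≠ 2)) h1 h2
  show ccen (x 0) (x 1) (x 2) ∈ N'
  rw [← this]
  exact subset_toMeasurable _ _ hz

/-- Row N4, second part. -/
theorem four : FourStmt := by
  have hB : volume {x : Fin 4 → ℂ | dist (x 3) (ccen (x 0) (x 1) (x 2)) =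
      dist (x 0) (ccen (x 0) (x 1) (x 2))} = 0 := by
    refine null_of_lines (Pi.single 3 1) ?_ fun x => ?_
    · have h3 : Measurable fun x : Fin 4 → ℂ => ccen (x 0) (x 1) (x 2) := measurable_ccen_pi 0 1 2
      exact measurableSet_eq_fun ((measurable_pi_apply 3).dist h3)
        ((measurable_pi_apply 0).dist h3)
    · have : {t : ℂ | x + t • (Pi.single (3 : Fin 4) (1 : ℂ) : Fin 4 → ℂ) ∈
          {x : Fin 4 → ℂ | dist (x 3) (ccen (x 0) (x 1) (x 2)) =
            dist (x 0) (ccen (x 0) (x 1) (x 2))}} =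
          (fun t : ℂ => x 3 + t) ⁻¹' sphere (ccen (x 0) (x 1) (x 2))
            (dist (x 0) (ccen (x 0) (x 1) (x 2))) := by
        ext t
        simp only [mem_ofPred_eq, mem_preimage, mem_sphere, Pi.add_apply, Pi.smul_apply,
          Pi.single_apply, smul_eq_mul]
        simp
      rw [this, measure_preimage_add]
      exact Measure.addHaar_sphere _ _ _
  refine measure_mono_null ?_ hB
  rintro x ⟨hx, z, h1, h2, h3⟩
  have := eq_ccen (hx.ne (by decide : (0 : Fin 4) ≠ 1)) (hx.ne (by decide : (0 : Fin 4) ≠ 2))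
    (hx.ne (by decide : (1 : Fin 4) ≠ 2)) h1 h2
  show dist (x 3) (ccen (x 0) (x 1) (x 2)) = dist (x 0) (ccen (x 0) (x 1) (x 2))
  rw [← this, dist_comm (x 3), dist_comm (x 0), h3]

end P148
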