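import Vale.Agent.P148.KPoint2

/-!
# P148, row P3 (second): both colours occur almost surely
-/

open MeasureTheory Set Metric Topology Filter ProbabilityTheory
open scoped ENNReal NNReal

namespace P148
namespace KP2

theorem fair_singleton (c : Bool) : fair {c} = 2⁻¹ := by
  rw [fair, Measure.smul_apply, Measure.count_singleton, smul_eq_mul, mul_one]

theorem inten_prod_singleton (lam : ℝ≥0) (B : Set ℂ) (c : Bool) :
    inten lam (B ×ˢ {c}) = lam * (volume B * 2⁻¹) := by
  have : SFinite fair := by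
    unfold fair
    infer_instance
  rw [inten, Measure.smul_apply, Measure.prod_prod, fair_singleton]
  rfl

end KP2

/-- **P3**: almost surely both colours occur. -/
theorem colours2 : ColoursStmt := by
  intro Ω _ P _ S lam hlam h
  rw [ae_all_iff]
  intro c
  rw [ae_iff]
  have hbd : ∀ R : ℕ, Bdd (ball (0 : ℂ) R ×ˢ ({c} : Set Bool)) := fun R =>
    ⟨R, prod_mono subset_rfl (subset_univ _)⟩
  have hm : ∀ R : ℕ, MeasurableSet (ball (0 : ℂ) R ×ˢ ({c} : Set Bool)) := fun R =>
    measurableSet_ball.prod (MeasurableSet.of_discrete)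
  have h1 : ∀ R : ℕ, P {ω | ¬ ∃ v : ℂ, (v, c) ∈ S ω} ≤
      ENNReal.ofReal (Real.exp (-((inten lam (ball (0 : ℂ) R ×ˢ ({c} : Set Bool))).toReal))) := by
    intro R
    have h2 := h.void_prob (hm R) (hbd R)
    rw [poissonMeasure_singleton] at h2
    simp only [pow_zero, mul_one, Nat.factorial_zero, Nat.cast_one, div_one] at h2
    refine (measure_mono ?_).trans h2.le
    intro ω hω
    change S ω ∩ ball (0 : ℂ) R ×ˢ ({c} : Set Bool) = ∅
    rw [Set.eq_empty_iff_forall_notMem]
    rintro ⟨v, c'⟩ ⟨hv, -, hc⟩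
    rw [mem_singleton_iff] at hc
    apply hω
    exact ⟨v, hc ▸ hv⟩
  have h3 : ∀ R : ℕ, (inten lam (ball (0 : ℂ) R ×ˢ ({c} : Set Bool))).toReal =
      (lam * (Real.pi / 2)) * (R : ℝ) ^ 2 := by
    intro R
    rw [KP2.inten_prod_singleton, Complex.volume_ball]
    simp only [ENNReal.toReal_mul, ENNReal.toReal_pow, ENNReal.coe_toReal, ENNReal.toReal_inv,
      ENNReal.toReal_ofNat]
    rw [ENNReal.toReal_ofReal (Nat.cast_nonneg _)]
    have : ((NNReal.pi : ℝ≥0) : ℝ) = Real.pi := rfl
    rw [this]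
    ring
  have h4 : Tendsto (fun R : ℕ => ENNReal.ofReal (Real.exp
      (-((inten lam (ball (0 : ℂ) R ×ˢ ({c} : Set Bool))).toReal)))) atTop (𝓝 0) := by
    rw [← ENNReal.ofReal_zero]
    refine ENNReal.tendsto_ofReal ?_
    refine Real.tendsto_exp_neg_atTop_nhds_zero.comp ?_
    simp_rw [h3]
    have hc : 0 < (lam : ℝ) * (Real.pi / 2) := by
      have : 0 < (lam : ℝ) := hlam
      positivity
    refine Tendsto.const_mul_atTop hc ?_
    exact (tendsto_pow_atTop two_ne_zero).comp tendsto_natCast_atTop_atTop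
  exact nonpos_iff_eq_zero.1 (ge_of_tendsto' h4 h1)

end P148
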