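import Vale.Agent.P148.DGlue

/-!
# P148, second theorem, row X8: the chain bound
-/

open MeasureTheory Set Metric Topology Filter ProbabilityTheory
open scoped ENNReal NNReal

namespace P148

universe u

/-- FKG and gluing. -/
theorem glue_prob (hG : GlueStmt.{u}) (hF : FKGStmt.{u}) (hA : ApprStmt) (Ω : Type u)
    [MeasurableSpace Ω] (P : Measure Ω) [IsProbabilityMeasure P] (S : Ω → Set Pt) (lam : ℝ≥0)
    (hlam : 0 < lam) (h : IsColouredPoisson P S lam) (z₀ : ℂ) (R : ℝ) (hR : 0 < R)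
    (i₀ i₁ j₀ j₁ k₀ k₁ l₀ l₁ : ℝ) (h1 : i₀ < i₁) (h2 : i₁ ≤ j₀) (h3 : j₀ < j₁) (h4 : j₁ ≤ k₀)
    (h5 : k₀ < k₁) (h6 : k₁ ≤ l₀) (h7 : l₀ < l₁) (h8 : l₁ < i₀ + 2 * Real.pi) :
    P {ω | S ω ∈ discX z₀ R i₀ i₁ k₀ k₁} * P {ω | S ω ∈ discX z₀ R j₀ j₁ l₀ l₁} ≤
      P {ω | S ω ∈ discX z₀ R i₀ i₁ l₀ l₁} := by
  refine (hF Ω P S lam hlam h _ _ (measurable_discX hR i₀ i₁ k₀ k₁)
    (measurable_discX hR j₀ j₁ l₀ l₁) (appr_discX hA hR i₀ i₁ k₀ k₁)
    (appr_discX hA hR j₀ j₁ l₀ l₁)).trans ?_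
  refine measure_mono_ae ?_
  filter_upwards [hG Ω P S lam hlam h z₀ R hR i₀ i₁ j₀ j₁ k₀ k₁ l₀ l₁ h1 h2 h3 h4 h5 h6 h7 h8]
    with ω hω hm
  exact hω hm.1 hm.2

/-- **X8**: the chain bound. -/
theorem chain (hG : GlueStmt.{u}) (hB : BasicStmt.{u}) (hF : FKGStmt.{u}) (hA : ApprStmt) :
    ChainStmt.{u} := by
  intro Ω _ P _ S lam hlam h z₀ R hR θ₀ θ₁ θ₂ θ₃ h01 h12 h23 h30 k hk
  have hpi := Real.pi_pos
  have hk0 : 0 < (k : ℝ) := by
    rcases Nat.eq_zero_or_pos k with rfl | hk0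
    · simp only [CharP.cast_eq_zero, zero_mul] at hk
      linarith
    · exact_mod_cast hk0
  have hk1 : 1 ≤ k := by exact_mod_cast hk0
  obtain ⟨η, hη⟩ : ∃ η : ℝ, k * η = θ₂ - θ₁ := ⟨(θ₂ - θ₁) / k, by field_simp⟩
  have hη0 : 0 < η := by
    by_contra hc
    push Not at hc
    have := mul_nonpos_of_nonneg_of_nonpos hk0.le hc
    linarith
  have hηm : η ≤ min (θ₁ - θ₀) (θ₃ - θ₂) := by
    rw [← hη] at hk
    exact le_of_mul_le_mul_left hk hk0
  have hηα : η ≤ θ₁ - θ₀ := hηm.trans (min_le_left _ _)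
  have hηγ : η ≤ θ₃ - θ₂ := hηm.trans (min_le_right _ _)
  have hk2 : ((k : ℝ) + 2) * η < 2 * Real.pi := by nlinarith
  set t : ℕ → ℝ := fun j => θ₁ + (j - 1) * η with ht
  have htl : ∀ j, t j < t (j + 1) := by
    intro j
    simp only [ht]
    push_cast
    nlinarith
  have htm : StrictMono t := strictMono_nat_of_lt_succ htl
  have htk : ∀ j, j ≤ k + 2 → t j < t 0 + 2 * Real.pi := by
    intro j hj
    have hj' : (j : ℝ) ≤ k + 2 := by exact_mod_cast hj
    have := mul_le_mul_of_nonneg_right hj' hη0.le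
    simp only [ht]
    push_cast
    linarith
  have hdiff : ∀ j, t (j + 1) - t j = η := by
    intro j
    simp only [ht]
    push_cast
    ring
  have hbasic : ∀ j, j + 3 ≤ k + 2 →
      1 / 4 ≤ P {ω | S ω ∈ discX z₀ R (t j) (t (j + 1)) (t (j + 2)) (t (j + 3))} := by
    intro j hj
    refine hB Ω P S lam hlam h z₀ R hR (t j) (t (j + 1)) (t (j + 2)) (t (j + 3)) (htl _) (htl _)
      (htl _) ?_ ?_ ?_
    · have h1 := htk 3 (by omega)
      have h2 : t (j + 3) - t j = t 3 - t 0 := by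
        simp only [ht]
        push_cast
        ring
      linarith
    · rw [hdiff (j + 1), hdiff j]
    · rw [hdiff (j + 1), hdiff (j + 2)]
  have key : ∀ j, 1 ≤ j → j ≤ k →
      (1 / 4) ^ j ≤ P {ω | S ω ∈ discX z₀ R (t 0) (t 1) (t (j + 1)) (t (j + 2))} := by
    intro j hj
    induction j, hj using Nat.le_induction with
    | base =>
      intro _
      rw [pow_one]
      exact hbasic 0 (by omega)
    | succ j hj ih =>
      intro hjk
      have h1 := ih (by omega)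
      have h2 := hbasic j (by omega)
      rw [pow_succ]
      refine (mul_le_mul' h1 h2).trans ?_
      exact glue_prob hG hF hA Ω P S lam hlam h z₀ R hR (t 0) (t 1) (t j) (t (j + 1)) (t (j + 1))
        (t (j + 2)) (t (j + 2)) (t (j + 3)) (htl 0) (htm.monotone hj) (htl j) le_rfl (htl _)
        le_rfl (htl _) (htk _ (by omega))
  refine (key k hk1 le_rfl).trans (measure_mono ?_)
  intro ω hω
  refine discX_mono hω ?_ ?_ ?_ ?_
  · simp only [ht]
    push_cast
    linarith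
  · simp only [ht]
    push_cast
    linarith
  · simp only [ht]
    push_cast
    linarith
  · simp only [ht]
    push_cast
    linarith

end P148
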