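import Vale.Agent.P148.Final2

/-!
# P148: dichotomy for discs, kites
-/

open MeasureTheory Set Metric Topology Filter ProbabilityTheory
open scoped ENNReal NNReal

namespace P148

universe u

theorem ddich (hDQ : DiscQuadStmt) : DichStmt.{u} := by
  intro Ω _ P _ S lam hlam h z₀ R hR θ₀ θ₁ θ₂ θ₃ h01 h12 h23 h30
  obtain ⟨Q, hQ⟩ := hDQ z₀ R θ₀ θ₁ θ₂ θ₃ hR h01 h12 h23 h30
  obtain ⟨e1, e2⟩ := crossSet_of_isDisc hR hQ
  have hg := ae_goodBd' kPoint2 colours2 hlam Q h
  refine ⟨?_, ?_⟩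
  · filter_upwards [hg] with ω hω
    rw [← e1, ← e2]
    exact dichotomy (dual sep) notBoth tame Q (S ω) hω
  · rw [← e1, ← e2]
    exact prob_sum inv measCross (dual sep) notBoth tame Q h hg

theorem kite (hDi : DichStmt.{u}) (hSy : SymmStmt.{u}) : KiteStmt.{u} := by
  intro Ω _ P _ S lam hlam h z₀ R hR b β hβ hβ'
  have hpi := Real.pi_pos
  have h1 := (hDi Ω P S lam hlam h z₀ R hR (b - β) b (b + β) (b + Real.pi) (by linarith)
    (by linarith) (by linarith) (by linarith)).2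
  have h2 := (hSy Ω P S lam h z₀ R hR (b - β) b (b + β) (b + Real.pi)).1 b
  have e1 : 2 * b - b = b := by ring
  have e2 : 2 * b - (b - β) = b + β := by ring
  have e3 : 2 * b - (b + Real.pi) + 2 * Real.pi = b + Real.pi := by ring
  have e4 : 2 * b - (b + β) + 2 * Real.pi = b - β + 2 * Real.pi := by ring
  have h3 : discX z₀ R (2 * b - b) (2 * b - (b - β)) (2 * b - (b + Real.pi)) (2 * b - (b + β)) =
      discX z₀ R b (b + β) (b + Real.pi) (b - β + 2 * Real.pi) := by
    unfold discX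
    rw [e1, e2, ← cArc_add_two_pi z₀ R (2 * b - (b + Real.pi)), e3, e4]
  rw [h3] at h2
  rw [h2, ← two_mul] at h1
  have h4 : P {ω | S ω ∈ discX z₀ R (b - β) b (b + β) (b + Real.pi)} = 1 / 2 := by
    rw [ENNReal.eq_div_iff (by norm_num) (by norm_num)]
    exact h1
  exact ⟨by rw [h2, h4], h4⟩

end P148
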