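import Vale.Agent.P148.Props2

/-!
# P148, row X3: FKG for approximable events
-/

open MeasureTheory Set Metric Topology Filter ProbabilityTheory
open scoped ENNReal NNReal

namespace P148

universe u

theorem Incr.inter {F F' : Set (Set Pt)} (h : Incr F) (h' : Incr F') : Incr (F ∩ F') :=
  fun T T' h1 h2 h3 => ⟨h T T' h1 h2 h3.1, h' T T' h1 h2 h3.2⟩

section

variable {Ω : Type u} [MeasurableSpace Ω] {P : Measure Ω} [IsProbabilityMeasure P]
  {S : Ω → Set Pt} {lam : ℝ≥0}

/-- Almost every configuration is good. -/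
theorem ae_good2 (hlam : 0 < lam) (h : IsColouredPoisson P S lam) : ∀ᵐ ω ∂P, Good (S ω) := by
  filter_upwards [ae_goodBd' kPoint2 colours2 hlam ⟨Homeomorph.refl ℂ⟩ h] with ω hω
    using hω.toGood

theorem tendsto_appr (hH : HarrisStmt.{u}) (hlam : 0 < lam) (h : IsColouredPoisson P S lam)
    {E : Set (Set Pt)} (hE : MeasurableSet[voidSigma] E) {F : ℕ → Set (Set Pt)}
    (hF : ∀ k, Incr (F k)) (hl : ∀ T, Good T →
      (T ∈ E → ∀ᶠ k in atTop, pix k T ∈ F k) ∧ (T ∉ E → ∀ᶠ k in atTop, pix k T ∉ F k)) :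
    Tendsto (fun k => P {ω | pix k (S ω) ∈ F k}) atTop (𝓝 (P {ω | S ω ∈ E})) := by
  refine tendsto_measure_of_ae_tendsto_indicator_of_isFiniteMeasure atTop
    (inv Ω P S lam h (IsometryEquiv.refl ℂ) 1 E hE).1
    (fun k => (hH Ω P S lam h k (F k) (F k) (hF k) (hF k)).1) ?_
  filter_upwards [ae_good2 hlam h] with ω hω
  by_cases hS : S ω ∈ E
  · filter_upwards [(hl _ hω).1 hS] with k hk
    exact iff_of_true hk hS
  · filter_upwards [(hl _ hω).2 hS] with k hk
    exact iff_of_false hk hS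

end

/-- X3: FKG for approximable events, from the Harris inequality for pixelized events. -/
theorem fkg_of (hH : HarrisStmt.{u}) : FKGStmt.{u} := by
  intro Ω _ P _ S lam hlam h E E' hE hE' hA hA'
  obtain ⟨F, hF, hl⟩ := hA
  obtain ⟨F', hF', hl'⟩ := hA'
  have h1 := tendsto_appr hH hlam h hE hF hl
  have h2 := tendsto_appr hH hlam h hE' hF' hl'
  have h3 : Tendsto (fun k => P {ω | pix k (S ω) ∈ F k ∩ F' k}) atTop
      (𝓝 (P {ω | S ω ∈ E ∩ E'})) := by
    refine tendsto_appr hH hlam h (hE.inter hE') (fun k => (hF k).inter (hF' k)) ?_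
    intro T hT
    constructor
    · rintro ⟨h1, h2⟩
      filter_upwards [(hl T hT).1 h1, (hl' T hT).1 h2] with k hk hk' using ⟨hk, hk'⟩
    · intro h1
      by_cases h2 : T ∈ E
      · have h3 : T ∉ E' := fun h3 => h1 ⟨h2, h3⟩
        filter_upwards [(hl' T hT).2 h3] with k hk using fun h => hk h.2
      · filter_upwards [(hl T hT).2 h2] with k hk using fun h => hk h.1
  have h4 := ENNReal.Tendsto.mul h1 (Or.inr (measure_ne_top _ _)) h2
    (Or.inr (measure_ne_top _ _))
  exact le_of_tendsto_of_tendsto' h4 h3 fun k =>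
    (hH Ω P S lam h k (F k) (F' k) (hF k) (hF' k)).2

end P148
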