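import Vale.Agent.P148.Final2

/-!
# P148: gluing and the basic bound
-/

open MeasureTheory Set Metric Topology Filter ProbabilityTheory
open scoped ENNReal NNReal

namespace P148

universe u

theorem cArc_mono {z₀ : ℂ} {R s t s' t' : ℝ} (h1 : s' ≤ s) (h2 : t ≤ t') :
    cArc z₀ R s t ⊆ cArc z₀ R s' t' := image_mono (Icc_subset_Icc h1 h2)

theorem cArc_union (z₀ : ℂ) (R s m t : ℝ) :
    cArc z₀ R s t ⊆ cArc z₀ R s m ∪ cArc z₀ R m t := by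
  rintro _ ⟨u, hu, rfl⟩
  rcases le_total u m with h | h
  · exact Or.inl ⟨u, ⟨hu.1, h⟩, rfl⟩
  · exact Or.inr ⟨u, ⟨h, hu.2⟩, rfl⟩

theorem meets_union {K : Set ℂ} {z₀ : ℂ} {R s t : ℝ} (m : ℝ) (h : (K ∩ cArc z₀ R s t).Nonempty) :
    (K ∩ cArc z₀ R s m).Nonempty ∨ (K ∩ cArc z₀ R m t).Nonempty := by
  obtain ⟨z, hz1, hz2⟩ := h
  rcases cArc_union z₀ R s m t hz2 with h | h
  · exact Or.inl ⟨z, hz1, h⟩
  · exact Or.inr ⟨z, hz1, h⟩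

theorem meets_mono {K : Set ℂ} {z₀ : ℂ} {R s t s' t' : ℝ} (h : (K ∩ cArc z₀ R s t).Nonempty)
    (h1 : s' ≤ s) (h2 : t ≤ t') : (K ∩ cArc z₀ R s' t').Nonempty :=
  h.mono (inter_subset_inter_right _ (cArc_mono h1 h2))

theorem discX_mono {T : Set Pt} {z₀ : ℂ} {R s t u v s' t' u' v' : ℝ} (h : T ∈ discX z₀ R s t u v)
    (hs : s' ≤ s) (ht : t ≤ t') (hu : u' ≤ u) (hv : v ≤ v') : T ∈ discX z₀ R s' t' u' v' := by
  obtain ⟨K, h1, h2, h3, h4⟩ := h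
  exact ⟨K, h1, h2, meets_mono h3 hs ht, meets_mono h4 hu hv⟩

theorem glue (hDi : DichStmt.{u}) : GlueStmt.{u} := by
  intro Ω _ P _ S lam hlam h z₀ R hR i₀ i₁ j₀ j₁ k₀ k₁ l₀ l₁ h1 h2 h3 h4 h5 h6 h7 h8
  filter_upwards [(hDi Ω P S lam hlam h z₀ R hR i₀ i₁ l₀ l₁ h1 (by linarith) h7 h8).1,
    (hDi Ω P S lam hlam h z₀ R hR i₀ i₁ k₀ k₁ h1 (by linarith) h5 (by linarith)).1,
    (hDi Ω P S lam hlam h z₀ R hR j₀ j₁ l₀ l₁ h3 (by linarith) h7 (by linarith)).1]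
    with ω a b c hx hy
  by_contra hn
  have hw : flip (S ω) ∈ discX z₀ R i₁ l₀ l₁ (i₀ + 2 * Real.pi) :=
    by_contra fun hw => hn (a.2 hw)
  obtain ⟨K, k1, k2, k3, k4⟩ := hw
  rcases meets_union k₀ k3 with h | h
  · exact b.1 hx ⟨K, k1, k2, h, meets_mono k4 (by linarith) le_rfl⟩
  · exact c.1 hy ⟨K, k1, k2, meets_mono h h4 le_rfl, meets_mono k4 le_rfl (by linarith)⟩

theorem appr_discX (hA : ApprStmt) {z₀ : ℂ} {R : ℝ} (hR : 0 < R) (s t u v : ℝ) :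
    Appr (discX z₀ R s t u v) :=
  hA _ _ _ (isCompact_closedBall _ _) (isCompact_cArc _ _ _ _) (isCompact_cArc _ _ _ _)
    (cArc_subset hR) (cArc_subset hR)

theorem basic (hDi : DichStmt.{u}) (hKi : KiteStmt.{u}) (hF : FKGStmt.{u}) (hA : ApprStmt) :
    BasicStmt.{u} := by
  intro Ω _ P _ S lam hlam h z₀ R hR θ₀ θ₁ θ₂ θ₃ h01 h12 h23 h30 hb1 hb2
  have hpi := Real.pi_pos
  obtain ⟨k1, -⟩ := hKi Ω P S lam hlam h z₀ R hR θ₁ (θ₂ - θ₁) (by linarith) (by linarith)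
  obtain ⟨-, k2⟩ := hKi Ω P S lam hlam h z₀ R hR θ₂ (θ₂ - θ₁) (by linarith) (by linarith)
  have e1 : θ₁ + (θ₂ - θ₁) = θ₂ := by ring
  have e2 : θ₂ - (θ₂ - θ₁) = θ₁ := by ring
  rw [e1] at k1
  rw [e2] at k2
  have hm : ∀ s t u v, MeasurableSet {ω | S ω ∈ discX z₀ R s t u v} := fun s t u v =>
    (inv Ω P S lam h (IsometryEquiv.refl ℂ) (Equiv.refl Bool) _ (measurable_discX hR s t u v)).1
  have hf := hF Ω P S lam hlam h _ _ (measurable_discX (z₀ := z₀) hR θ₁ θ₂ (θ₁ + Real.pi)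
    (θ₁ - (θ₂ - θ₁) + 2 * Real.pi)) (measurable_discX (z₀ := z₀) hR θ₁ θ₂ (θ₂ + (θ₂ - θ₁)) (θ₂ + Real.pi))
    (appr_discX (z₀ := z₀) hA hR _ _ _ _) (appr_discX (z₀ := z₀) hA hR _ _ _ _)
  rw [k1, k2] at hf
  have hdual := (hDi Ω P S lam hlam h z₀ R hR θ₀ θ₁ θ₂ θ₃ h01 h12 h23 h30).2
  have hui := measure_union_add_inter (μ := P)
    {ω | S ω ∈ discX z₀ R θ₁ θ₂ (θ₁ + Real.pi) (θ₁ - (θ₂ - θ₁) + 2 * Real.pi)}
    (hm θ₁ θ₂ (θ₂ + (θ₂ - θ₁)) (θ₂ + Real.pi))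
  rw [k1, k2] at hui
  have hsub : P {ω | S ω ∈ discX z₀ R θ₁ θ₂ θ₃ (θ₀ + 2 * Real.pi)} ≤
      P ({ω | S ω ∈ discX z₀ R θ₁ θ₂ (θ₁ + Real.pi) (θ₁ - (θ₂ - θ₁) + 2 * Real.pi)} ∪
        {ω | S ω ∈ discX z₀ R θ₁ θ₂ (θ₂ + (θ₂ - θ₁)) (θ₂ + Real.pi)}) := by
    refine measure_mono ?_
    rintro ω ⟨K, c1, c2, c3, c4⟩
    rcases meets_union (θ₂ + Real.pi) c4 with h4 | h4
    · exact Or.inr ⟨K, c1, c2, c3, meets_mono h4 (by linarith) le_rfl⟩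
    · exact Or.inl ⟨K, c1, c2, c3, meets_mono h4 (by linarith) (by linarith)⟩
  -- pass to the reals
  have r1 := ENNReal.toReal_mono (measure_ne_top _ _) hf
  have r2 := congrArg ENNReal.toReal hdual
  have r3 := congrArg ENNReal.toReal hui
  have r4 := ENNReal.toReal_mono (measure_ne_top _ _) hsub
  rw [ENNReal.toReal_add (measure_ne_top _ _) (measure_ne_top _ _)] at r2 r3
  rw [ENNReal.toReal_mul] at r1
  have e3 : ((1 / 2 : ℝ≥0∞) + 1 / 2).toReal = 1 := by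
    rw [ENNReal.add_halves, ENNReal.toReal_one]
  have e4 : (1 / 2 : ℝ≥0∞).toReal = 1 / 2 := by simp
  rw [e3] at r3
  rw [e4] at r1
  rw [ENNReal.toReal_one] at r2
  have e5 : (1 / 4 : ℝ≥0∞) = ENNReal.ofReal (1 / 4) := by
    rw [ENNReal.ofReal_div_of_pos (by norm_num), ENNReal.ofReal_one]
    norm_num
  rw [e5]
  refine (ENNReal.ofReal_le_iff_le_toReal (measure_ne_top _ _)).2 ?_
  have e6 : {ω | S ω ∈ discX z₀ R θ₁ θ₂ (θ₁ + Real.pi) (θ₁ - (θ₂ - θ₁) + 2 * Real.pi) ∩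
      discX z₀ R θ₁ θ₂ (θ₂ + (θ₂ - θ₁)) (θ₂ + Real.pi)} =
      {ω | S ω ∈ discX z₀ R θ₁ θ₂ (θ₁ + Real.pi) (θ₁ - (θ₂ - θ₁) + 2 * Real.pi)} ∩
        {ω | S ω ∈ discX z₀ R θ₁ θ₂ (θ₂ + (θ₂ - θ₁)) (θ₂ + Real.pi)} := rfl
  rw [e6] at r1
  linarith

end P148
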