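import Vale.Agent.P148.Props2

/-!
# P148, row X9: six equal arcs
-/

open MeasureTheory Set Metric Topology Filter ProbabilityTheory
open scoped ENNReal NNReal

namespace P148

universe u

namespace DHex

/-- The arcs are periodic. -/
theorem cArc_period (z₀ : ℂ) (R s t : ℝ) :
    cArc z₀ R (s + 2 * Real.pi) (t + 2 * Real.pi) = cArc z₀ R s t := by
  have key : ∀ u : ℝ, Complex.exp ((u + 2 * Real.pi : ℝ) * Complex.I) =
      Complex.exp (u * Complex.I) := by
    intro u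
    have : ((u + 2 * Real.pi : ℝ) : ℂ) * Complex.I = u * Complex.I + 2 * Real.pi * Complex.I := by
      push_cast
      ring
    rw [this, Complex.exp_periodic (u * Complex.I)]
  unfold cArc
  ext z
  constructor
  · rintro ⟨u, hu, rfl⟩
    refine ⟨u - 2 * Real.pi, ⟨by linarith [hu.1], by linarith [hu.2]⟩, ?_⟩
    have := key (u - 2 * Real.pi)
    rw [sub_add_cancel] at this
    simp only [this]
  · rintro ⟨u, hu, rfl⟩
    refine ⟨u + 2 * Real.pi, ⟨by linarith [hu.1], by linarith [hu.2]⟩, ?_⟩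
    simp only [key u]

/-- Two consecutive arcs form an arc. -/
theorem cArc_union (z₀ : ℂ) (R : ℝ) {s t r : ℝ} (h1 : s ≤ t) (h2 : t ≤ r) :
    cArc z₀ R s r = cArc z₀ R s t ∪ cArc z₀ R t r := by
  unfold cArc
  rw [← image_union, Icc_union_Icc_eq_Icc h1 h2]

/-- Crossing a union. -/
theorem crossEv_union (X A B B' : Set ℂ) :
    crossEv X A (B ∪ B') = crossEv X A B ∪ crossEv X A B' := by
  ext T
  constructor
  · rintro ⟨K, h1, h2, h3, ⟨z, hz, hz' | hz'⟩⟩
    · exact Or.inl ⟨K, h1, h2, h3, ⟨z, hz, hz'⟩⟩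
    · exact Or.inr ⟨K, h1, h2, h3, ⟨z, hz, hz'⟩⟩
  · rintro (⟨K, h1, h2, h3, ⟨z, hz, hz'⟩⟩ | ⟨K, h1, h2, h3, ⟨z, hz, hz'⟩⟩)
    · exact ⟨K, h1, h2, h3, ⟨z, hz, Or.inl hz'⟩⟩
    · exact ⟨K, h1, h2, h3, ⟨z, hz, Or.inr hz'⟩⟩

end DHex

/-- **X9**: six equal arcs. -/
theorem hex (hD : DichStmt.{u}) (hK : KiteStmt.{u}) (hS : SymmStmt.{u}) (hF : FKGStmt.{u})
    (hA : ApprStmt) : HexStmt.{u} := by
  intro Ω _ P _ S lam hlam h z₀ R hR θ
  have hpi := Real.pi_pos
  have happr : ∀ s t u v : ℝ, Appr (discX z₀ R s t u v) := fun s t u v =>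
    hA _ _ _ (isCompact_closedBall _ _) (isCompact_cArc _ _ _ _) (isCompact_cArc _ _ _ _)
      (cArc_subset hR) (cArc_subset hR)
  have hms : ∀ s t u v : ℝ, MeasurableSet {ω | S ω ∈ discX z₀ R s t u v} := fun s t u v =>
    (inv Ω P S lam h (IsometryEquiv.refl ℂ) 1 _ (measurable_discX hR s t u v)).1
  -- the three events
  set E₁ := discX z₀ R θ (θ + Real.pi / 3) (θ + 2 * Real.pi / 3) (θ + Real.pi) with hE₁
  set E₂ := discX z₀ R θ (θ + Real.pi / 3) (θ + Real.pi) (θ + 5 * Real.pi / 3) with hE₂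
  set E₃ := discX z₀ R θ (θ + Real.pi / 3) (θ + 2 * Real.pi / 3) (θ + 5 * Real.pi / 3) with hE₃
  have h3 : E₃ = E₁ ∪ E₂ := by
    rw [hE₃, hE₁, hE₂]
    unfold discX
    rw [← DHex.crossEv_union, ← DHex.cArc_union z₀ R (by linarith) (by linarith)]
  have hkite : P {ω | S ω ∈ E₂} = 1 / 2 := by
    have := (hK Ω P S lam hlam h z₀ R hR θ (Real.pi / 3) (by positivity) (by linarith)).1
    rw [show θ - Real.pi / 3 + 2 * Real.pi = θ + 5 * Real.pi / 3 by ring] at this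
    exact this
  have hsum : P {ω | S ω ∈ E₃} + P {ω | S ω ∈ E₁} = 1 := by
    have h1 := (hD Ω P S lam hlam h z₀ R hR θ (θ + Real.pi / 3) (θ + 2 * Real.pi / 3)
      (θ + 5 * Real.pi / 3) (by linarith) (by linarith) (by linarith) (by linarith)).2
    have h2 := (hS Ω P S lam h z₀ R hR θ (θ + Real.pi / 3) (θ + 2 * Real.pi / 3)
      (θ + Real.pi)).1 (θ + Real.pi / 3)
    rw [← h1]
    congr 1
    rw [hE₁, ← h2]
    congr 1
    ext ω
    have e1 : cArc z₀ R (2 * (θ + Real.pi / 3) - (θ + Real.pi / 3))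
        (2 * (θ + Real.pi / 3) - θ) = cArc z₀ R (θ + Real.pi / 3) (θ + 2 * Real.pi / 3) := by
      congr 1 <;> ring
    have e2 : cArc z₀ R (2 * (θ + Real.pi / 3) - (θ + Real.pi))
        (2 * (θ + Real.pi / 3) - (θ + 2 * Real.pi / 3)) =
        cArc z₀ R (θ + 5 * Real.pi / 3) (θ + 2 * Real.pi) := by
      rw [← DHex.cArc_period]
      congr 1 <;> ring
    change S ω ∈ crossEv _ _ _ ↔ S ω ∈ crossEv _ _ _
    rw [e1, e2]
  have hfkg := hF Ω P S lam hlam h E₁ E₂ (measurable_discX hR _ _ _ _)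
    (measurable_discX hR _ _ _ _) (happr _ _ _ _) (happr _ _ _ _)
  -- the real numbers
  have hu : P {ω | S ω ∈ E₃} + P {ω | S ω ∈ E₁ ∩ E₂} =
      P {ω | S ω ∈ E₁} + P {ω | S ω ∈ E₂} := by
    rw [h3]
    exact measure_union_add_inter _ (hms _ _ _ _)
  have hle : P {ω | S ω ∈ E₁} ≤ P {ω | S ω ∈ E₃} := by
    refine measure_mono fun ω hω => ?_
    rw [mem_ofPred_eq, h3]
    exact Or.inl hω
  set c := (P {ω | S ω ∈ E₁}).toReal with hc
  set i := (P {ω | S ω ∈ E₁ ∩ E₂}).toReal with hi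
  set e := (P {ω | S ω ∈ E₃}).toReal with he
  have ne : ∀ A : Set Ω, P A ≠ ⊤ := fun A => measure_ne_top P A
  have hc' : P {ω | S ω ∈ E₁} = ENNReal.ofReal c := (ENNReal.ofReal_toReal (ne _)).symm
  have r1 : e + c = 1 := by
    rw [he, hc, ← ENNReal.toReal_add (ne _) (ne _), hsum, ENNReal.toReal_one]
  have r2 : e + i = c + 1 / 2 := by
    rw [he, hi, ← ENNReal.toReal_add (ne _) (ne _), hu, ENNReal.toReal_add (ne _) (ne _), hkite]
    norm_num [hc]
  have r3 : c * (1 / 2) ≤ i := by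
    have := ENNReal.toReal_mono (ne _) hfkg
    rw [ENNReal.toReal_mul, hkite] at this
    simpa [hc, hi] using this
  have r4 : c ≤ e := ENNReal.toReal_mono (ne _) hle
  rw [hc']
  constructor
  · rw [show (1 / 3 : ℝ≥0∞) = ENNReal.ofReal (1 / 3) by
      rw [ENNReal.ofReal_div_of_pos (by norm_num)]; norm_num]
    exact ENNReal.ofReal_le_ofReal (by linarith)
  · rw [show (1 / 2 : ℝ≥0∞) = ENNReal.ofReal (1 / 2) by
      rw [ENNReal.ofReal_div_of_pos (by norm_num)]; norm_num]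
    exact ENNReal.ofReal_le_ofReal (by linarith)

end P148
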