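import Vale.Agent.P148.Props2

/-!
# P148, row X5: reflections and rotations of the disc
-/

open MeasureTheory Set Metric Topology Filter ProbabilityTheory
open scoped ENNReal NNReal

namespace P148

universe u

/-- Crossing events are carried along by isometries. -/
theorem crossEv_isometry (σ : ℂ ≃ᵢ ℂ) (X A A' : Set ℂ) (T : Set Pt) :
    Prod.map σ (Equiv.refl Bool) '' T ∈ crossEv (σ '' X) (σ '' A) (σ '' A') ↔
      T ∈ crossEv X A A' := by
  have hK : ∀ K : Set ℂ, (K ⊆ {z | gap T z ≤ 0} ∩ X ∧ IsConnected K ∧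
      (K ∩ A).Nonempty ∧ (K ∩ A').Nonempty) ↔
      (σ '' K ⊆ {z | gap (Prod.map σ (Equiv.refl Bool) '' T) z ≤ 0} ∩ σ '' X ∧
        IsConnected (σ '' K) ∧ (σ '' K ∩ σ '' A).Nonempty ∧ (σ '' K ∩ σ '' A').Nonempty) := by
    intro K
    have a1 : K ⊆ {z | gap T z ≤ 0} ∩ X ↔
        σ '' K ⊆ {z | gap (Prod.map σ (Equiv.refl Bool) '' T) z ≤ 0} ∩ σ '' X := by
      rw [image_subset_iff]
      refine forall_congr' fun z => forall_congr' fun _ => ?_
      simp only [mem_inter_iff, mem_ofPred_eq, mem_preimage, gap_isometry,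
        σ.injective.mem_set_image]
    have a2 : IsConnected K ↔ IsConnected (σ '' K) :=
      (σ.toHomeomorph.isConnected_image).symm
    have a3 : ∀ B : Set ℂ, (K ∩ B).Nonempty ↔ (σ '' K ∩ σ '' B).Nonempty := by
      intro B
      rw [← image_inter σ.injective, image_nonempty]
    rw [a1, a2, a3 A, a3 A']
  constructor
  · rintro ⟨K, h1, h2, h3, h4⟩
    have hKe : σ '' (σ ⁻¹' K) = K := image_preimage_eq _ σ.surjective
    have := (hK (σ ⁻¹' K)).2 (by rw [hKe]; exact ⟨h1, h2, h3, h4⟩)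
    exact ⟨_, this⟩
  · rintro ⟨K, h1⟩
    exact ⟨_, (hK K).1 h1⟩

/-- The law of a crossing event of a disc, moved by an isometry. -/
theorem prob_discX_isometry {Ω : Type u} [MeasurableSpace Ω] {P : Measure Ω}
    [IsProbabilityMeasure P] {S : Ω → Set Pt} {lam : ℝ≥0} (h : IsColouredPoisson P S lam)
    (σ : ℂ ≃ᵢ ℂ) {z₀ : ℂ} {R : ℝ} (hR : 0 < R) (hσ : σ '' closedBall z₀ R = closedBall z₀ R)
    {s t u v s' t' u' v' : ℝ} (h1 : σ '' cArc z₀ R s t = cArc z₀ R s' t')
    (h2 : σ '' cArc z₀ R u v = cArc z₀ R u' v') :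
    P {ω | S ω ∈ discX z₀ R s' t' u' v'} = P {ω | S ω ∈ discX z₀ R s t u v} := by
  obtain ⟨-, -, he⟩ := inv Ω P S lam h σ (Equiv.refl Bool) _ (measurable_discX hR s' t' u' v')
  rw [← he]
  congr 1
  ext ω
  have := crossEv_isometry σ (closedBall z₀ R) (cArc z₀ R s t) (cArc z₀ R u v) (S ω)
  rw [hσ, h1, h2] at this
  exact this

theorem fixes_ball {σ : ℂ ≃ᵢ ℂ} {z₀ : ℂ} (h : σ z₀ = z₀) (R : ℝ) :
    σ '' closedBall z₀ R = closedBall z₀ R := by
  rw [σ.image_closedBall, h]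

/-- The image of an arc under a map which acts on the angles. -/
theorem image_cArc_of (g : ℂ → ℂ) (f : ℝ → ℝ) {z₀ : ℂ} {R : ℝ} {s t s' t' : ℝ}
    (hg : ∀ a : ℝ, g (z₀ + R * Complex.exp (a * Complex.I)) =
      z₀ + R * Complex.exp (f a * Complex.I)) (hf : f '' Icc s t = Icc s' t') :
    g '' cArc z₀ R s t = cArc z₀ R s' t' := by
  unfold cArc
  rw [← hf, image_image, image_image]
  exact image_congr fun a _ => hg a

theorem exists_rot (z₀ : ℂ) (ψ : ℝ) : ∃ σ : ℂ ≃ᵢ ℂ, σ z₀ = z₀ ∧ ∀ R a : ℝ,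
    σ (z₀ + R * Complex.exp (a * Complex.I)) =
      z₀ + R * Complex.exp (((a + ψ : ℝ) : ℂ) * Complex.I) := by
  refine ⟨((IsometryEquiv.addRight (-z₀)).trans
    (rotation (Circle.exp ψ)).toIsometryEquiv).trans (IsometryEquiv.addRight z₀), ?_, ?_⟩
  · simp
  · intro R a
    simp only [IsometryEquiv.trans_apply, IsometryEquiv.addRight_apply,
      LinearIsometryEquiv.coe_toIsometryEquiv, rotation_apply, Circle.coe_exp]
    rw [Complex.ofReal_add, add_mul, Complex.exp_add]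
    ring

theorem exists_refl (z₀ : ℂ) (ψ : ℝ) : ∃ σ : ℂ ≃ᵢ ℂ, σ z₀ = z₀ ∧ ∀ R a : ℝ,
    σ (z₀ + R * Complex.exp (a * Complex.I)) =
      z₀ + R * Complex.exp (((2 * ψ - a : ℝ) : ℂ) * Complex.I) := by
  refine ⟨(((IsometryEquiv.addRight (-z₀)).trans Complex.conjLIE.toIsometryEquiv).trans
    (rotation (Circle.exp (2 * ψ))).toIsometryEquiv).trans (IsometryEquiv.addRight z₀), ?_, ?_⟩
  · simp
  · intro R a
    simp only [IsometryEquiv.trans_apply, IsometryEquiv.addRight_apply,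
      LinearIsometryEquiv.coe_toIsometryEquiv, rotation_apply, Circle.coe_exp,
      Complex.conjLIE_apply]
    have e1 : z₀ + (R : ℂ) * Complex.exp (a * Complex.I) + -z₀ =
        R * Complex.exp (a * Complex.I) := by ring
    rw [e1, map_mul, Complex.conj_ofReal, ← Complex.exp_conj, map_mul, Complex.conj_ofReal,
      Complex.conj_I]
    have e2 : Complex.exp (((2 * ψ - a : ℝ) : ℂ) * Complex.I) =
        Complex.exp (((2 * ψ : ℝ) : ℂ) * Complex.I) * Complex.exp ((a : ℂ) * -Complex.I) := by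
      rw [← Complex.exp_add]
      congr 1
      push_cast
      ring
    rw [e2]
    ring

/-- X5. -/
theorem dsymm : SymmStmt.{u} := by
  intro Ω _ P _ S lam h z₀ R hR s t u v
  constructor
  · intro ψ
    obtain ⟨σ, h0, hσ⟩ := exists_refl z₀ ψ
    have him : ∀ a b : ℝ, (fun x : ℝ => 2 * ψ - x) '' Icc a b = Icc (2 * ψ - b) (2 * ψ - a) :=
      fun a b => by rw [image_const_sub_Icc]
    exact prob_discX_isometry h σ hR (fixes_ball h0 R)
      (image_cArc_of σ (fun x => 2 * ψ - x) (fun a => hσ R a) (him s t))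
      (image_cArc_of σ (fun x => 2 * ψ - x) (fun a => hσ R a) (him u v))
  · intro ψ
    obtain ⟨σ, h0, hσ⟩ := exists_rot z₀ ψ
    have him : ∀ a b : ℝ, (fun x : ℝ => x + ψ) '' Icc a b = Icc (a + ψ) (b + ψ) :=
      fun a b => by rw [image_add_const_Icc]
    exact prob_discX_isometry h σ hR (fixes_ball h0 R)
      (image_cArc_of σ (fun x => x + ψ) (fun a => hσ R a) (him s t))
      (image_cArc_of σ (fun x => x + ψ) (fun a => hσ R a) (him u v))

end P148
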