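import Mathlib

/-!
# P148: Voronoi percolation in the plane, quads, Cardy's function
-/

open MeasureTheory Set Metric Topology Filter ProbabilityTheory
open scoped ENNReal NNReal

namespace P148

/-- A coloured point: a position in the plane and a colour (`true` is black, `false` is white). -/
abbrev Pt : Type := ℂ × Bool

/-- The law of a fair coin. -/
noncomputable def fair : Measure Bool := (2⁻¹ : ℝ≥0∞) • Measure.count

/-- The intensity measure `lam * (Lebesgue measure ⊗ fair coin)` on coloured points. -/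
noncomputable def inten (lam : ℝ≥0) : Measure Pt := lam • (volume : Measure ℂ).prod fair

/-- `A` lies over a bounded part of the plane. -/
def Bdd (A : Set Pt) : Prop := ∃ r : ℝ, A ⊆ ball (0 : ℂ) r ×ˢ univ

/-- `S` is a homogeneous Poisson point process of intensity `lam` in the plane whose points carry
independent fair colours: a random locally finite set of coloured points such that the numbers of
points in disjoint bounded Borel sets of coloured points are independent Poisson variables whose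
means are given by `lam * (Lebesgue ⊗ fair coin)`. -/
structure IsColouredPoisson {Ω : Type*} [MeasurableSpace Ω] (P : Measure Ω) (S : Ω → Set Pt)
    (lam : ℝ≥0) : Prop where
  locFin : ∀ ω, ∀ r : ℝ, (S ω ∩ ball (0 : ℂ) r ×ˢ univ).Finite
  oneColour : ∀ ω z, ¬ ((z, true) ∈ S ω ∧ (z, false) ∈ S ω)
  meas : ∀ A : Set Pt, MeasurableSet A → Bdd A →
    Measurable fun ω => (S ω ∩ A).ncard
  law : ∀ A : Set Pt, MeasurableSet A → Bdd A →
    P.map (fun ω => (S ω ∩ A).ncard) = poissonMeasure (inten lam A).toNNReal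
  indep : ∀ (n : ℕ) (A : Fin n → Set Pt), (∀ i, MeasurableSet (A i)) →
    (∀ i, Bdd (A i)) → Pairwise (fun i j => Disjoint (A i) (A j)) →
    iIndepFun (fun i ω => (S ω ∩ A i).ncard) P

/-- The positions of the points of a coloured configuration. -/
def pts (S : Set Pt) : Set ℂ := Prod.fst '' S

/-- The closed Voronoi cell of `v`. -/
def cell (S : Set Pt) (v : ℂ) : Set ℂ := {z | ∀ w ∈ pts S, dist z v ≤ dist z w}

/-- The union of the closed black cells. -/
def blackRegion (S : Set Pt) : Set ℂ := ⋃ v ∈ {v : ℂ | (v, true) ∈ S}, cell S v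

/-- The union of the closed white cells. -/
def whiteRegion (S : Set Pt) : Set ℂ := ⋃ v ∈ {v : ℂ | (v, false) ∈ S}, cell S v

/-- The closed square `[-1,1]²`. -/
def sq : Set ℂ := {z | |z.re| ≤ 1 ∧ |z.im| ≤ 1}

/-- The sides of the square, counterclockwise: bottom, right, top, left. -/
def side (i : Fin 4) : Set ℂ :=
  match i with
  | 0 => {z | |z.re| ≤ 1 ∧ z.im = -1}
  | 1 => {z | z.re = 1 ∧ |z.im| ≤ 1}
  | 2 => {z | |z.re| ≤ 1 ∧ z.im = 1}
  | 3 => {z | z.re = -1 ∧ |z.im| ≤ 1}

/-- The corners of the square, counterclockwise; `corner i` is the first point of `side i`. -/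
noncomputable def corner (i : Fin 4) : ℂ :=
  match i with
  | 0 => ⟨-1, -1⟩
  | 1 => ⟨1, -1⟩
  | 2 => ⟨1, 1⟩
  | 3 => ⟨-1, 1⟩

/-- A quad: a Jordan domain with four marked boundary points, given (Schoenflies) as the image of
the square and its corners under a homeomorphism of the plane. -/
structure Quad where
  H : ℂ ≃ₜ ℂ

namespace Quad

variable (Q : Quad)

/-- The Jordan domain. -/
def D : Set ℂ := Q.H '' {z | |z.re| < 1 ∧ |z.im| < 1}

/-- The marked points `a`, `b`, `c`, `d`. -/
noncomputable def mark (i : Fin 4) : ℂ := Q.H (corner i)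

/-- The boundary arcs `ab`, `bc`, `cd`, `da`, with their endpoints. -/
def arc (i : Fin 4) : Set ℂ := Q.H '' side i

/-- `R ∩ closure D` contains a connected set meeting the arcs `i` and `j`. -/
def Cross (i j : Fin 4) (R : Set ℂ) : Prop :=
  ∃ K ⊆ R ∩ closure Q.D, IsConnected K ∧ (K ∩ Q.arc i).Nonempty ∧ (K ∩ Q.arc j).Nonempty

/-- `φ` is a conformal map of `D` onto the upper half-plane, extended continuously to the closure,
with `φ(a) = 0`, `φ(b) = x`, `φ(c) = 1`, `φ(d) = ∞`. -/
structure IsUniformizer (φ : ℂ → ℂ) (x : ℝ) : Prop where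
  hol : DifferentiableOn ℂ φ Q.D
  bij : BijOn φ Q.D {w | 0 < w.im}
  cont : ContinuousOn φ (closure Q.D \ {Q.mark 3})
  at_a : φ (Q.mark 0) = 0
  at_b : φ (Q.mark 1) = x
  at_c : φ (Q.mark 2) = 1
  at_d : Tendsto (fun z => ‖φ z‖) (𝓝[Q.D] (Q.mark 3)) atTop

/-- The quad has a Euclidean symmetry which exchanges the pair of arcs `ab, cd` with the pair
`bc, da`. -/
def SelfDual : Prop :=
  ∃ σ : ℂ ≃ᵢ ℂ, σ '' Q.D = Q.D ∧ ∃ p : Equiv.Perm (Fin 4), (∀ i, σ '' Q.arc i = Q.arc (p i)) ∧
    ∀ i, (p i).val % 2 ≠ i.val % 2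

end Quad

/-- Cardy's function. -/
noncomputable def cardy (x : ℝ) : ℝ :=
  (∫ u in (0 : ℝ)..x, (u * (1 - u)) ^ (-(2 / 3) : ℝ)) /
    ∫ u in (0 : ℝ)..1, (u * (1 - u)) ^ (-(2 / 3) : ℝ)

end P148
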