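import Vale.Agent.P148.Props

/-!
# P148, row N3: the cone-free points of a closed set are a null set
-/

open MeasureTheory Set Metric Topology Filter ProbabilityTheory
open scoped ENNReal NNReal

namespace P148

theorem density : DensityStmt := by
  intro A hA
  have key := (ae_restrict_iff' hA.measurableSet).1
    (Besicovitch.ae_tendsto_measure_inter_div (volume : Measure ℂ) A)
  rw [ae_iff] at key
  refine measure_mono_null ?_ key
  rintro z ⟨hzA, h, τ, hτ, r, hr, hd⟩
  simp only [mem_ofPred_eq]
  intro hlim'
  have hlim := hlim' hzA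
  set R : ℝ := ‖h‖ + τ with hRdef
  have hR : 0 < R := by positivity
  have hle : ∀ᶠ t in 𝓝[>] (0:ℝ), volume (A ∩ closedBall z t) / volume (closedBall z t) ≤
      1 - ENNReal.ofReal ((τ / R) ^ 2) := by
    have hm : Ioo (0:ℝ) (r * R) ∈ 𝓝[>] (0:ℝ) := Ioo_mem_nhdsGT (by positivity)
    filter_upwards [hm] with t ht
    have ht0 : 0 < t := ht.1
    set s : ℝ := t / R with hs
    have hs0 : 0 < s := by positivity
    have hsr : s < r := by rw [hs, div_lt_iff₀ hR]; exact ht.2
    have hsR : s * R = t := by rw [hs]; field_simp
    have hdis := hd s hs0 hsr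
    have hsub : ball (z + s * h) (s * τ) ⊆ closedBall z t := by
      intro y hy
      rw [mem_ball, dist_eq_norm] at hy
      rw [mem_closedBall, dist_eq_norm]
      calc ‖y - z‖ = ‖(y - (z + s * h)) + s * h‖ := by congr 1; ring
        _ ≤ ‖y - (z + s * h)‖ + ‖(s : ℂ) * h‖ := norm_add_le _ _
        _ ≤ s * τ + s * ‖h‖ := by
            rw [norm_mul, Complex.norm_real, Real.norm_of_nonneg hs0.le]
            linarith
        _ = t := by rw [← hsR, hRdef]; ring
    have hVpos : volume (closedBall z t) ≠ 0 := by
      exact (measure_closedBall_pos volume z ht0).ne'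
    have hVfin : volume (closedBall z t) ≠ ∞ := measure_closedBall_lt_top.ne
    have hball : volume (ball (z + s * h) (s * τ)) =
        ENNReal.ofReal ((τ / R) ^ 2) * volume (closedBall z t) := by
      rw [Complex.volume_ball, Complex.volume_closedBall, ← mul_assoc]
      congr 1
      rw [← ENNReal.ofReal_pow (by positivity), ← ENNReal.ofReal_pow ht0.le,
        ← ENNReal.ofReal_mul (by positivity)]
      congr 1
      rw [hs]; field_simp
    have h1 : volume (A ∩ closedBall z t) ≤
        volume (closedBall z t) - volume (ball (z + s * h) (s * τ)) := by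
      rw [← measure_sdiff hsub measurableSet_ball.nullMeasurableSet measure_ball_lt_top.ne]
      refine measure_mono ?_
      rintro y ⟨hyA, hyB⟩
      exact ⟨hyB, fun hy => (disjoint_left.1 hdis) hy hyA⟩
    rw [ENNReal.div_le_iff hVpos hVfin]
    refine h1.trans ?_
    rw [hball, ENNReal.sub_mul (fun _ _ => hVfin), one_mul]
  have h1 := le_of_tendsto hlim hle
  have h2 : (1 : ℝ≥0∞) - ENNReal.ofReal ((τ / R) ^ 2) < 1 := by
    refine ENNReal.sub_lt_self ENNReal.one_ne_top one_ne_zero ?_
    simp only [ne_eq, ENNReal.ofReal_eq_zero, not_le]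
    positivity
  exact absurd h1 (not_le.2 h2)

end P148
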