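import Vale.Agent.P148.Final2
import Vale.Agent.P148.Angular

/-!
# P148: disc quads exist
-/

open Set Metric Topology Filter
open scoped ENNReal NNReal

namespace P148

theorem sq_eq : sq = Icc (-1 : ℝ) 1 ×ℂ Icc (-1 : ℝ) 1 := by
  ext z
  simp only [sq, mem_ofPred_eq, Complex.mem_reProdIm, mem_Icc, abs_le]

theorem interior_sq : interior sq = {z : ℂ | |z.re| < 1 ∧ |z.im| < 1} := by
  rw [sq_eq, Complex.interior_reProdIm, interior_Icc]
  ext z
  simp only [mem_ofPred_eq, Complex.mem_reProdIm, mem_Ioo, abs_lt]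

theorem convex_sq : Convex ℝ sq := by
  intro x hx y hy a b ha hb hab
  refine ⟨?_, ?_⟩
  · have h1 := hx.1
    have h2 := hy.1
    rw [abs_le] at h1 h2 ⊢
    simp only [Complex.add_re, Complex.real_smul, Complex.re_ofReal_mul]
    constructor <;> nlinarith
  · have h1 := hx.2
    have h2 := hy.2
    rw [abs_le] at h1 h2 ⊢
    simp only [Complex.add_im, Complex.real_smul, Complex.im_ofReal_mul]
    constructor <;> nlinarith

theorem sq_mem_nhds : sq ∈ 𝓝 (0 : ℂ) := by
  rw [mem_interior_iff_mem_nhds.symm, interior_sq]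
  simp

theorem isVonNBounded_sq : Bornology.IsVonNBounded ℝ sq := by
  rw [NormedSpace.isVonNBounded_iff]
  exact isCompact_sq.isBounded

theorem side_frontier (i : Fin 4) {z : ℂ} (hz : z ∈ side i) : z ∈ frontier sq := by
  rw [frontier, interior_sq, (isCompact_sq.isClosed).closure_eq]
  refine ⟨side_subset_sq i hz, fun h => ?_⟩
  fin_cases i <;> simp only [side, mem_ofPred_eq] at hz h
  · rw [hz.2] at h; norm_num at h
  · rw [hz.1] at h; norm_num at h
  · rw [hz.2] at h; norm_num at h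
  · rw [hz.1] at h; norm_num at h

/-- The radial homeomorphism from the square to the disc. -/
noncomputable def radial : ℂ ≃ₜ ℂ :=
  gaugeRescaleHomeomorph sq (closedBall (0 : ℂ) 1) convex_sq sq_mem_nhds isVonNBounded_sq
    (convex_closedBall 0 1) (closedBall_mem_nhds 0 one_pos)
    ((NormedSpace.isVonNBounded_iff ℝ).2 isBounded_closedBall)

theorem radial_open : radial '' {z : ℂ | |z.re| < 1 ∧ |z.im| < 1} = ball 0 1 := by
  rw [← interior_sq]
  have := image_gaugeRescaleHomeomorph_interior (E := ℂ) (s := sq) (t := closedBall (0 : ℂ) 1)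
    convex_sq sq_mem_nhds isVonNBounded_sq (convex_closedBall 0 1)
    (closedBall_mem_nhds 0 one_pos) ((NormedSpace.isVonNBounded_iff ℝ).2 isBounded_closedBall)
  rw [interior_closedBall (0 : ℂ) one_ne_zero] at this
  exact this

theorem radial_side (i : Fin 4) {z : ℂ} (hz : z ∈ side i) : radial z = z / ‖z‖ := by
  have h1 : gauge sq z = 1 :=
    (gauge_eq_one_iff_mem_frontier convex_sq sq_mem_nhds).2 (side_frontier i hz)
  have h2 : gauge (closedBall (0 : ℂ) 1) z = ‖z‖ := by
    rw [gauge_closedBall zero_le_one, div_one]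
  change gaugeRescale sq (closedBall (0 : ℂ) 1) z = _
  rw [gaugeRescale_def, h1, h2, Complex.real_smul, div_eq_inv_mul z]
  push_cast
  rw [one_div]

theorem radial_arctan (i : Fin 4) (κ t : ℝ) {c z : ℂ} (hc : c = Complex.exp (κ * Complex.I))
    (hz : z ∈ side i) (hzc : z = c * (1 + t * Complex.I)) :
    radial z = Complex.exp ((κ + Real.arctan t : ℝ) * Complex.I) := by
  have hn : ‖z‖ = Real.sqrt (1 + t ^ 2) := by
    have h2 : ‖(1 : ℂ) + t * Complex.I‖ = Real.sqrt (1 + t ^ 2) := by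
      have := Complex.norm_add_mul_I 1 t
      simpa using this
    rw [hzc, norm_mul, hc, Complex.norm_exp_ofReal_mul_I, one_mul, h2]
  have hpos : (0 : ℝ) < Real.sqrt (1 + t ^ 2) := Real.sqrt_pos.2 (by positivity)
  rw [radial_side i hz, hn, hzc, hc, Complex.ofReal_add, add_mul, Complex.exp_add, mul_div_assoc]
  congr 1
  rw [Complex.exp_mul_I, ← Complex.ofReal_cos, ← Complex.ofReal_sin, Real.cos_arctan,
    Real.sin_arctan]
  push_cast
  have h3 : ((Real.sqrt (1 + t ^ 2) : ℝ) : ℂ) ≠ 0 := by exact_mod_cast hpos.ne'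
  field_simp

/-- The parameter of a side. -/
theorem side_param (i : Fin 4) (κ : ℝ) (c : ℂ) (hc : c = Complex.exp (κ * Complex.I))
    (h : ∀ z, z ∈ side i ↔ ∃ t : ℝ, |t| ≤ 1 ∧ z = c * (1 + t * Complex.I)) :
    radial '' side i = cArc 0 1 (κ - Real.pi / 4) (κ + Real.pi / 4) := by
  have hat : Real.arctan (-1) = -(Real.pi / 4) := by rw [Real.arctan_neg, Real.arctan_one]
  have hpi := Real.pi_pos
  ext w
  constructor
  · rintro ⟨z, hz, rfl⟩
    obtain ⟨t, ht, hzt⟩ := (h z).1 hz
    rw [abs_le] at ht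
    refine ⟨κ + Real.arctan t, ⟨?_, ?_⟩, ?_⟩
    · have := Real.arctan_mono ht.1
      rw [hat] at this
      linarith
    · have := Real.arctan_mono ht.2
      rw [Real.arctan_one] at this
      linarith
    · rw [radial_arctan i κ t hc hz hzt]
      simp
  · rintro ⟨u, ⟨hu1, hu2⟩, rfl⟩
    have hu3 : -(Real.pi / 2) < u - κ := by linarith
    have hu4 : u - κ < Real.pi / 2 := by linarith
    have h1 : Real.arctan (Real.tan (u - κ)) = u - κ := Real.arctan_tan hu3 hu4
    have ht : |Real.tan (u - κ)| ≤ 1 := by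
      rw [abs_le]
      constructor
      · by_contra hn
        push Not at hn
        have := Real.arctan_strictMono hn
        rw [h1, hat] at this
        linarith
      · by_contra hn
        push Not at hn
        have := Real.arctan_strictMono hn
        rw [h1, Real.arctan_one] at this
        linarith
    have hz : c * (1 + (Real.tan (u - κ) : ℝ) * Complex.I) ∈ side i := (h _).2 ⟨_, ht, rfl⟩
    refine ⟨_, hz, ?_⟩
    rw [radial_arctan i κ _ hc hz rfl, h1]
    simp

theorem radial_side0 : radial '' side 0 = cArc 0 1 (-(3 * Real.pi / 4)) (-(Real.pi / 4)) := by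
  have := side_param 0 (-(Real.pi / 2)) (-Complex.I) (by
    rw [Complex.exp_mul_I, ← Complex.ofReal_cos, ← Complex.ofReal_sin]; simp) (by
    intro z
    simp only [side, mem_ofPred_eq]
    constructor
    · rintro ⟨h1, h2⟩
      refine ⟨z.re, h1, ?_⟩
      apply Complex.ext <;> simp [h2]
    · rintro ⟨t, ht, rfl⟩
      simp [ht])
  rw [this]
  congr 1 <;> ring

theorem radial_side1 : radial '' side 1 = cArc 0 1 (-(Real.pi / 4)) (Real.pi / 4) := by
  have := side_param 1 0 1 (by simp) (by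
    intro z
    simp only [side, mem_ofPred_eq]
    constructor
    · rintro ⟨h1, h2⟩
      refine ⟨z.im, h2, ?_⟩
      apply Complex.ext <;> simp [h1]
    · rintro ⟨t, ht, rfl⟩
      simp [ht])
  rw [this]
  congr 1 <;> ring

theorem radial_side2 : radial '' side 2 = cArc 0 1 (Real.pi / 4) (3 * Real.pi / 4) := by
  have := side_param 2 (Real.pi / 2) Complex.I (by
    rw [Complex.exp_mul_I, ← Complex.ofReal_cos, ← Complex.ofReal_sin]; simp) (by
    intro z
    simp only [side, mem_ofPred_eq]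
    constructor
    · rintro ⟨h1, h2⟩
      refine ⟨-z.re, by rwa [abs_neg], ?_⟩
      apply Complex.ext <;> simp [h2]
    · rintro ⟨t, ht, rfl⟩
      simp [ht])
  rw [this]
  congr 1 <;> ring

theorem radial_side3 : radial '' side 3 = cArc 0 1 (3 * Real.pi / 4) (5 * Real.pi / 4) := by
  have := side_param 3 Real.pi (-1) (by simp) (by
    intro z
    simp only [side, mem_ofPred_eq]
    constructor
    · rintro ⟨h1, h2⟩
      refine ⟨-z.im, by rwa [abs_neg], ?_⟩
      apply Complex.ext <;> simp [h1]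
    · rintro ⟨t, ht, rfl⟩
      simp [ht])
  rw [this]
  congr 1 <;> ring

/-- The angles of the corners. -/
noncomputable def stdKnots : Knots where
  a := -(3 * Real.pi / 4)
  b := -(Real.pi / 4)
  c := Real.pi / 4
  d := 3 * Real.pi / 4
  hab := by linarith [Real.pi_pos]
  hbc := by linarith [Real.pi_pos]
  hcd := by linarith [Real.pi_pos]
  hda := by linarith [Real.pi_pos]

theorem plHomeo_arc (k l : Knots) {s t s' t' : ℝ}
    (hs : k.a ≤ s) (ht : t ≤ k.a + 2 * Real.pi) (h : Th k l '' Icc s t = Icc s' t') :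
    plHomeo k l '' cArc 0 1 s t = cArc 0 1 s' t' := by
  unfold cArc
  rw [image_image, ← h, image_image]
  refine image_congr fun u hu => ?_
  have := plMap_polar k l zero_le_one (u := u) ⟨hs.trans hu.1, hu.2.trans ht⟩
  simp only [Complex.ofReal_one, one_mul, zero_add] at this ⊢
  exact this

theorem Th_image {k l : Knots} {a b a' b' : ℝ}
    (h1 : ∀ u, a ≤ u → u ≤ b → a' ≤ Th k l u ∧ Th k l u ≤ b' ∧ Th l k (Th k l u) = u)
    (h2 : ∀ u, a' ≤ u → u ≤ b' → a ≤ Th l k u ∧ Th l k u ≤ b ∧ Th k l (Th l k u) = u) :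
    Th k l '' Icc a b = Icc a' b' := by
  ext v
  constructor
  · rintro ⟨u, hu, rfl⟩
    obtain ⟨a1, a2, -⟩ := h1 u hu.1 hu.2
    exact ⟨a1, a2⟩
  · rintro ⟨hv1, hv2⟩
    obtain ⟨a1, a2, a3⟩ := h2 v hv1 hv2
    exact ⟨_, ⟨a1, a2⟩, a3⟩

/-- The similarity onto the disc. -/
noncomputable def simHomeo (z₀ : ℂ) (R : ℝ) (hR : 0 < R) : ℂ ≃ₜ ℂ :=
  (Homeomorph.mulLeft₀ (R : ℂ) (by exact_mod_cast hR.ne')).trans (Homeomorph.addLeft z₀)

theorem simHomeo_apply (z₀ : ℂ) (R : ℝ) (hR : 0 < R) (z : ℂ) :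
    simHomeo z₀ R hR z = z₀ + R * z := rfl

theorem simHomeo_arc (z₀ : ℂ) (R : ℝ) (hR : 0 < R) (s t : ℝ) :
    simHomeo z₀ R hR '' cArc 0 1 s t = cArc z₀ R s t := by
  unfold cArc
  rw [image_image]
  refine image_congr fun u _ => ?_
  rw [simHomeo_apply]
  simp

theorem simHomeo_ball (z₀ : ℂ) (R : ℝ) (hR : 0 < R) :
    simHomeo z₀ R hR '' ball 0 1 = ball z₀ R := by
  ext w
  constructor
  · rintro ⟨z, hz, rfl⟩
    rw [mem_ball_zero_iff] at hz
    rw [simHomeo_apply, mem_ball, dist_eq_norm, add_sub_cancel_left, norm_mul, Complex.norm_real,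
      Real.norm_of_nonneg hR.le]
    nlinarith
  · intro hw
    refine ⟨(w - z₀) / R, ?_, ?_⟩
    · rw [mem_ball, dist_eq_norm] at hw
      rw [mem_ball_zero_iff, norm_div, Complex.norm_real, Real.norm_of_nonneg hR.le,
        div_lt_one hR]
      exact hw
    · rw [simHomeo_apply, mul_div_cancel₀]
      · ring
      · exact_mod_cast hR.ne'

theorem cArc_fst (z₀ : ℂ) (R : ℝ) {s t : ℝ} (h : s = t) :
    cArc z₀ R s t = {z₀ + R * Complex.exp (s * Complex.I)} := by
  subst h
  unfold cArc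
  rw [Icc_self, image_singleton]

theorem discQuad : DiscQuadStmt := by
  intro z₀ R θ₀ θ₁ θ₂ θ₃ hR h01 h12 h23 h30
  let l : Knots := ⟨θ₀, θ₁, θ₂, θ₃, h01, h12, h23, h30⟩
  let k := stdKnots
  let Q : Quad := ⟨(radial.trans (plHomeo k l)).trans (simHomeo z₀ R hR)⟩
  have hpi := Real.pi_pos
  have harc : ∀ (i : Fin 4) (s t s' t' : ℝ), radial '' side i = cArc 0 1 s t → k.a ≤ s →
      t ≤ k.a + 2 * Real.pi → Th k l '' Icc s t = Icc s' t' → Q.arc i = cArc z₀ R s' t' := by
    intro i s t s' t' h1 h2 h3 h4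
    have : Q.arc i = simHomeo z₀ R hR '' (plHomeo k l '' (radial '' side i)) := by
      rw [image_image, image_image]
      rfl
    rw [this, h1, plHomeo_arc k l h2 h3 h4, simHomeo_arc]
  have e0 : Q.arc 0 = cArc z₀ R θ₀ θ₁ :=
    harc 0 _ _ _ _ radial_side0 le_rfl
      (by show -(Real.pi / 4) ≤ -(3 * Real.pi / 4) + 2 * Real.pi; linarith)
      (Th_image (k := k) (l := l) (fun u => Th_mem1 k l) (fun u => Th_mem1 l k))
  have e1 : Q.arc 1 = cArc z₀ R θ₁ θ₂ :=
    harc 1 _ _ _ _ radial_side1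
      (by show -(3 * Real.pi / 4) ≤ -(Real.pi / 4); linarith)
      (by show Real.pi / 4 ≤ -(3 * Real.pi / 4) + 2 * Real.pi; linarith)
      (Th_image (k := k) (l := l) (fun u => Th_mem2 k l) (fun u => Th_mem2 l k))
  have e2 : Q.arc 2 = cArc z₀ R θ₂ θ₃ :=
    harc 2 _ _ _ _ radial_side2
      (by show -(3 * Real.pi / 4) ≤ Real.pi / 4; linarith)
      (by show 3 * Real.pi / 4 ≤ -(3 * Real.pi / 4) + 2 * Real.pi; linarith)
      (Th_image (k := k) (l := l) (fun u => Th_mem3 k l) (fun u => Th_mem3 l k))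
  have h5 : (5 * Real.pi / 4 : ℝ) = k.a + 2 * Real.pi := by
    show (5 * Real.pi / 4 : ℝ) = -(3 * Real.pi / 4) + 2 * Real.pi
    ring
  have e3 : Q.arc 3 = cArc z₀ R θ₃ (θ₀ + 2 * Real.pi) := by
    refine harc 3 _ _ _ _ radial_side3
      (by show -(3 * Real.pi / 4) ≤ 3 * Real.pi / 4; linarith) h5.le ?_
    rw [h5]
    exact Th_image (k := k) (l := l) (fun u => Th_mem4 k l) (fun u => Th_mem4 l k)
  have hmark : ∀ (i : Fin 4) (κ t u : ℝ) (c : ℂ), c = Complex.exp (κ * Complex.I) →
      corner i ∈ side i → corner i = c * (1 + t * Complex.I) → κ + Real.arctan t = u →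
      u ∈ Icc k.a (k.a + 2 * Real.pi) →
      Q.mark i = z₀ + R * Complex.exp (Th k l u * Complex.I) := by
    intro i κ t u c hc hi hci hu hm
    have h1 := radial_arctan i κ t hc hi hci
    rw [hu] at h1
    have h2 := plMap_polar k l zero_le_one hm
    simp only [Complex.ofReal_one, one_mul] at h2
    change simHomeo z₀ R hR (plMap k l (radial (corner i))) = _
    rw [h1, h2, simHomeo_apply]
  have hat : Real.arctan (-1) = -(Real.pi / 4) := by rw [Real.arctan_neg, Real.arctan_one]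
  have c0 : corner 0 ∈ side 0 := by simp [corner, side]
  have c1 : corner 1 ∈ side 1 := by simp [corner, side]
  have c2 : corner 2 ∈ side 2 := by simp [corner, side]
  have c3 : corner 3 ∈ side 3 := by simp [corner, side]
  have m0 := hmark 0 (-(Real.pi / 2)) (-1) k.a (-Complex.I) (by
    rw [Complex.exp_mul_I, ← Complex.ofReal_cos, ← Complex.ofReal_sin]; simp) c0
    (by apply Complex.ext <;> simp [corner])
    (by rw [hat]; show -(Real.pi / 2) + -(Real.pi / 4) = -(3 * Real.pi / 4); ring)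
    ⟨le_rfl, by linarith⟩
  have m1 := hmark 1 0 (-1) k.b 1 (by simp) c1
    (by apply Complex.ext <;> simp [corner])
    (by rw [hat]; show 0 + -(Real.pi / 4) = -(Real.pi / 4); ring)
    ⟨k.hab.le, by show -(Real.pi / 4) ≤ -(3 * Real.pi / 4) + 2 * Real.pi; linarith⟩
  have m2 := hmark 2 (Real.pi / 2) (-1) k.c Complex.I (by
    rw [Complex.exp_mul_I, ← Complex.ofReal_cos, ← Complex.ofReal_sin]; simp) c2
    (by apply Complex.ext <;> simp [corner])
    (by rw [hat]; show Real.pi / 2 + -(Real.pi / 4) = Real.pi / 4; ring)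
    ⟨by show -(3 * Real.pi / 4) ≤ Real.pi / 4; linarith,
      by show Real.pi / 4 ≤ -(3 * Real.pi / 4) + 2 * Real.pi; linarith⟩
  have m3 := hmark 3 Real.pi (-1) k.d (-1) (by simp) c3
    (by apply Complex.ext <;> simp [corner])
    (by rw [hat]; show Real.pi + -(Real.pi / 4) = 3 * Real.pi / 4; ring)
    ⟨by show -(3 * Real.pi / 4) ≤ 3 * Real.pi / 4; linarith,
      by show 3 * Real.pi / 4 ≤ -(3 * Real.pi / 4) + 2 * Real.pi; linarith⟩
  have t0 : Th k l k.a = θ₀ := Th_a k l
  have t1 : Th k l k.b = θ₁ := by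
    rw [Th2 k l le_rfl k.hbc.le]; simp [l]
  have t2 : Th k l k.c = θ₂ := by
    rw [Th3 k l le_rfl k.hcd.le]; simp [l]
  have t3 : Th k l k.d = θ₃ := by
    rw [Th4 k l le_rfl k.hda.le]; simp [l]
  rw [t0] at m0
  rw [t1] at m1
  rw [t2] at m2
  rw [t3] at m3
  refine ⟨Q, ?_, m0, m1, m2, m3, e0, e1, e2, e3⟩
  have : Q.D = simHomeo z₀ R hR '' (plHomeo k l '' (radial '' {z : ℂ | |z.re| < 1 ∧ |z.im| < 1})) := by
    rw [image_image, image_image]
    rfl
  rw [this, radial_open, plHomeo_ball, simHomeo_ball]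

end P148
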