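import Vale.Agent.P148.Props
import Vale.Agent.P198.Hex.Miranda

/-!
# P148, row T2: one of two closed sets covering the square crosses it
-/

open Set Metric Topology unitInterval

namespace P148

theorem isClosed_absre : IsClosed {z : ℂ | |z.re| ≤ 1} :=
  isClosed_le (continuous_abs.comp Complex.continuous_re) continuous_const

theorem isClosed_absim : IsClosed {z : ℂ | |z.im| ≤ 1} :=
  isClosed_le (continuous_abs.comp Complex.continuous_im) continuous_const

theorem isClosed_reEq (a : ℝ) : IsClosed {z : ℂ | z.re = a} :=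
  isClosed_eq Complex.continuous_re continuous_const

theorem isClosed_imEq (a : ℝ) : IsClosed {z : ℂ | z.im = a} :=
  isClosed_eq Complex.continuous_im continuous_const

theorem isClosed_sq : IsClosed sq := isClosed_absre.inter isClosed_absim

theorem isCompact_sq : IsCompact sq := by
  refine isCompact_of_isClosed_isBounded isClosed_sq
    (isBounded_iff_subset_closedBall 0 |>.2 ⟨2, fun z hz => ?_⟩)
  rw [mem_closedBall_zero_iff]
  calc ‖z‖ ≤ |z.re| + |z.im| := Complex.norm_le_abs_re_add_abs_im z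
    _ ≤ 2 := by linarith [hz.1, hz.2]

theorem isClosed_side (i : Fin 4) : IsClosed (side i) := by
  fin_cases i
  · exact isClosed_absre.inter (isClosed_imEq (-1))
  · exact (isClosed_reEq 1).inter isClosed_absim
  · exact isClosed_absre.inter (isClosed_imEq 1)
  · exact (isClosed_reEq (-1)).inter isClosed_absim

theorem side_subset_sq (i : Fin 4) : side i ⊆ sq := by
  fin_cases i
  · rintro z ⟨h1, h2⟩; exact ⟨h1, by rw [h2]; norm_num⟩
  · rintro z ⟨h1, h2⟩; exact ⟨by rw [h1]; norm_num, h2⟩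
  · rintro z ⟨h1, h2⟩; exact ⟨h1, by rw [h2]; norm_num⟩
  · rintro z ⟨h1, h2⟩; exact ⟨by rw [h1]; norm_num, h2⟩

/-- If the closed set `F` does not connect two disjoint closed sets `A`, `A'` of the square, there
is a continuous function without zeros on `F`, equal to `1` on `A` and to `-1` on `A'`. -/
theorem exists_sepFun (hT1 : SepStmt) {F A A' : Set ℂ} (hF : IsClosed F) (hA : IsClosed A)
    (hA' : IsClosed A') (hAA : Disjoint A A')
    (h : ¬ ∃ K ⊆ F ∩ sq, IsConnected K ∧ (K ∩ A).Nonempty ∧ (K ∩ A').Nonempty) :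
    ∃ u : C(ℂ, ℝ), (∀ z ∈ A, u z = 1) ∧ (∀ z ∈ A', u z = -1) ∧ ∀ z ∈ F ∩ sq, u z ≠ 0 := by
  obtain ⟨F₁, F₂, h1, h2, h12, hU, ha, ha'⟩ :=
    hT1 (F ∩ sq) A A' (isCompact_sq.inter_left hF) hA hA' h
  have hd : Disjoint (F₂ ∪ A') (F₁ ∪ A) := by
    rw [Set.disjoint_left]
    rintro z (hz | hz) (hz' | hz')
    · exact Set.disjoint_left.1 h12 hz' hz
    · exact Set.disjoint_left.1 h12 (ha ⟨hU ▸ Or.inr hz, hz'⟩) hz
    · exact Set.disjoint_left.1 h12 hz' (ha' ⟨hU ▸ Or.inl hz', hz⟩)
    · exact Set.disjoint_left.1 hAA hz' hz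
  obtain ⟨f, f0, f1, -⟩ := exists_continuous_zero_one_of_isClosed (h2.isClosed.union hA')
    (h1.isClosed.union hA) hd
  refine ⟨⟨fun z => 2 * f z - 1, by fun_prop⟩, fun z hz => ?_, fun z hz => ?_, fun z hz => ?_⟩
  · have : f z = 1 := f1 (Or.inr hz)
    simp [this]; norm_num
  · have : f z = 0 := f0 (Or.inr hz)
    simp [this]
  · rw [← hU] at hz
    rcases hz with hz | hz
    · have : f z = 1 := f1 (Or.inl hz)
      simp [this]; norm_num
    · have : f z = 0 := f0 (Or.inl hz)
      simp [this]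

/-- T2. -/
theorem dual (hT1 : SepStmt) : DualStmt := by
  intro F F' hF hF' hcov
  by_contra hcon
  push Not at hcon
  obtain ⟨hc1, hc2⟩ := hcon
  obtain ⟨u, u0, u2, hu⟩ := exists_sepFun hT1 hF (isClosed_side 0) (isClosed_side 2)
    (by
      rw [Set.disjoint_left]
      rintro z ⟨-, hz⟩ ⟨-, hz'⟩
      rw [hz] at hz'; norm_num at hz')
    (by
      rintro ⟨K, hK, hK1, hK2, hK3⟩
      exact Set.not_nonempty_iff_eq_empty.2 (hc1 K hK hK1 hK2) hK3)
  obtain ⟨v, v3, v1, hv⟩ := exists_sepFun hT1 hF' (isClosed_side 3) (isClosed_side 1)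
    (by
      rw [Set.disjoint_left]
      rintro z ⟨hz, -⟩ ⟨hz', -⟩
      rw [hz] at hz'; norm_num at hz')
    (by
      rintro ⟨K, hK, hK1, hK3, hK2⟩
      exact Set.not_nonempty_iff_eq_empty.2 (hc2 K hK hK1 hK2) hK3)
  -- the parametrisation of the square
  let pt : I × I → ℂ := fun z => ⟨2 * (z.1 : ℝ) - 1, 2 * (z.2 : ℝ) - 1⟩
  have hpt : Continuous pt := by
    have : pt = fun z : I × I => ((2 * (z.1 : ℝ) - 1 : ℝ) : ℂ) +
        ((2 * (z.2 : ℝ) - 1 : ℝ) : ℂ) * Complex.I := by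
      funext z
      exact (Complex.re_add_im (pt z)).symm
    rw [this]
    fun_prop
  have hsq : ∀ z, pt z ∈ sq := fun z => by
    have h1 := z.1.2
    have h2 := z.2.2
    rw [mem_Icc] at h1 h2
    exact ⟨abs_le.2 ⟨by simp only [pt]; linarith, by simp only [pt]; linarith⟩,
      abs_le.2 ⟨by simp only [pt]; linarith, by simp only [pt]; linarith⟩⟩
  obtain ⟨z, hz⟩ := P198.PlanarTop.miranda
    ⟨fun z => ((v (pt z) : ℝ) : ℂ) + ((u (pt z) : ℝ) : ℂ) * Complex.I, by fun_prop⟩
    (fun t => by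
      have : v (pt (0, t)) = 1 := v3 _ ⟨by simp [pt], (hsq (0, t)).2⟩
      simp [this])
    (fun t => by
      have : v (pt (1, t)) = -1 := v1 _ ⟨by simp [pt]; norm_num, (hsq (1, t)).2⟩
      simp [this])
    (fun s => by
      have : u (pt (s, 0)) = 1 := u0 _ ⟨(hsq (s, 0)).1, by simp [pt]⟩
      simp [this])
    (fun s => by
      have : u (pt (s, 1)) = -1 := u2 _ ⟨(hsq (s, 1)).1, by simp [pt]; norm_num⟩
      simp [this])
  have h1 : v (pt z) = 0 := by
    have := congrArg Complex.re hz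
    simpa using this
  have h2 : u (pt z) = 0 := by
    have := congrArg Complex.im hz
    simpa using this
  rcases hcov (hsq z) with hF1 | hF1
  · exact hu _ ⟨hF1, hsq z⟩ h2
  · exact hv _ ⟨hF1, hsq z⟩ h1

end P148
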