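import Vale.Agent.P148.Props

/-!
# P148, row C: the modulus of a self-dual quad is one half
-/

open Complex Set Metric Filter Topology
open scoped ComplexConjugate Real

namespace P148
namespace Half

/-! ### injective holomorphic functions -/

section
variable {f : ℂ → ℂ}

/-- An injective holomorphic function has nonvanishing derivative. -/
theorem injOn_deriv_ne_zero {U : Set ℂ} (hU : IsOpen U) (hf1 : DifferentiableOn ℂ f U)
    (hf2 : InjOn f U) {z₀ : ℂ} (hz : z₀ ∈ U) : deriv f z₀ ≠ 0 := by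
  intro hd
  have hnhds : U ∈ 𝓝 z₀ := hU.mem_nhds hz
  have hfa : AnalyticAt ℂ f z₀ := hf1.analyticAt hnhds
  have hφ : AnalyticAt ℂ (fun z => f z - f z₀) z₀ := hfa.sub analyticAt_const
  have hnz : ¬ ∀ᶠ z in 𝓝 z₀, f z - f z₀ = 0 := by
    intro h
    have h2 : ∀ᶠ z in 𝓝[≠] z₀, f z - f z₀ = 0 ∧ z ∈ U :=
      (h.and hnhds).filter_mono nhdsWithin_le_nhds
    obtain ⟨z, ⟨h3, h4⟩, h5⟩ := (h2.and self_mem_nhdsWithin).exists
    exact h5 (hf2 h4 hz (sub_eq_zero.mp h3))
  obtain ⟨n, g, hg, hg0, hgn⟩ := (hφ.exists_eventuallyEq_pow_smul_nonzero_iff).mpr hnz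
  have hn0 : n ≠ 0 := by
    rintro rfl
    have := hgn.self_of_nhds
    simp at this
    exact hg0 this.symm
  have hn1 : n ≠ 1 := by
    rintro rfl
    have h1 : HasDerivAt (fun z => (z - z₀) ^ 1 • g z) (g z₀) z₀ := by
      have := ((hasDerivAt_id z₀).sub_const z₀).fun_mul hg.differentiableAt.hasDerivAt
      simpa using this
    have h2 : HasDerivAt (fun z => f z - f z₀) (g z₀) z₀ := h1.congr_of_eventuallyEq hgn
    have h3 : HasDerivAt (fun z => f z - f z₀) (deriv f z₀) z₀ :=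
      (hfa.differentiableAt.hasDerivAt).sub_const _
    exact hg0 ((h2.unique h3).trans hd)
  obtain ⟨c, hc⟩ := IsAlgClosed.exists_pow_nat_eq (g z₀) (Nat.pos_of_ne_zero hn0)
  have hc0 : c ≠ 0 := by
    rintro rfl
    rw [zero_pow hn0] at hc
    exact hg0 hc.symm
  set k : ℂ → ℂ := fun z => cexp (Complex.log (g z / g z₀) / n) with hk
  have hnC : (n : ℂ) ≠ 0 := by exact_mod_cast hn0
  have hkn : ∀ᶠ z in 𝓝 z₀, k z ^ n = g z / g z₀ := by
    have : ∀ᶠ z in 𝓝 z₀, g z ≠ 0 := hg.continuousAt.eventually_ne hg0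
    filter_upwards [this] with z hz
    rw [hk]
    simp only
    rw [← Complex.exp_nat_mul, mul_div_cancel₀ _ hnC, Complex.exp_log (div_ne_zero hz hg0)]
  have hk0 : k z₀ = 1 := by simp [hk, div_self hg0]
  have hkd : AnalyticAt ℂ k z₀ := by
    have h1 : AnalyticAt ℂ (fun z => g z / g z₀) z₀ := hg.div analyticAt_const hg0
    have h2 : AnalyticAt ℂ (fun z => Complex.log (g z / g z₀)) z₀ := by
      apply h1.clog
      rw [div_self hg0]
      exact Complex.one_mem_slitPlane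
    exact (h2.div analyticAt_const hnC).cexp
  set h : ℂ → ℂ := fun z => (z - z₀) * (c * k z) with hh
  have hha : AnalyticAt ℂ h z₀ := by
    exact (analyticAt_id.sub analyticAt_const).mul (analyticAt_const.mul hkd)
  have hhd : HasDerivAt h c z₀ := by
    have := ((hasDerivAt_id z₀).sub_const z₀).mul
      ((hasDerivAt_const z₀ c).mul hkd.differentiableAt.hasDerivAt)
    refine this.congr_deriv ?_
    simp [hk0]
  have hhs : HasStrictDerivAt h c z₀ := by
    have := hha.hasStrictDerivAt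
    rwa [hhd.deriv] at this
  have hmap : map h (𝓝 z₀) = 𝓝 (h z₀) := hhs.map_nhds_eq hc0
  have hh0 : h z₀ = 0 := by simp [hh]
  have hpow : ∀ᶠ z in 𝓝 z₀, f z - f z₀ = h z ^ n := by
    filter_upwards [hgn, hkn] with z h1 h2
    rw [h1, hh]
    simp only
    rw [mul_pow, mul_pow, h2, hc, smul_eq_mul]
    field_simp
  have hV : {z | f z - f z₀ = h z ^ n ∧ z ∈ U} ∈ 𝓝 z₀ := hpow.and hnhds
  have himg : h '' {z | f z - f z₀ = h z ^ n ∧ z ∈ U} ∈ 𝓝 (0 : ℂ) := by
    have h1 := image_mem_map (m := h) hV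
    rwa [hmap, hh0] at h1
  obtain ⟨ε, hε, hball⟩ := Metric.mem_nhds_iff.mp himg
  have hprim := Complex.isPrimitiveRoot_exp n hn0
  set ω := cexp (2 * π * I / n) with hω
  have hω1 : ω ≠ 1 := hprim.ne_one (by omega)
  have hωn : ω ^ n = 1 := hprim.pow_eq_one
  have hωnorm : ‖ω‖ = 1 := Complex.norm_eq_one_of_pow_eq_one hωn hn0
  set w : ℂ := ((ε / 2 : ℝ) : ℂ) with hw
  have hwn : ‖w‖ = ε / 2 := by
    rw [hw, Complex.norm_real, Real.norm_eq_abs, abs_of_pos (by positivity)]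
  have hw1 : w ∈ ball (0 : ℂ) ε := by rw [mem_ball_zero_iff, hwn]; linarith
  have hw2 : ω * w ∈ ball (0 : ℂ) ε := by
    rw [mem_ball_zero_iff, norm_mul, hωnorm, one_mul, hwn]; linarith
  obtain ⟨z1, ⟨h11, h12⟩, h13⟩ := hball hw1
  obtain ⟨z2, ⟨h21, h22⟩, h23⟩ := hball hw2
  have heq : f z1 = f z2 := by
    have : f z1 - f z₀ = f z2 - f z₀ := by
      rw [h11, h21, h13, h23, mul_pow, hωn, one_mul]
    exact sub_left_injective this
  have hz12 := hf2 h12 h22 heq
  rw [hz12, h23] at h13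
  have hw0 : w ≠ 0 := by
    intro h0
    rw [h0, norm_zero] at hwn
    linarith
  exact hω1 (mul_right_cancel₀ hw0 (by rw [h13, one_mul]))

end

/-- the upper half plane -/
def UH : Set ℂ := {w | 0 < w.im}

theorem isOpen_UH : IsOpen UH := isOpen_lt continuous_const Complex.continuous_im

theorem ne_conj {z w : ℂ} (hz : 0 < z.im) (hw : 0 < w.im) : z - conj w ≠ 0 := by
  intro h
  have := congrArg Complex.im h
  simp only [Complex.sub_im, Complex.conj_im, sub_neg_eq_add, Complex.zero_im] at this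
  linarith

/-- `|z - conj w|² - |z - w|² = 4 Im z Im w` -/
theorem sq_sub_sq (z w : ℂ) : ‖z - conj w‖ ^ 2 - ‖z - w‖ ^ 2 = 4 * z.im * w.im := by
  rw [← Complex.normSq_eq_norm_sq, ← Complex.normSq_eq_norm_sq, Complex.normSq_apply,
    Complex.normSq_apply]
  simp only [Complex.sub_re, Complex.sub_im, Complex.conj_re, Complex.conj_im, sub_neg_eq_add]
  ring

theorem cay_lt {z w : ℂ} (hz : 0 < z.im) (hw : 0 < w.im) : ‖(z - w) / (z - conj w)‖ < 1 := by
  rw [norm_div, div_lt_one (norm_pos_iff.2 (ne_conj hz hw))]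
  refine lt_of_pow_lt_pow_left₀ 2 (norm_nonneg _) ?_
  nlinarith [sq_sub_sq z w, mul_pos hz hw]

/-- **Schwarz-Pick** in the half plane -/
theorem pick {f : ℂ → ℂ} (hf : DifferentiableOn ℂ f UH) (hm : MapsTo f UH UH) {z w : ℂ}
    (hz : 0 < z.im) (hw : 0 < w.im) :
    ‖f z - f w‖ * ‖z - conj w‖ ≤ ‖z - w‖ * ‖f z - conj (f w)‖ := by
  have hfw : 0 < (f w).im := hm hw
  have hfz : 0 < (f z).im := hm hz
  -- inverse Cayley map
  have hC : ∀ ζ ∈ ball (0 : ℂ) 1, (w - conj w * ζ) / (1 - ζ) ∈ UH ∧ 1 - ζ ≠ 0 := by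
    intro ζ hζ
    rw [mem_ball_zero_iff] at hζ
    have h1 : 1 - ζ ≠ 0 := by
      intro h
      rw [sub_eq_zero] at h
      rw [← h, norm_one] at hζ
      exact lt_irrefl _ hζ
    refine ⟨?_, h1⟩
    have hn : 0 < Complex.normSq (1 - ζ) := Complex.normSq_pos.2 h1
    have hζ2 : Complex.normSq ζ < 1 := by
      rw [Complex.normSq_eq_norm_sq]
      have := norm_nonneg ζ
      nlinarith
    show 0 < ((w - conj w * ζ) / (1 - ζ)).im
    have e : ((w - conj w * ζ) / (1 - ζ)).im = w.im * (1 - Complex.normSq ζ) / Complex.normSq (1 - ζ) := by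
      rw [Complex.div_im, Complex.normSq_apply ζ]
      simp only [Complex.sub_re, Complex.sub_im, Complex.mul_re, Complex.mul_im, Complex.conj_re,
        Complex.conj_im, Complex.one_re, Complex.one_im]
      field_simp
      ring
    rw [e]
    exact div_pos (mul_pos hw (by linarith)) hn
  set F : ℂ → ℂ := fun ζ => (f ((w - conj w * ζ) / (1 - ζ)) - f w) /
    (f ((w - conj w * ζ) / (1 - ζ)) - conj (f w)) with hF
  have hFd : DifferentiableOn ℂ F (ball 0 1) := by
    intro ζ hζ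
    obtain ⟨h1, h2⟩ := hC ζ hζ
    have h3 : DifferentiableAt ℂ (fun ζ : ℂ => (w - conj w * ζ) / (1 - ζ)) ζ :=
      ((differentiableAt_const _).sub ((differentiableAt_const _).mul differentiableAt_id)).div
        ((differentiableAt_const _).sub differentiableAt_id) h2
    have h4 : DifferentiableAt ℂ (fun ζ : ℂ => f ((w - conj w * ζ) / (1 - ζ))) ζ :=
      DifferentiableAt.comp ζ (hf.differentiableAt (isOpen_UH.mem_nhds h1)) h3
    exact ((h4.sub (differentiableAt_const _)).div (h4.sub (differentiableAt_const _))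
      (ne_conj (hm h1) hfw)).differentiableWithinAt
  have hFm : MapsTo F (ball 0 1) (closedBall 0 1) := by
    intro ζ hζ
    rw [mem_closedBall_zero_iff]
    exact (cay_lt (hm (hC ζ hζ).1) hfw).le
  have hF0 : F 0 = 0 := by simp [hF]
  have hζ0 : ‖(z - w) / (z - conj w)‖ < 1 := cay_lt hz hw
  have key := Complex.norm_le_norm_of_mapsTo_ball hFd hFm hF0 hζ0
  have hne : z - conj w ≠ 0 := ne_conj hz hw
  have hww : w - conj w ≠ 0 := ne_conj hw hw
  have hCz : (w - conj w * ((z - w) / (z - conj w))) / (1 - (z - w) / (z - conj w)) = z := by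
    have e1 : 1 - (z - w) / (z - conj w) = (w - conj w) / (z - conj w) := by
      field_simp
      ring
    have e2 : w - conj w * ((z - w) / (z - conj w)) = z * (w - conj w) / (z - conj w) := by
      field_simp
      ring
    rw [e1, e2]
    field_simp
  rw [hF] at key
  simp only [hCz] at key
  rw [norm_div, norm_div, div_le_div_iff₀ (norm_pos_iff.2 (ne_conj hfz hfw))
    (norm_pos_iff.2 hne)] at key
  exact key

/-- two conformal maps onto the half plane: equality in Schwarz-Pick -/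
theorem pick_le {D : Set ℂ} (hD : IsOpen D) {φ g : ℂ → ℂ} (hφ : DifferentiableOn ℂ φ D)
    (hg : DifferentiableOn ℂ g D) (hφb : BijOn φ D UH) (hgm : MapsTo g D UH)
    {u v : ℂ} (hu : u ∈ D) (hv : v ∈ D) :
    ‖g u - g v‖ * ‖φ u - conj (φ v)‖ ≤ ‖φ u - φ v‖ * ‖g u - conj (g v)‖ := by
  set ψ : ℂ → ℂ := Function.invFunOn φ D with hψ
  have hleft : ∀ x ∈ D, ψ (φ x) = x := fun x hx => hφb.injOn.leftInvOn_invFunOn hx
  have hψm : MapsTo ψ UH D := by
    intro y hy
    obtain ⟨x, hx, rfl⟩ := hφb.surjOn hy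
    rw [hleft x hx]
    exact hx
  have hψd : DifferentiableOn ℂ ψ UH := by
    intro y hy
    obtain ⟨x, hx, rfl⟩ := hφb.surjOn hy
    have hs : HasStrictDerivAt φ (deriv φ x) x := (hφ.analyticAt (hD.mem_nhds hx)).hasStrictDerivAt
    have := hs.to_local_left_inverse (injOn_deriv_ne_zero hD hφ hφb.injOn hx)
      (g := ψ) (by filter_upwards [hD.mem_nhds hx] with x hx; exact hleft x hx)
    exact this.hasDerivAt.differentiableAt.differentiableWithinAt
  have h := pick (f := fun w => g (ψ w)) (hg.comp hψd hψm) (fun y hy => hgm (hψm hy))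
    (hφb.mapsTo hu) (hφb.mapsTo hv)
  simp only [hleft u hu, hleft v hv] at h
  exact h

theorem pick_eq {D : Set ℂ} (hD : IsOpen D) {φ g : ℂ → ℂ} (hφ : DifferentiableOn ℂ φ D)
    (hg : DifferentiableOn ℂ g D) (hφb : BijOn φ D UH) (hgb : BijOn g D UH)
    {u v : ℂ} (hu : u ∈ D) (hv : v ∈ D) :
    ‖g u - g v‖ * ‖φ u - conj (φ v)‖ = ‖φ u - φ v‖ * ‖g u - conj (g v)‖ :=
  le_antisymm (pick_le hD hφ hg hφb hgb.mapsTo hu hv)
    (pick_le hD hg hφ hgb hφb.mapsTo hu hv)

/-- the multiplicative form: `|φ u - conj (φ v)|² Im g u Im g v = |g u - conj (g v)|² Im φ u Im φ v` -/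
theorem im_eq {D : Set ℂ} (hD : IsOpen D) {φ g : ℂ → ℂ} (hφ : DifferentiableOn ℂ φ D)
    (hg : DifferentiableOn ℂ g D) (hφb : BijOn φ D UH) (hgb : BijOn g D UH)
    {u v : ℂ} (hu : u ∈ D) (hv : v ∈ D) :
    ‖φ u - conj (φ v)‖ ^ 2 * ((g u).im * (g v).im) =
      ‖g u - conj (g v)‖ ^ 2 * ((φ u).im * (φ v).im) := by
  have h := pick_eq hD hφ hg hφb hgb hu hv
  have h1 := sq_sub_sq (φ u) (φ v)
  have h2 := sq_sub_sq (g u) (g v)
  have h3 : (‖g u - g v‖ * ‖φ u - conj (φ v)‖) ^ 2 = (‖φ u - φ v‖ * ‖g u - conj (g v)‖) ^ 2 := by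
    rw [h]
  have h4 : ‖g u - g v‖ ^ 2 = ‖g u - conj (g v)‖ ^ 2 - 4 * (g u).im * (g v).im := by linarith
  have h5 : ‖φ u - φ v‖ ^ 2 = ‖φ u - conj (φ v)‖ ^ 2 - 4 * (φ u).im * (φ v).im := by linarith
  rw [mul_pow, mul_pow, h4, h5] at h3
  nlinarith

/-- the four point identity -/
theorem four_pt {D : Set ℂ} (hD : IsOpen D) {φ g : ℂ → ℂ} (hφ : DifferentiableOn ℂ φ D)
    (hg : DifferentiableOn ℂ g D) (hφb : BijOn φ D UH) (hgb : BijOn g D UH)
    {a b c d : ℂ} (ha : a ∈ D) (hb : b ∈ D) (hc : c ∈ D) (hd : d ∈ D) :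
    ‖φ a - conj (φ b)‖ * ‖φ c - conj (φ d)‖ * (‖g a - conj (g c)‖ * ‖g b - conj (g d)‖) =
    ‖φ a - conj (φ c)‖ * ‖φ b - conj (φ d)‖ * (‖g a - conj (g b)‖ * ‖g c - conj (g d)‖) := by
  have hab := im_eq hD hφ hg hφb hgb ha hb
  have hcd := im_eq hD hφ hg hφb hgb hc hd
  have hac := im_eq hD hφ hg hφb hgb ha hc
  have hbd := im_eq hD hφ hg hφb hgb hb hd
  have pa : 0 < (φ a).im := hφb.mapsTo ha
  have pb : 0 < (φ b).im := hφb.mapsTo hb
  have pc : 0 < (φ c).im := hφb.mapsTo hc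
  have pd : 0 < (φ d).im := hφb.mapsTo hd
  have qa : 0 < (g a).im := hgb.mapsTo ha
  have qb : 0 < (g b).im := hgb.mapsTo hb
  have qc : 0 < (g c).im := hgb.mapsTo hc
  have qd : 0 < (g d).im := hgb.mapsTo hd
  refine (pow_left_inj₀ (by positivity) (by positivity) (two_ne_zero)).1 ?_
  have hQ : 0 < (g a).im * (g b).im * ((g c).im * (g d).im) := by positivity
  have hP : 0 < (φ a).im * (φ b).im * ((φ c).im * (φ d).im) := by positivity
  -- left * Q * P = right * Q * P
  have e1 : (‖φ a - conj (φ b)‖ * ‖φ c - conj (φ d)‖ * (‖g a - conj (g c)‖ * ‖g b - conj (g d)‖)) ^ 2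
      * ((g a).im * (g b).im * ((g c).im * (g d).im)) * ((φ a).im * (φ b).im * ((φ c).im * (φ d).im))
      = (‖φ a - conj (φ c)‖ * ‖φ b - conj (φ d)‖ * (‖g a - conj (g b)‖ * ‖g c - conj (g d)‖)) ^ 2
      * ((g a).im * (g b).im * ((g c).im * (g d).im)) * ((φ a).im * (φ b).im * ((φ c).im * (φ d).im)) := by
    calc _ = (‖φ a - conj (φ b)‖ ^ 2 * ((g a).im * (g b).im)) *
          (‖φ c - conj (φ d)‖ ^ 2 * ((g c).im * (g d).im)) *
          ((‖g a - conj (g c)‖ ^ 2 * ((φ a).im * (φ c).im)) *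
          (‖g b - conj (g d)‖ ^ 2 * ((φ b).im * (φ d).im))) := by ring
      _ = (‖g a - conj (g b)‖ ^ 2 * ((φ a).im * (φ b).im)) *
          (‖g c - conj (g d)‖ ^ 2 * ((φ c).im * (φ d).im)) *
          ((‖φ a - conj (φ c)‖ ^ 2 * ((g a).im * (g c).im)) *
          (‖φ b - conj (φ d)‖ ^ 2 * ((g b).im * (g d).im))) := by
            rw [hab, hcd, ← hac, ← hbd]
      _ = _ := by ring
  have := mul_right_cancel₀ hP.ne' e1
  exact mul_right_cancel₀ hQ.ne' this

/-! ### isometries of the plane -/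

theorem iso_form (σ : ℂ ≃ᵢ ℂ) : ∃ α β : ℂ, (∀ z, σ z = α * z + β) ∨ (∀ z, σ z = α * conj z + β) := by
  obtain ⟨a, ha⟩ := linear_isometry_complex σ.toRealLinearIsometryEquiv
  have h : ∀ z, σ z = σ.toRealLinearIsometryEquiv z + σ 0 := by
    intro z
    rw [IsometryEquiv.toRealLinearIsometryEquiv_apply]
    ring
  refine ⟨a, σ 0, ?_⟩
  rcases ha with ha | ha
  · left
    intro z
    rw [h z, ha]
    simp [rotation_apply]
  · right
    intro z
    rw [h z, ha]
    simp [rotation_apply]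


/-! ### the square -/

/-- the open square -/
def os : Set ℂ := {z | |z.re| < 1 ∧ |z.im| < 1}

theorem isOpen_os : IsOpen os :=
  (isOpen_lt (continuous_abs.comp Complex.continuous_re) continuous_const).inter
    (isOpen_lt (continuous_abs.comp Complex.continuous_im) continuous_const)

theorem corner_not_mem (i : Fin 4) : corner i ∉ os := by
  fin_cases i <;> simp [corner, os]

theorem corner_ne {i : Fin 4} (hi : i ≠ 3) : corner i ≠ corner 3 := by
  fin_cases i
  · simp [corner, Complex.ext_iff]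
    norm_num
  · simp [corner, Complex.ext_iff]
    norm_num
  · simp [corner, Complex.ext_iff]
    norm_num
  · exact absurd rfl hi

/-- a sequence in the open square towards the corner -/
noncomputable def sq_seq (i : Fin 4) (n : ℕ) : ℂ := ((1 - 1 / ((n : ℝ) + 2) : ℝ) : ℂ) * corner i

theorem sq_seq_mem (i : Fin 4) (n : ℕ) : sq_seq i n ∈ os := by
  have h1 : (0 : ℝ) < 1 / ((n : ℝ) + 2) := by positivity
  have h2 : 1 / ((n : ℝ) + 2) ≤ 1 / 2 := by
    apply one_div_le_one_div_of_le (by norm_num)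
    have : (0 : ℝ) ≤ n := Nat.cast_nonneg n
    linarith
  have e : |1 - 1 / ((n : ℝ) + 2)| < 1 := by
    rw [abs_lt]
    constructor <;> linarith
  have hre : (sq_seq i n).re = (1 - 1 / ((n : ℝ) + 2)) * (corner i).re := by
    rw [sq_seq, Complex.re_ofReal_mul]
  have him : (sq_seq i n).im = (1 - 1 / ((n : ℝ) + 2)) * (corner i).im := by
    rw [sq_seq, Complex.im_ofReal_mul]
  show |(sq_seq i n).re| < 1 ∧ |(sq_seq i n).im| < 1
  rw [hre, him, abs_mul, abs_mul]
  have c1 : |(corner i).re| = 1 := by fin_cases i <;> simp [corner]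
  have c2 : |(corner i).im| = 1 := by fin_cases i <;> simp [corner]
  rw [c1, c2, mul_one]
  exact ⟨e, e⟩

theorem sq_seq_tendsto (i : Fin 4) : Tendsto (sq_seq i) atTop (𝓝 (corner i)) := by
  have h : Tendsto (fun n : ℕ => 1 - 1 / ((n : ℝ) + 2)) atTop (𝓝 (1 - 0)) := by
    refine Tendsto.const_sub 1 ?_
    have h1 : Tendsto (fun n : ℕ => (n : ℝ) + 2) atTop atTop :=
      tendsto_atTop_add_const_right _ _ tendsto_natCast_atTop_atTop
    have h2 := h1.inv_tendsto_atTop
    refine h2.congr fun n => ?_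
    simp
  have h2 : Tendsto (fun n : ℕ => (((1 - 1 / ((n : ℝ) + 2) : ℝ)) : ℂ)) atTop (𝓝 (((1 - 0 : ℝ)) : ℂ)) :=
    (Complex.continuous_ofReal.tendsto _).comp h
  have h3 : Tendsto (fun n : ℕ => (((1 - 1 / ((n : ℝ) + 2) : ℝ)) : ℂ) * corner i) atTop
      (𝓝 ((((1 - 0 : ℝ)) : ℂ) * corner i)) := h2.mul_const (corner i)
  rw [sub_zero, Complex.ofReal_one, one_mul] at h3
  exact h3

/-- the common corner of two sides -/
def mm : Fin 4 → Fin 4 → Fin 4 := fun j k =>
  match j, k with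
  | 0, 1 => 1
  | 1, 0 => 1
  | 1, 2 => 2
  | 2, 1 => 2
  | 2, 3 => 3
  | 3, 2 => 3
  | _, _ => 0

theorem side_inter {j k : Fin 4} (h : j.val % 2 ≠ k.val % 2) {z : ℂ} (hj : z ∈ side j)
    (hk : z ∈ side k) : z = corner (mm j k) := by
  fin_cases j <;> fin_cases k <;> simp_all [side, corner, mm, Complex.ext_iff]

theorem corner_mem_left (i : Fin 4) : corner i ∈ side i := by
  fin_cases i <;> simp [side, corner]

theorem corner_mem_right (i : Fin 4) : corner (i + 1) ∈ side i := by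
  fin_cases i
  · show corner 1 ∈ side 0
    simp [side, corner]
  · show corner 2 ∈ side 1
    simp [side, corner]
  · show corner 3 ∈ side 2
    simp [side, corner]
  · show corner 0 ∈ side 3
    simp [side, corner]

theorem combi : ∀ a b c d : Fin 4, a.val % 2 ≠ 0 → b.val % 2 ≠ 1 → c.val % 2 ≠ 0 → d.val % 2 ≠ 1 →
    a ≠ c → b ≠ d →
    (mm d a, mm a b, mm b c, mm c d) = (2, 1, 0, 3) ∨ (mm d a, mm a b, mm b c, mm c d) = (1, 2, 3, 0) ∨
    (mm d a, mm a b, mm b c, mm c d) = (3, 0, 1, 2) ∨ (mm d a, mm a b, mm b c, mm c d) = (0, 3, 2, 1) := by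
  decide


/-! ### the quad -/

/-- homogeneous coordinates of the four boundary values -/
noncomputable def pc (x : ℝ) : Fin 4 → ℝ := ![0, x, 1, 1]
noncomputable def qc : Fin 4 → ℝ := ![1, 1, 1, 0]

theorem isOpen_D (Q : Quad) : IsOpen Q.D := Q.H.isOpenMap _ isOpen_os

theorem mark_not_mem (Q : Quad) (i : Fin 4) : Q.mark i ∉ Q.D := by
  rintro ⟨z, hz, h⟩
  exact corner_not_mem i (Q.H.injective h ▸ hz)

/-- a sequence in `D` towards the mark -/
noncomputable def useq (Q : Quad) (i : Fin 4) (n : ℕ) : ℂ := Q.H (sq_seq i n)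

theorem useq_mem (Q : Quad) (i : Fin 4) (n : ℕ) : useq Q i n ∈ Q.D := ⟨_, sq_seq_mem i n, rfl⟩

theorem useq_tendsto (Q : Quad) (i : Fin 4) : Tendsto (useq Q i) atTop (𝓝 (Q.mark i)) :=
  (Q.H.continuous.tendsto _).comp (sq_seq_tendsto i)

theorem mark_mem_closure (Q : Quad) (i : Fin 4) : Q.mark i ∈ closure Q.D :=
  mem_closure_of_tendsto (useq_tendsto Q i) (Eventually.of_forall fun n => useq_mem Q i n)

theorem norm_seq {Q : Quad} {φ : ℂ → ℂ} {x : ℝ} (h : Q.IsUniformizer φ x) (i : Fin 4) (u : ℕ → ℂ)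
    (hu : ∀ n, u n ∈ Q.D) (ht : Tendsto u atTop (𝓝 (Q.mark i))) :
    ∃ s : ℕ → ℂ, (∀ n, s n ≠ 0) ∧ Tendsto (fun n => φ (u n) / s n) atTop (𝓝 ((pc x i : ℝ) : ℂ)) ∧
      Tendsto (fun n => (s n)⁻¹) atTop (𝓝 ((qc i : ℝ) : ℂ)) := by
  by_cases hi : i = 3
  · subst hi
    have h1 : Tendsto (fun n => ‖φ (u n)‖) atTop atTop :=
      h.at_d.comp (tendsto_nhdsWithin_iff.2 ⟨ht, Eventually.of_forall hu⟩)
    have h0 : ∀ n, φ (u n) ≠ 0 := by
      intro n hn
      have : 0 < (φ (u n)).im := h.bij.mapsTo (hu n)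
      rw [hn] at this
      exact lt_irrefl _ this
    refine ⟨fun n => φ (u n), h0, ?_, ?_⟩
    · have : (fun n => φ (u n) / φ (u n)) = fun _ => (1 : ℂ) := by
        funext n
        exact div_self (h0 n)
      rw [this]
      simp [pc]
    · have h2 : Tendsto (fun n => ‖(φ (u n))⁻¹‖) atTop (𝓝 0) := by
        simp only [norm_inv]
        exact h1.inv_tendsto_atTop
      have h3 := tendsto_zero_iff_norm_tendsto_zero.2 h2
      simpa [qc] using h3
  · have hne : Q.mark i ≠ Q.mark 3 := fun he => corner_ne hi (Q.H.injective he)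
    have h1 : Tendsto (fun n => φ (u n)) atTop (𝓝 (φ (Q.mark i))) := by
      have hc := h.cont (Q.mark i) ⟨mark_mem_closure Q i, hne⟩
      refine hc.tendsto.comp (tendsto_nhdsWithin_iff.2 ⟨ht, Eventually.of_forall fun n => ?_⟩)
      refine ⟨subset_closure (hu n), ?_⟩
      intro he
      exact mark_not_mem Q 3 ((mem_singleton_iff.1 he) ▸ hu n)
    refine ⟨fun _ => 1, fun _ => one_ne_zero, ?_, ?_⟩
    · simp only [div_one]
      have hv : φ (Q.mark i) = ((pc x i : ℝ) : ℂ) := by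
        fin_cases i
        · simpa [pc] using h.at_a
        · simpa [pc] using h.at_b
        · simpa [pc] using h.at_c
        · exact absurd rfl hi
      rw [← hv]
      exact h1
    · have hv : ((qc i : ℝ) : ℂ) = 1 := by
        fin_cases i
        · simp [qc]
        · simp [qc]
        · simp [qc]
        · exact absurd rfl hi
      rw [hv]
      simp

theorem pair_lim {w w' s s' : ℕ → ℂ} {p q p' q' : ℝ} (hs : ∀ n, s n ≠ 0) (hs' : ∀ n, s' n ≠ 0)
    (h1 : Tendsto (fun n => w n / s n) atTop (𝓝 (p : ℂ)))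
    (h2 : Tendsto (fun n => (s n)⁻¹) atTop (𝓝 (q : ℂ)))
    (h1' : Tendsto (fun n => w' n / s' n) atTop (𝓝 (p' : ℂ)))
    (h2' : Tendsto (fun n => (s' n)⁻¹) atTop (𝓝 (q' : ℂ))) :
    Tendsto (fun n => ‖w n - conj (w' n)‖ / (‖s n‖ * ‖s' n‖)) atTop (𝓝 |p * q' - q * p'|) := by
  have hc : ∀ {a : ℕ → ℂ} {r : ℝ}, Tendsto a atTop (𝓝 (r : ℂ)) →
      Tendsto (fun n => conj (a n)) atTop (𝓝 (r : ℂ)) := by
    intro a r ha
    have := (Complex.continuous_conj.tendsto _).comp ha
    rw [Complex.conj_ofReal] at this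
    exact this
  have h3 := ((h1.mul (hc h2')).sub (h2.mul (hc h1'))).norm
  have e : ((p : ℂ) * (q' : ℂ) - (q : ℂ) * (p' : ℂ)) = ((p * q' - q * p' : ℝ) : ℂ) := by
    push_cast
    ring
  rw [e, Complex.norm_real, Real.norm_eq_abs] at h3
  refine h3.congr fun n => ?_
  have a1 := hs n
  have a2 := hs' n
  have a3 : conj (s' n) ≠ 0 := by simpa using a2
  have : w n / s n * conj (s' n)⁻¹ - (s n)⁻¹ * conj (w' n / s' n) =
      (w n - conj (w' n)) / (s n * conj (s' n)) := by
    rw [map_inv₀, map_div₀]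
    field_simp
  rw [this, norm_div, norm_mul, Complex.norm_conj]

end Half

open Half

theorem half : HalfStmt := by
  intro Q φ x hφ hself
  obtain ⟨σ, hσD, p, hp, hpar⟩ := hself
  have hDo := isOpen_D Q
  have hσm : ∀ z ∈ Q.D, σ z ∈ Q.D := fun z hz => hσD ▸ mem_image_of_mem _ hz
  have hσb : BijOn σ Q.D Q.D := ⟨hσm, σ.injective.injOn, hσD.ge⟩
  -- the four point identity
  have four : ∀ a ∈ Q.D, ∀ b ∈ Q.D, ∀ c ∈ Q.D, ∀ d ∈ Q.D,
      ‖φ a - conj (φ b)‖ * ‖φ c - conj (φ d)‖ *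
        (‖φ (σ a) - conj (φ (σ c))‖ * ‖φ (σ b) - conj (φ (σ d))‖) =
      ‖φ a - conj (φ c)‖ * ‖φ b - conj (φ d)‖ *
        (‖φ (σ a) - conj (φ (σ b))‖ * ‖φ (σ c) - conj (φ (σ d))‖) := by
    intro a ha b hb c hc d hd
    obtain ⟨α, β, hform⟩ := iso_form σ
    rcases hform with hform | hform
    · have hσd : Differentiable ℂ σ := by
        have : (σ : ℂ → ℂ) = fun z => α * z + β := funext hform
        rw [this]
        exact ((differentiable_const _).mul differentiable_id).add (differentiable_const _)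
      exact four_pt hDo hφ.hol (hφ.hol.comp hσd.differentiableOn hσm) hφ.bij
        (hφ.bij.comp hσb) ha hb hc hd
    · have hg : DifferentiableOn ℂ (fun z => -conj (φ (σ z))) Q.D := by
        intro z hz
        have h1 : DifferentiableAt ℂ (fun y => φ (α * y + β)) (conj z) := by
          have h2 : DifferentiableAt ℂ φ (α * conj z + β) := by
            rw [← hform z]
            exact hφ.hol.differentiableAt (hDo.mem_nhds (hσm z hz))
          exact DifferentiableAt.comp (conj z) h2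
            (((differentiableAt_const _).mul differentiableAt_id).add (differentiableAt_const _))
        have h3 := h1.conj_conj
        rw [Complex.conj_conj] at h3
        have h4 : (fun z => -conj (φ (σ z))) = fun z => -(conj ∘ (fun y => φ (α * y + β)) ∘ conj) z := by
          funext y
          simp [hform y]
        rw [h4]
        exact h3.neg.differentiableWithinAt
      have hgb : BijOn (fun z => -conj (φ (σ z))) Q.D UH := by
        have h1 : BijOn (fun w : ℂ => -conj w) UH UH := by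
          have hc : ∀ w : ℂ, 0 < w.im → 0 < (-conj w).im := by
            intro w hw
            simpa using hw
          refine ⟨fun w hw => hc w hw, fun w _ w' _ h => ?_, fun w hw => ⟨-conj w, hc w hw, ?_⟩⟩
          · have h2 : conj w = conj w' := neg_injective h
            exact (starRingEnd ℂ).injective h2
          · simp
        exact h1.comp (hφ.bij.comp hσb)
      have h := four_pt hDo hφ.hol hg hφ.bij hgb ha hb hc hd
      have hn : ∀ y z : ℂ, ‖-conj y - conj (-conj z)‖ = ‖y - conj z‖ := by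
        intro y z
        have e : -conj y - conj (-conj z) = -(conj (y - conj z)) := by
          rw [map_neg, map_sub, Complex.conj_conj]
          ring
        rw [e, norm_neg, Complex.norm_conj]
      simp only [hn] at h
      exact h
  -- permutation of the marks
  have hmark : ∀ i : Fin 4, σ (Q.mark (i + 1)) = Q.mark (mm (p i) (p (i + 1))) := by
    intro i
    have h1 : σ (Q.mark (i + 1)) ∈ Q.arc (p i) := by
      rw [← hp i]
      exact mem_image_of_mem _ (mem_image_of_mem _ (corner_mem_right i))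
    have h2 : σ (Q.mark (i + 1)) ∈ Q.arc (p (i + 1)) := by
      rw [← hp (i + 1)]
      exact mem_image_of_mem _ (mem_image_of_mem _ (corner_mem_left (i + 1)))
    obtain ⟨z, hz, hz'⟩ := h1
    obtain ⟨y, hy, hy'⟩ := h2
    have hyz : y = z := Q.H.injective (hy'.trans hz'.symm)
    rw [hyz] at hy
    have hpar' : (p i).val % 2 ≠ (p (i + 1)).val % 2 := by
      have a1 := hpar i
      have a2 := hpar (i + 1)
      have a3 : (i + 1).val % 2 ≠ i.val % 2 := by
        fin_cases i <;> decide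
      omega
    rw [← hz', side_inter hpar' hz hy]
    rfl
  -- limits
  have lim : ∀ ρ : Fin 4 → Fin 4, (∀ i, σ (Q.mark i) = Q.mark (ρ i)) →
      |pc x 0 * qc 1 - qc 0 * pc x 1| * |pc x 2 * qc 3 - qc 2 * pc x 3| *
        (|pc x (ρ 0) * qc (ρ 2) - qc (ρ 0) * pc x (ρ 2)| *
          |pc x (ρ 1) * qc (ρ 3) - qc (ρ 1) * pc x (ρ 3)|) =
      |pc x 0 * qc 2 - qc 0 * pc x 2| * |pc x 1 * qc 3 - qc 1 * pc x 3| *
        (|pc x (ρ 0) * qc (ρ 1) - qc (ρ 0) * pc x (ρ 1)| *
          |pc x (ρ 2) * qc (ρ 3) - qc (ρ 2) * pc x (ρ 3)|) := by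
    intro ρ hρ
    have hu := useq_mem Q
    have ht := useq_tendsto Q
    have hu' : ∀ i n, σ (useq Q i n) ∈ Q.D := fun i n => hσm _ (hu i n)
    have ht' : ∀ i, Tendsto (fun n => σ (useq Q i n)) atTop (𝓝 (Q.mark (ρ i))) := by
      intro i
      rw [← hρ i]
      exact (σ.continuous.tendsto _).comp (ht i)
    choose s hs hs1 hs2 using fun i => norm_seq hφ i (useq Q i) (hu i) (ht i)
    choose r hr hr1 hr2 using fun i => norm_seq hφ (ρ i) (fun n => σ (useq Q i n)) (hu' i) (ht' i)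
    have L1 := (((pair_lim (hs 0) (hs 1) (hs1 0) (hs2 0) (hs1 1) (hs2 1)).mul
      (pair_lim (hs 2) (hs 3) (hs1 2) (hs2 2) (hs1 3) (hs2 3))).mul
      ((pair_lim (hr 0) (hr 2) (hr1 0) (hr2 0) (hr1 2) (hr2 2)).mul
      (pair_lim (hr 1) (hr 3) (hr1 1) (hr2 1) (hr1 3) (hr2 3))))
    have L2 := (((pair_lim (hs 0) (hs 2) (hs1 0) (hs2 0) (hs1 2) (hs2 2)).mul
      (pair_lim (hs 1) (hs 3) (hs1 1) (hs2 1) (hs1 3) (hs2 3))).mul
      ((pair_lim (hr 0) (hr 1) (hr1 0) (hr2 0) (hr1 1) (hr2 1)).mul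
      (pair_lim (hr 2) (hr 3) (hr1 2) (hr2 2) (hr1 3) (hr2 3))))
    refine tendsto_nhds_unique (L1.congr fun n => ?_) L2
    have h4 := four _ (hu 0 n) _ (hu 1 n) _ (hu 2 n) _ (hu 3 n)
    have g1 : ∀ i, ‖s i n‖ ≠ 0 := fun i => norm_ne_zero_iff.2 (hs i n)
    have g2 : ∀ i, ‖r i n‖ ≠ 0 := fun i => norm_ne_zero_iff.2 (hr i n)
    have g10 := g1 0
    have g11 := g1 1
    have g12 := g1 2
    have g13 := g1 3
    have g20 := g2 0
    have g21 := g2 1
    have g22 := g2 2
    have g23 := g2 3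
    calc _ = (‖φ (useq Q 0 n) - conj (φ (useq Q 1 n))‖ * ‖φ (useq Q 2 n) - conj (φ (useq Q 3 n))‖ *
        (‖φ (σ (useq Q 0 n)) - conj (φ (σ (useq Q 2 n)))‖ *
          ‖φ (σ (useq Q 1 n)) - conj (φ (σ (useq Q 3 n)))‖)) /
          (‖s 0 n‖ * ‖s 1 n‖ * ‖s 2 n‖ * ‖s 3 n‖ * (‖r 0 n‖ * ‖r 1 n‖ * ‖r 2 n‖ * ‖r 3 n‖)) := by
          field_simp
      _ = _ := by
          rw [h4]
          field_simp
  have h0 : (p 0).val % 2 ≠ 0 := hpar 0
  have h1 : (p 1).val % 2 ≠ 1 := hpar 1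
  have h2 : (p 2).val % 2 ≠ 0 := hpar 2
  have h3 : (p 3).val % 2 ≠ 1 := hpar 3
  have h02 : p 0 ≠ p 2 := fun h => by simpa using p.injective h
  have h13 : p 1 ≠ p 3 := fun h => by simpa using p.injective h
  have key := combi (p 0) (p 1) (p 2) (p 3) h0 h1 h2 h3 h02 h13
  have m0 : σ (Q.mark 0) = Q.mark (mm (p 3) (p 0)) := hmark 3
  have m1 : σ (Q.mark 1) = Q.mark (mm (p 0) (p 1)) := hmark 0
  have m2 : σ (Q.mark 2) = Q.mark (mm (p 1) (p 2)) := hmark 1
  have m3 : σ (Q.mark 3) = Q.mark (mm (p 2) (p 3)) := hmark 2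
  have fin : |x| = |1 - x| → x = 1 / 2 := by
    intro h
    rcases abs_eq_abs.1 h with h | h
    · linarith
    · linarith
  apply fin
  rcases key with key | key | key | key
  all_goals
    simp only [Prod.mk.injEq] at key
    obtain ⟨k0, k1, k2, k3⟩ := key
    rw [k0] at m0
    rw [k1] at m1
    rw [k2] at m2
    rw [k3] at m3
  · have := lim ![2, 1, 0, 3] (fun i => by fin_cases i <;> [exact m0; exact m1; exact m2; exact m3])
    simp [pc, qc] at this
    rw [this]
    try rw [abs_sub_comm]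
  · have := lim ![1, 2, 3, 0] (fun i => by fin_cases i <;> [exact m0; exact m1; exact m2; exact m3])
    simp [pc, qc] at this
    rw [this]
    try rw [abs_sub_comm]
  · have := lim ![3, 0, 1, 2] (fun i => by fin_cases i <;> [exact m0; exact m1; exact m2; exact m3])
    simp [pc, qc] at this
    rw [this]
    try rw [abs_sub_comm]
  · have := lim ![0, 3, 2, 1] (fun i => by fin_cases i <;> [exact m0; exact m1; exact m2; exact m3])
    simp [pc, qc] at this
    rw [this]
    try rw [abs_sub_comm]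

end P148
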