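import Vale.Agent.P148.Props

/-!
# P148, row P1: invariance of the law of the coloured process
-/

open MeasureTheory Set Metric Topology Filter ProbabilityTheory
open scoped ENNReal NNReal

namespace P148

/-- A Euclidean isometry of the plane preserves the Lebesgue measure. -/
theorem measurePreserving_isometry (σ : ℂ ≃ᵢ ℂ) : MeasurePreserving σ volume volume := by
  have h1 : (σ : ℂ → ℂ) = (fun z => z + σ 0) ∘ (σ.toRealLinearIsometryEquiv : ℂ → ℂ) := by
    funext z
    simp [IsometryEquiv.toRealLinearIsometryEquiv_apply]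
  rw [h1]
  exact (measurePreserving_add_right volume (σ 0)).comp
    σ.toRealLinearIsometryEquiv.measurePreserving

instance : IsFiniteMeasure fair := by
  refine ⟨?_⟩
  rw [fair, Measure.smul_apply, Measure.count_apply_finite univ finite_univ, smul_eq_mul]
  exact ENNReal.mul_lt_top (by simp) (by simp)

theorem measurePreserving_perm (τ : Equiv.Perm Bool) : MeasurePreserving τ fair fair := by
  refine ⟨measurable_of_countable _, ?_⟩
  ext s _
  rw [Measure.map_apply (measurable_of_countable _) (MeasurableSet.of_discrete)]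
  simp only [fair, Measure.smul_apply, Measure.count_apply MeasurableSet.of_discrete]
  congr 2
  rw [← Equiv.image_symm_eq_preimage]
  exact τ.symm.injective.encard_image s

theorem measurePreserving_inten (lam : ℝ≥0) (σ : ℂ ≃ᵢ ℂ) (τ : Equiv.Perm Bool) :
    MeasurePreserving (Prod.map σ τ) (inten lam) (inten lam) := by
  unfold inten
  refine ⟨σ.continuous.measurable.prodMap (measurable_of_countable _), ?_⟩
  rw [Measure.map_smul, ((measurePreserving_isometry σ).prod (measurePreserving_perm τ)).map_eq]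

theorem bdd_preimage (σ : ℂ ≃ᵢ ℂ) (τ : Equiv.Perm Bool) {A : Set Pt} (hA : Bdd A) :
    Bdd (Prod.map σ τ ⁻¹' A) := by
  obtain ⟨r, hr⟩ := hA
  refine ⟨r + dist (σ 0) 0, fun z hz => ?_⟩
  have h1 := (hr hz).1
  rw [Prod.map_fst, mem_ball] at h1
  refine ⟨?_, mem_univ _⟩
  rw [mem_ball]
  calc dist z.1 0 = dist (σ z.1) (σ 0) := (σ.isometry.dist_eq _ _).symm
    _ ≤ dist (σ z.1) 0 + dist 0 (σ 0) := dist_triangle _ _ _
    _ < r + dist (σ 0) 0 := by rw [dist_comm 0 (σ 0)]; linarith

theorem bdd_union {A B : Set Pt} (hA : Bdd A) (hB : Bdd B) : Bdd (A ∪ B) := by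
  obtain ⟨r, hr⟩ := hA
  obtain ⟨s, hs⟩ := hB
  refine ⟨max r s, union_subset (hr.trans ?_) (hs.trans ?_)⟩
  · exact prod_mono (ball_subset_ball (le_max_left _ _)) subset_rfl
  · exact prod_mono (ball_subset_ball (le_max_right _ _)) subset_rfl

variable {Ω : Type*} [MeasurableSpace Ω] {P : Measure Ω} {S : Ω → Set Pt} {lam : ℝ≥0}

theorem IsColouredPoisson.finite_inter (h : IsColouredPoisson P S lam) (ω : Ω) {A : Set Pt}
    (hA : Bdd A) : (S ω ∩ A).Finite := by
  obtain ⟨r, hr⟩ := hA
  exact (h.locFin ω r).subset (inter_subset_inter_right _ hr)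

theorem IsColouredPoisson.void_eq (h : IsColouredPoisson P S lam) {A : Set Pt}
    (hA : Bdd A) : {ω | S ω ∩ A = ∅} = (fun ω => (S ω ∩ A).ncard) ⁻¹' {0} := by
  ext ω
  simp only [mem_ofPred_eq, mem_preimage, mem_singleton_iff]
  rw [Set.ncard_eq_zero (h.finite_inter ω hA)]

theorem IsColouredPoisson.measurableSet_void (h : IsColouredPoisson P S lam) {A : Set Pt}
    (hm : MeasurableSet A) (hA : Bdd A) : MeasurableSet {ω | S ω ∩ A = ∅} := by
  rw [h.void_eq hA]
  exact h.meas A hm hA (MeasurableSet.of_discrete)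

theorem IsColouredPoisson.void_prob (h : IsColouredPoisson P S lam) {A : Set Pt}
    (hm : MeasurableSet A) (hA : Bdd A) :
    P {ω | S ω ∩ A = ∅} = poissonMeasure (inten lam A).toNNReal {0} := by
  rw [h.void_eq hA, ← h.law A hm hA,
    Measure.map_apply (h.meas A hm hA) (MeasurableSet.of_discrete)]

/-- The process is measurable with respect to the sigma-algebra of void events. -/
theorem IsColouredPoisson.measurable_self (h : IsColouredPoisson P S lam) :
    @Measurable _ _ _ voidSigma S := by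
  refine measurable_generateFrom ?_
  rintro _ ⟨A, hm, hA, rfl⟩
  exact h.measurableSet_void hm hA

theorem image_inter_eq_empty (g : Pt → Pt) (S A : Set Pt) :
    g '' S ∩ A = ∅ ↔ S ∩ g ⁻¹' A = ∅ := by
  rw [← Set.not_nonempty_iff_eq_empty, ← Set.not_nonempty_iff_eq_empty, Set.image_inter_nonempty_iff]

theorem IsColouredPoisson.measurable_map (h : IsColouredPoisson P S lam) (σ : ℂ ≃ᵢ ℂ)
    (τ : Equiv.Perm Bool) :
    @Measurable _ _ _ voidSigma fun ω => Prod.map σ τ '' S ω := by
  refine measurable_generateFrom ?_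
  rintro _ ⟨A, hm, hA, rfl⟩
  have h1 : (fun ω => Prod.map σ τ '' S ω) ⁻¹' {S : Set Pt | S ∩ A = ∅} =
      {ω | S ω ∩ (Prod.map σ τ ⁻¹' A) = ∅} := by
    ext ω
    exact image_inter_eq_empty _ _ _
  rw [h1]
  exact h.measurableSet_void
    ((σ.continuous.measurable.prodMap (measurable_of_countable _)) hm) (bdd_preimage σ τ hA)

/-- P1. -/
theorem inv : InvStmt := by
  intro Ω _ P _ S lam h σ τ E hE
  have m1 := h.measurable_self
  have m2 := h.measurable_map σ τ
  refine ⟨m1 hE, m2 hE, ?_⟩
  have key : @Measure.map _ _ _ voidSigma (fun ω => Prod.map σ τ '' S ω) P =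
      @Measure.map _ _ _ voidSigma S P := by
    refine @ext_of_generate_finite _ voidSigma _ _ {E | ∃ A : Set Pt, MeasurableSet A ∧ Bdd A ∧
      E = {S : Set Pt | S ∩ A = ∅}} rfl ?_ ?_ ?_ ?_
    · rintro _ ⟨A, hm, hA, rfl⟩ _ ⟨B, hm', hB, rfl⟩ -
      refine ⟨A ∪ B, hm.union hm', bdd_union hA hB, ?_⟩
      ext T
      simp only [mem_inter_iff, mem_ofPred_eq, Set.inter_union_distrib_left, Set.union_empty_iff]
    · exact @Measure.isFiniteMeasure_map _ _ voidSigma _ P _ _
    · rintro _ ⟨A, hm, hA, rfl⟩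
      have hE' : MeasurableSet[voidSigma] {S : Set Pt | S ∩ A = ∅} :=
        MeasurableSpace.measurableSet_generateFrom ⟨A, hm, hA, rfl⟩
      rw [@Measure.map_apply _ _ _ voidSigma _ _ m2 _ hE',
        @Measure.map_apply _ _ _ voidSigma _ _ m1 _ hE']
      have h1 : (fun ω => Prod.map σ τ '' S ω) ⁻¹' {S : Set Pt | S ∩ A = ∅} =
          {ω | S ω ∩ (Prod.map σ τ ⁻¹' A) = ∅} := by
        ext ω
        exact image_inter_eq_empty _ _ _
      have h2 : S ⁻¹' {S : Set Pt | S ∩ A = ∅} = {ω | S ω ∩ A = ∅} := rfl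
      rw [h1, h2, h.void_prob hm hA, h.void_prob
        ((σ.continuous.measurable.prodMap (measurable_of_countable _)) hm) (bdd_preimage σ τ hA),
        (measurePreserving_inten lam σ τ).measure_preimage hm.nullMeasurableSet]
    · rw [@Measure.map_apply _ _ _ voidSigma _ _ m2 _ (@MeasurableSet.univ _ voidSigma),
        @Measure.map_apply _ _ _ voidSigma _ _ m1 _ (@MeasurableSet.univ _ voidSigma)]
      rfl
  have := DFunLike.congr_fun key E
  rw [@Measure.map_apply _ _ _ voidSigma _ _ m2 _ hE,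
        @Measure.map_apply _ _ _ voidSigma _ _ m1 _ hE] at this
  exact this

end P148
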