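import Vale.Agent.P148.NotBothA
import Vale.Agent.P198.Hex.Miranda

/-!
# P148, row T3b: no simultaneous crossings of the two signs
-/

open Set Metric Topology unitInterval

namespace P148

/-- One arm: a connected set in `closure U` crossing the square in direction `e` is replaced by a
path in `U` prolonged by straight rays. -/
theorem arm {U K : Set ℂ} (hU : IsOpen U) (hK : IsConnected K) {u w : ℂ → ℝ} {e : ℂ}
    (hu : ∀ z (t : ℝ), u (z + t * e) = u z + t) (hw : ∀ z (t : ℝ), w (z + t * e) = w z)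
    (hud : ∀ z z', |u z - u z'| ≤ dist z z') (hwd : ∀ z z', |w z - w z'| ≤ dist z z')
    (he : ‖e‖ = 1)
    (hT : ∀ p ∈ K, p ∉ U → ∀ δ > 0, ∃ N : Set ℂ, IsOpen N ∧ p ∈ N ∧ N ⊆ ball p δ ∧
      IsPreconnected (N ∩ U) ∧ p ∈ closure U)
    (hsq : ∀ p ∈ K, |u p| ≤ 1 ∧ |w p| ≤ 1)
    {p₀ p₁ : ℂ} (h0 : p₀ ∈ K) (h1 : p₁ ∈ K) (u0 : u p₀ = -1) (u1 : u p₁ = 1)
    (hb : ∀ p ∈ K, p ∉ U → |u p| = 1 → |w p| < 1 ∧ ∀ δ > 0, ∃ q, u q = u p ∧ |w q| ≤ 1 ∧
      dist q p < δ ∧ q ∈ U) :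
    ∃ δ₁ > 0, ∀ δ, 0 < δ → δ ≤ δ₁ → δ ≤ 1 → ∃ γ : C(I, ℂ), u (γ 0) = -3 ∧ u (γ 1) = 3 ∧
      ∀ s, |w (γ s)| ≤ 3 ∧ ((γ s ∈ U ∧ |w (γ s)| < 1 + δ) ∨
        (|w (γ s)| ≤ 1 ∧ 1 ≤ |u (γ s)| ∧ (|u (γ s)| < 1 + δ → γ s ∈ U))) := by
  classical
  -- the end points
  have hend : ∀ p ∈ K, |u p| = 1 → ∃ q : ℂ, ∃ M : Set ℂ, q ∈ U ∧ u q = u p ∧ |w q| ≤ 1 ∧
      (p ∈ U → q = p) ∧ (p ∉ U → q ∈ M ∧ IsOpen M ∧ p ∈ M ∧ IsPreconnected (M ∩ U) ∧
        p ∈ closure U ∧ ∀ y ∈ M, |w y| < 1 ∧ |u y| < 2) := by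
    intro p hp hup
    by_cases hpU : p ∈ U
    · exact ⟨p, univ, hpU, rfl, (hsq p hp).2, fun _ => rfl, fun h => absurd hpU h⟩
    · obtain ⟨hw1, hq⟩ := hb p hp hpU hup
      obtain ⟨M, hM, hpM, hMb, hMc, hcl⟩ := hT p hp hpU (1 - |w p|) (by linarith)
      obtain ⟨η, hη, hηM⟩ := Metric.isOpen_iff.1 hM p hpM
      obtain ⟨q, hq1, hq2, hq3, hq4⟩ := hq η hη
      refine ⟨q, M, hq4, hq1, hq2, fun h => absurd h hpU, fun _ => ⟨hηM hq3, hM, hpM, hMc, hcl, ?_⟩⟩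
      intro y hy
      have hy1 : dist y p < 1 - |w p| := hMb hy
      have h2 := hwd y p
      have h3 := hud y p
      have h4 : |w y| ≤ |w y - w p| + |w p| := by
        have := abs_add_le (w y - w p) (w p)
        simpa using this
      have h5 : |u y| ≤ |u y - u p| + |u p| := by
        have := abs_add_le (u y - u p) (u p)
        simpa using this
      have h6 := abs_nonneg (w p)
      constructor <;> linarith
  obtain ⟨q₀, M₀, hq0U, hq0u, hq0w, hq0a, hq0b⟩ := hend p₀ h0 (by rw [u0]; norm_num)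
  obtain ⟨q₁, M₁, hq1U, hq1u, hq1w, hq1a, hq1b⟩ := hend p₁ h1 (by rw [u1]; norm_num)
  obtain ⟨a₀, ha0, hb0⟩ := Metric.isOpen_iff.1 hU q₀ hq0U
  obtain ⟨a₁, ha1, hb1⟩ := Metric.isOpen_iff.1 hU q₁ hq1U
  refine ⟨min a₀ a₁, lt_min ha0 ha1, fun δ hδ hδa hδ1 => ?_⟩
  have hne : p₀ ≠ p₁ := by
    rintro rfl
    linarith
  -- the neighbourhoods
  have hNex : ∀ p ∈ K, ∃ N : Set ℂ, IsOpen N ∧ p ∈ N ∧ IsPreconnected (N ∩ U) ∧ p ∈ closure U ∧
      (∀ y ∈ N ∩ U, |w y| < 1 + δ ∧ |w y| ≤ 3) ∧ (p = p₀ → q₀ ∈ N) ∧ (p = p₁ → q₁ ∈ N) := by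
    intro p hp
    by_cases hpU : p ∈ U
    · obtain ⟨r, hr, hrU⟩ := Metric.isOpen_iff.1 hU p hpU
      refine ⟨ball p (min r δ), isOpen_ball, mem_ball_self (lt_min hr hδ), ?_, subset_closure hpU,
        ?_, ?_, ?_⟩
      · rw [inter_eq_left.2 ((ball_subset_ball (min_le_left _ _)).trans hrU)]
        exact (convex_ball _ _).isPreconnected
      · rintro y ⟨hy, -⟩
        have h1 : dist y p < δ := lt_of_lt_of_le hy (min_le_right _ _)
        have h2 := hwd y p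
        have h3 := (hsq p hp).2
        have h4 : |w y| ≤ |w y - w p| + |w p| := by
          have := abs_add_le (w y - w p) (w p)
          simpa using this
        constructor <;> linarith
      · rintro rfl
        rw [hq0a hpU]
        exact mem_ball_self (lt_min hr hδ)
      · rintro rfl
        rw [hq1a hpU]
        exact mem_ball_self (lt_min hr hδ)
    · by_cases hp0 : p = p₀
      · subst hp0
        obtain ⟨h2, h3, h4, h5, h6, h7⟩ := hq0b hpU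
        refine ⟨M₀, h3, h4, h5, h6, ?_, fun _ => h2, fun h => absurd h hne⟩
        rintro y ⟨hy, -⟩
        have := (h7 y hy).1
        constructor <;> linarith
      · by_cases hp1 : p = p₁
        · subst hp1
          obtain ⟨h2, h3, h4, h5, h6, h7⟩ := hq1b hpU
          refine ⟨M₁, h3, h4, h5, h6, ?_, fun h => absurd h hp0, fun _ => h2⟩
          rintro y ⟨hy, -⟩
          have := (h7 y hy).1
          constructor <;> linarith
        · obtain ⟨N, hN, hpN, hNb, hNc, hcl⟩ := hT p hp hpU δ hδ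
          refine ⟨N, hN, hpN, hNc, hcl, ?_, fun h => absurd h hp0, fun h => absurd h hp1⟩
          rintro y ⟨hy, -⟩
          have h1 : dist y p < δ := hNb hy
          have h2 := hwd y p
          have h3 := (hsq p hp).2
          have h4 : |w y| ≤ |w y - w p| + |w p| := by
            have := abs_add_le (w y - w p) (w p)
            simpa using this
          constructor <;> linarith
  choose! N hN1 hN2 hN3 hN4 hN5 hN6 hN7 using hNex
  set V : Set ℂ := ⋃ p ∈ K, N p ∩ U with hV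
  have hVo : IsOpen V := isOpen_biUnion fun p hp => (hN1 p hp).inter hU
  have hVc : IsConnected V := conn_nbhd hK N fun p hp => ⟨hN1 p hp, hN2 p hp, hN3 p hp, hN4 p hp⟩
  have hVp : IsPathConnected V := hVo.isConnected_iff_isPathConnected.1 hVc
  have hq0V : q₀ ∈ V := mem_biUnion h0 ⟨hN6 p₀ h0 rfl, hq0U⟩
  have hq1V : q₁ ∈ V := mem_biUnion h1 ⟨hN7 p₁ h1 rfl, hq1U⟩
  have hVprop : ∀ y ∈ V, y ∈ U ∧ |w y| < 1 + δ ∧ |w y| ≤ 3 := by
    intro y hy
    simp only [hV, mem_iUnion, exists_prop] at hy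
    obtain ⟨p, hp, hy1⟩ := hy
    exact ⟨hy1.2, hN5 p hp y hy1⟩
  set A : Set ℂ := {y | |w y| ≤ 3 ∧ ((y ∈ U ∧ |w y| < 1 + δ) ∨
        (|w y| ≤ 1 ∧ 1 ≤ |u y| ∧ (|u y| < 1 + δ → y ∈ U)))} with hA
  have hVA : V ⊆ A := fun y hy => ⟨(hVprop y hy).2.2, Or.inl ⟨(hVprop y hy).1, (hVprop y hy).2.1⟩⟩
  -- rays
  have hray0 : ∀ t : ℝ, 0 ≤ t → q₀ + ((-t : ℝ) : ℂ) * e ∈ A := by
    intro t ht
    have e1 : u (q₀ + ((-t : ℝ) : ℂ) * e) = -1 - t := by rw [hu, hq0u, u0]; ring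
    have e2 : w (q₀ + ((-t : ℝ) : ℂ) * e) = w q₀ := hw _ _
    have e3 : |u (q₀ + ((-t : ℝ) : ℂ) * e)| = 1 + t := by
      rw [e1, abs_of_nonpos (by linarith)]; ring
    refine ⟨by rw [e2]; linarith, Or.inr ⟨by rw [e2]; exact hq0w, by rw [e3]; linarith, fun h => ?_⟩⟩
    rw [e3] at h
    refine hb0 ?_
    rw [mem_ball, dist_eq_norm, add_sub_cancel_left, norm_mul, he, mul_one, Complex.norm_real,
      Real.norm_eq_abs, abs_neg, abs_of_nonneg ht]
    have := min_le_left a₀ a₁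
    linarith
  have hray1 : ∀ t : ℝ, 0 ≤ t → q₁ + ((t : ℝ) : ℂ) * e ∈ A := by
    intro t ht
    have e1 : u (q₁ + ((t : ℝ) : ℂ) * e) = 1 + t := by rw [hu, hq1u, u1]
    have e2 : w (q₁ + ((t : ℝ) : ℂ) * e) = w q₁ := hw _ _
    have e3 : |u (q₁ + ((t : ℝ) : ℂ) * e)| = 1 + t := by
      rw [e1, abs_of_nonneg (by linarith)]
    refine ⟨by rw [e2]; linarith, Or.inr ⟨by rw [e2]; exact hq1w, by rw [e3]; linarith, fun h => ?_⟩⟩
    rw [e3] at h
    refine hb1 ?_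
    rw [mem_ball, dist_eq_norm, add_sub_cancel_left, norm_mul, he, mul_one, Complex.norm_real,
      Real.norm_eq_abs, abs_of_nonneg ht]
    have := min_le_right a₀ a₁
    linarith
  have hseg : ∀ (q : ℂ) (c : ℝ), (∀ t : ℝ, 0 ≤ t → q + ((c * t : ℝ) : ℂ) * e ∈ A) →
      JoinedIn A (q + ((c * 2 : ℝ) : ℂ) * e) q := by
    intro q c hq
    refine JoinedIn.of_segment_subset ?_
    intro y hy
    rw [segment_eq_image'] at hy
    obtain ⟨θ, hθ, rfl⟩ := hy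
    have := hq (2 * (1 - θ)) (by linarith [hθ.2])
    convert this using 1
    simp only [Complex.real_smul]
    push_cast
    ring
  have hj0 : JoinedIn A (q₀ + (((-1) * 2 : ℝ) : ℂ) * e) q₀ := hseg q₀ (-1) (fun t ht => by
    have := hray0 t ht
    convert this using 3
    push_cast; ring)
  have hj1 : JoinedIn A (q₁ + ((1 * 2 : ℝ) : ℂ) * e) q₁ := hseg q₁ 1 (fun t ht => by
    have := hray1 t ht
    convert this using 3
    push_cast; ring)
  have hjm : JoinedIn A q₀ q₁ := (hVp.joinedIn q₀ hq0V q₁ hq1V).mono hVA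
  obtain ⟨γ, hγ⟩ := (hj0.trans hjm).trans hj1.symm
  refine ⟨γ.toContinuousMap, ?_, ?_, fun s => hγ s⟩
  · have : γ.toContinuousMap 0 = q₀ + (((-1) * 2 : ℝ) : ℂ) * e := γ.source
    rw [this, hu, hq0u, u0]; norm_num
  · have : γ.toContinuousMap 1 = q₁ + ((1 * 2 : ℝ) : ℂ) * e := γ.target
    rw [this, hu, hq1u, u1]; norm_num

theorem notBoth : NotBothStmt := by
  intro G hG hT hB hC ⟨K, hKs, hK, ⟨pB, hpB, hpB'⟩, ⟨pT, hpT, hpT'⟩⟩
    ⟨K', hKs', hK', ⟨pR, hpR, hpR'⟩, ⟨pL, hpL, hpL'⟩⟩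
  have hUn : IsOpen {z | G z < 0} := isOpen_lt hG continuous_const
  have hUp : IsOpen {z | 0 < G z} := isOpen_lt continuous_const hG
  -- corners
  have hcor : ∀ z : ℂ, |z.re| = 1 → |z.im| = 1 → G z ≠ 0 := by
    intro z h1 h2
    rcases eq_or_eq_neg_of_abs_eq h1 with h1 | h1 <;> rcases eq_or_eq_neg_of_abs_eq h2 with h2 | h2
    · have : z = corner 2 := Complex.ext h1 h2
      rw [this]; exact hC 2
    · have : z = corner 1 := Complex.ext h1 h2
      rw [this]; exact hC 1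
    · have : z = corner 3 := Complex.ext h1 h2
      rw [this]; exact hC 3
    · have : z = corner 0 := Complex.ext h1 h2
      rw [this]; exact hC 0
  obtain ⟨δ₁, hδ1, H1⟩ := arm (U := {z | G z < 0}) (K := K) hUn hK (u := Complex.im)
    (w := Complex.re) (e := Complex.I) (by intro z t; simp) (by intro z t; simp)
    (fun z z' => by
      rw [dist_eq_norm, ← Complex.sub_im]; exact Complex.abs_im_le_norm _)
    (fun z z' => by
      rw [dist_eq_norm, ← Complex.sub_re]; exact Complex.abs_re_le_norm _)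
    (by simp)
    (by
      intro p hp hpU δ hδ
      have hp0 : G p = 0 := le_antisymm (hKs hp).1 (not_lt.1 hpU)
      obtain ⟨N, h1, h2, h3, h4, -, h5, -⟩ := hT p hp0 δ hδ
      exact ⟨N, h1, h2, h3, h4, h5⟩)
    (fun p hp => ⟨(hKs hp).2.2, (hKs hp).2.1⟩) hpB hpT hpB'.2 hpT'.2
    (by
      intro p hp hpU hup
      have hp0 : G p = 0 := le_antisymm (hKs hp).1 (not_lt.1 hpU)
      have hre : |p.re| ≤ 1 := (hKs hp).2.1
      refine ⟨lt_of_le_of_ne hre fun h => hcor p h hup hp0, fun δ hδ => ?_⟩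
      rcases eq_or_eq_neg_of_abs_eq hup with h | h
      · obtain ⟨⟨q, hq1, hq2, hq3⟩, -⟩ := hB 2 p ⟨hre, h⟩ hp0 δ hδ
        exact ⟨q, by rw [h]; exact hq1.2, hq1.1, hq2, hq3⟩
      · obtain ⟨⟨q, hq1, hq2, hq3⟩, -⟩ := hB 0 p ⟨hre, h⟩ hp0 δ hδ
        exact ⟨q, by rw [h]; exact hq1.2, hq1.1, hq2, hq3⟩)
  obtain ⟨δ₂, hδ2, H2⟩ := arm (U := {z | 0 < G z}) (K := K') hUp hK' (u := Complex.re)
    (w := Complex.im) (e := 1) (by intro z t; simp) (by intro z t; simp)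
    (fun z z' => by
      rw [dist_eq_norm, ← Complex.sub_re]; exact Complex.abs_re_le_norm _)
    (fun z z' => by
      rw [dist_eq_norm, ← Complex.sub_im]; exact Complex.abs_im_le_norm _)
    (by simp)
    (by
      intro p hp hpU δ hδ
      have hp0 : G p = 0 := le_antisymm (not_lt.1 hpU) (hKs' hp).1
      obtain ⟨N, h1, h2, h3, -, h4, -, h5⟩ := hT p hp0 δ hδ
      exact ⟨N, h1, h2, h3, h4, h5⟩)
    (fun p hp => ⟨(hKs' hp).2.1, (hKs' hp).2.2⟩) hpL hpR hpL'.1 hpR'.1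
    (by
      intro p hp hpU hup
      have hp0 : G p = 0 := le_antisymm (not_lt.1 hpU) (hKs' hp).1
      have him : |p.im| ≤ 1 := (hKs' hp).2.2
      refine ⟨lt_of_le_of_ne him fun h => hcor p hup h hp0, fun δ hδ => ?_⟩
      rcases eq_or_eq_neg_of_abs_eq hup with h | h
      · obtain ⟨-, q, hq1, hq2, hq3⟩ := hB 1 p ⟨h, him⟩ hp0 δ hδ
        exact ⟨q, by rw [h]; exact hq1.1, hq1.2, hq2, hq3⟩
      · obtain ⟨-, q, hq1, hq2, hq3⟩ := hB 3 p ⟨h, him⟩ hp0 δ hδ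
        exact ⟨q, by rw [h]; exact hq1.1, hq1.2, hq2, hq3⟩)
  set δ := min 1 (min δ₁ δ₂) with hδdef
  have hδ : 0 < δ := lt_min one_pos (lt_min hδ1 hδ2)
  obtain ⟨γ, hγ0, hγ1, hγ⟩ := H1 δ hδ ((min_le_right _ _).trans (min_le_left _ _)) (min_le_left _ _)
  obtain ⟨η, hη0, hη1, hη⟩ := H2 δ hδ ((min_le_right _ _).trans (min_le_right _ _)) (min_le_left _ _)
  obtain ⟨s, t, hst⟩ := P198.PlanarTop.crossing (-3) 3 (-3) 3 γ η
    (fun s => abs_le.1 (hγ s).1) (fun t => abs_le.1 (hη t).1) hγ0.le hγ1.ge hη0.le hη1.ge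
  have a1 := (hγ s).2
  have a2 := (hη t).2
  rw [← hst] at a2
  have hdis : ∀ z : ℂ, G z < 0 → 0 < G z → False := fun z h1 h2 => absurd h1 (not_lt.2 h2.le)
  rcases a1 with ⟨b1, b2⟩ | ⟨b1, b2, b3⟩ <;> rcases a2 with ⟨c1, c2⟩ | ⟨c1, c2, c3⟩
  · exact hdis _ b1 c1
  · exact hdis _ b1 (c3 b2)
  · exact hdis _ (b3 c2) c1
  · exact hdis _ (b3 (by linarith)) (c3 (by linarith))

end P148
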