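import Vale.Agent.P148.Props

/-!
# P148: rows N2 and N6, bisectors
-/

open MeasureTheory Set Metric Topology Filter ProbabilityTheory
open scoped ENNReal NNReal

namespace P148

/-- A measurable set which meets every ray from the origin at most once is null. -/
theorem radial_null {A : Set ℂ} (hA : MeasurableSet A)
    (h : ∀ u ∈ A, ∀ s : ℝ, 0 < s → (s : ℂ) * u ∈ A → s = 1) : volume A = 0 := by
  set T : ℝ × ℝ → ℂ := fun p => p.1 * (Real.cos p.2 + Real.sin p.2 * Complex.I) with hT
  have hTm : Measurable T := by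
    rw [hT]
    fun_prop
  have hBm : MeasurableSet ({p : ℝ × ℝ | 0 < p.1} ∩ T ⁻¹' A) :=
    (measurableSet_lt measurable_const measurable_fst).inter (hTm hA)
  have hB0 : volume ({p : ℝ × ℝ | 0 < p.1} ∩ T ⁻¹' A) = 0 := by
    rw [Measure.volume_eq_prod, Measure.prod_apply_symm hBm]
    apply lintegral_eq_zero_of_ae_eq_zero
    apply Eventually.of_forall
    intro θ
    apply Set.Subsingleton.measure_zero
    rintro r ⟨hr, hrA⟩ r' ⟨hr', hrA'⟩
    change 0 < r at hr
    change 0 < r' at hr'
    simp only [hT, mem_preimage] at hrA hrA'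
    have h1 := h _ hrA (r' / r) (div_pos hr' hr) (by
      have e : ((r' / r : ℝ) : ℂ) * ((r : ℂ) * (Real.cos θ + Real.sin θ * Complex.I))
          = (r' : ℂ) * (Real.cos θ + Real.sin θ * Complex.I) := by
        have : (r : ℂ) ≠ 0 := by exact_mod_cast hr.ne'
        push_cast
        field_simp
      rw [e]
      exact hrA')
    rw [div_eq_one_iff_eq hr.ne'] at h1
    exact h1.symm
  have h1 := Complex.lintegral_comp_polarCoord_symm (A.indicator (fun _ => (1 : ℝ≥0∞)))
  rw [lintegral_indicator hA, lintegral_const, Measure.restrict_apply MeasurableSet.univ,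
    univ_inter, one_mul] at h1
  rw [← h1]
  apply lintegral_eq_zero_of_ae_eq_zero
  rw [EventuallyEq, ae_restrict_iff' polarCoord.open_target.measurableSet]
  have h2 : ∀ᵐ p : ℝ × ℝ, p ∉ ({p : ℝ × ℝ | 0 < p.1} ∩ T ⁻¹' A) := by
    rw [ae_iff]
    simp only [not_not]
    exact hB0
  filter_upwards [h2] with p hp hpt
  have h3 : 0 < p.1 := by
    rw [polarCoord_target] at hpt
    exact hpt.1
  have h4 : Complex.polarCoord.symm p ∉ A := by
    intro h5
    apply hp
    refine ⟨h3, ?_⟩
    rw [Complex.polarCoord_symm_apply] at h5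
    exact h5
  rw [indicator_of_notMem h4]
  simp

theorem ell_coord (v w y : ℂ) : ell v w y
    = ((y.re - v.re) ^ 2 + (y.im - v.im) ^ 2) - ((y.re - w.re) ^ 2 + (y.im - w.im) ^ 2) := by
  unfold ell
  rw [Complex.dist_eq, Complex.dist_eq, Complex.sq_norm, Complex.sq_norm, Complex.normSq_apply,
    Complex.normSq_apply]
  simp only [Complex.sub_re, Complex.sub_im]
  ring

theorem null_of_sections {S : Set (ℂ × ℂ)} (hS : MeasurableSet S)
    (h : ∀ w : ℂ, volume {v : ℂ | (v, w) ∈ S} = 0) :
    volume {x : Fin 2 → ℂ | (x 0, x 1) ∈ S} = 0 := by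
  have h1 := (volume_preserving_finTwoArrow ℂ).measure_preimage_equiv S
  have h2 : (MeasurableEquiv.finTwoArrow : (Fin 2 → ℂ) ≃ᵐ ℂ × ℂ) ⁻¹' S
      = {x : Fin 2 → ℂ | (x 0, x 1) ∈ S} := rfl
  rw [h2] at h1
  rw [h1, Measure.volume_eq_prod, Measure.prod_apply_symm hS]
  apply lintegral_eq_zero_of_ae_eq_zero
  exact Eventually.of_forall h

/-- Row N2. -/
theorem pair : PairStmt := by
  intro Y _
  have hc : ∀ y : ℂ, Continuous fun p : ℂ × ℂ => ell p.1 p.2 y := by
    intro y
    unfold ell
    fun_prop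
  have hS : MeasurableSet ({p : ℂ × ℂ | p.1 ≠ p.2} ∩
      ((⋂ y ∈ Y, {p : ℂ × ℂ | 0 ≤ ell p.1 p.2 y}) ∩
        ⋂ n : ℕ, ⋃ y ∈ Y, {p : ℂ × ℂ | ell p.1 p.2 y < 1 / ((n : ℝ) + 1)})) := by
    refine MeasurableSet.inter ?_ (MeasurableSet.inter ?_ ?_)
    · exact (isOpen_ne_fun continuous_fst continuous_snd).measurableSet
    · exact (isClosed_biInter fun y _ => isClosed_le continuous_const (hc y)).measurableSet
    · exact MeasurableSet.iInter fun n =>
        (isOpen_biUnion fun y _ => isOpen_lt (hc y) continuous_const).measurableSet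
  have key := null_of_sections hS ?_
  · refine measure_mono_null ?_ key
    rintro x ⟨h1, h2, h3⟩
    refine ⟨h1, ?_, ?_⟩
    · simp only [mem_iInter]
      exact fun y hy => h2 y hy
    · simp only [mem_iInter, mem_iUnion]
      intro n
      obtain ⟨y, hy, hy'⟩ := h3 (1 / ((n : ℝ) + 1)) (by positivity)
      exact ⟨y, hy, hy'⟩
  · intro w
    rw [← measure_preimage_add volume w]
    apply radial_null
    · exact (measurable_const_add w) ((measurable_prodMk_right : Measurable fun v : ℂ => (v, w)) hS)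
    · rintro u ⟨hu1, hu2, hu3⟩ s hs ⟨hs1, hs2, hs3⟩
      simp only [mem_iInter, mem_iUnion] at hu2 hu3 hs2 hs3
      have hu0 : u ≠ 0 := by
        rintro rfl
        apply hu1
        simp
      have hn : 0 < u.re ^ 2 + u.im ^ 2 := by
        have h1 := Complex.normSq_pos.mpr hu0
        rw [Complex.normSq_apply] at h1
        nlinarith
      have hq : ∀ y, ell (w + s * u) w y = s * (ell (w + u) w y + (s - 1) * (u.re ^ 2 + u.im ^ 2)) := by
        intro y
        rw [ell_coord, ell_coord]
        simp only [Complex.add_re, Complex.add_im, Complex.mul_re, Complex.mul_im,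
          Complex.ofReal_re, Complex.ofReal_im, zero_mul, sub_zero, add_zero]
        ring
      by_contra hne
      rcases lt_or_gt_of_ne hne with hlt | hgt
      · obtain ⟨n, hn'⟩ := exists_nat_one_div_lt
          (mul_pos (sub_pos.mpr hlt) hn)
        obtain ⟨y, hy, hy'⟩ := hu3 n
        have h1 : 0 ≤ ell (w + s * u) w y := hs2 y hy
        have h2 : ell (w + u) w y < 1 / ((n : ℝ) + 1) := hy'
        rw [hq] at h1
        have h3 := nonneg_of_mul_nonneg_right h1 hs
        nlinarith
      · obtain ⟨n, hn'⟩ := exists_nat_one_div_lt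
          (mul_pos hs (mul_pos (sub_pos.mpr hgt) hn))
        obtain ⟨y, hy, hy'⟩ := hs3 n
        have h1 : 0 ≤ ell (w + u) w y := hu2 y hy
        have h2 : ell (w + s * u) w y < 1 / ((n : ℝ) + 1) := hy'
        rw [hq] at h2
        have h3 : s * ((s - 1) * (u.re ^ 2 + u.im ^ 2))
            ≤ s * (ell (w + u) w y + (s - 1) * (u.re ^ 2 + u.im ^ 2)) :=
          mul_le_mul_of_nonneg_left (by linarith) hs.le
        linarith

/-- Row N6. -/
theorem cornerNull : CornerStmt := by
  intro a
  have key := null_of_sections (S := {p : ℂ × ℂ | dist a p.1 = dist a p.2}) ?_ ?_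
  · exact key
  · exact (isClosed_eq (by fun_prop) (by fun_prop)).measurableSet
  · intro w
    have h1 : {v : ℂ | (v, w) ∈ {p : ℂ × ℂ | dist a p.1 = dist a p.2}} = sphere a (dist a w) := by
      ext v
      change dist a v = dist a w ↔ dist v a = dist a w
      rw [dist_comm v a]
    rw [h1]
    exact Measure.addHaar_sphere volume a _

end P148
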