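import Vale.Agent.P148.Props

/-!
# P148, row V: the black region is where the distance to black is at most the distance to white
-/

open MeasureTheory Set Metric Topology Filter ProbabilityTheory
open scoped ENNReal NNReal

namespace P148

/-- The points of one colour in a disc are finite in number. -/
theorem Good.finite_col {S : Set Pt} (h : Good S) (c : Bool) (r : ℝ) :
    (col S c ∩ ball (0 : ℂ) r).Finite := by
  refine ((h.locFin r).image Prod.fst).subset ?_
  rintro v ⟨hv, hr⟩
  exact ⟨(v, c), ⟨hv, hr, trivial⟩, rfl⟩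

/-- There is a nearest point of each colour. -/
theorem Good.exists_nearest {S : Set Pt} (h : Good S) (c : Bool) (z : ℂ) :
    ∃ v ∈ col S c, infDist z (col S c) = dist z v := by
  obtain ⟨v₀, hv₀⟩ := h.colours c
  have hfin : (col S c ∩ closedBall z (dist z v₀)).Finite := by
    refine (h.finite_col c (‖z‖ + dist z v₀ + 1)).subset ?_
    rintro v ⟨hv, hvz⟩
    refine ⟨hv, ?_⟩
    rw [mem_ball, dist_zero_right]
    have h1 : dist v z ≤ dist z v₀ := mem_closedBall.1 hvz
    have h2 : ‖v‖ ≤ ‖z‖ + dist v z := by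
      rw [dist_eq_norm]
      calc ‖v‖ = ‖z + (v - z)‖ := by ring_nf
        _ ≤ ‖z‖ + ‖v - z‖ := norm_add_le _ _
    linarith
  have hne : (col S c ∩ closedBall z (dist z v₀)).Nonempty :=
    ⟨v₀, hv₀, by rw [mem_closedBall, dist_comm]⟩
  obtain ⟨v, ⟨hv, hvz⟩, hmin⟩ := Set.exists_min_image _ (fun w => dist z w) hfin hne
  refine ⟨v, hv, le_antisymm (infDist_le_dist_of_mem hv) ?_⟩
  refine (le_infDist (h.colours c)).2 ?_
  intro w hw
  by_cases hwz : w ∈ closedBall z (dist z v₀)
  · exact hmin w ⟨hw, hwz⟩
  · rw [mem_closedBall, not_le, dist_comm w z] at hwz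
    rw [mem_closedBall, dist_comm v z] at hvz
    linarith

/-- Row V. -/
theorem region : RegionStmt := by
  intro S h
  ext z
  simp only [blackRegion, mem_iUnion, mem_ofPred_eq, exists_prop, gap, sub_nonpos]
  constructor
  · rintro ⟨v, hv, hz⟩
    refine (le_infDist (h.colours false)).2 ?_
    intro w hw
    exact (infDist_le_dist_of_mem (s := col S true) hv).trans (hz w ⟨(w, false), hw, rfl⟩)
  · intro hz
    obtain ⟨v, hv, hvz⟩ := h.exists_nearest true z
    refine ⟨v, hv, ?_⟩
    rintro w ⟨⟨w', c⟩, hw, rfl⟩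
    rw [← hvz]
    cases c with
    | true => exact infDist_le_dist_of_mem (s := col S true) hw
    | false => exact hz.trans (infDist_le_dist_of_mem (s := col S false) hw)

end P148
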