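import Vale.Agent.P148.Asm3
import Vale.Agent.P148.NotBoth
import Vale.Agent.P148.Bd
import Vale.Agent.P148.CardyHalf
import Vale.Agent.P148.Circ
import Vale.Agent.P148.Dens
import Vale.Agent.P148.Dual
import Vale.Agent.P148.Half
import Vale.Agent.P148.Inv
import Vale.Agent.P148.Meas
import Vale.Agent.P148.Pair
import Vale.Agent.P148.Region

/-!
# P148: exact self-duality and symmetric quads, from the k-point lemma
-/

open MeasureTheory Set Metric Topology Filter ProbabilityTheory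
open scoped ENNReal NNReal

namespace P148

universe u

section prob

variable {Ω : Type u} [MeasurableSpace Ω] {P : Measure Ω} [IsProbabilityMeasure P]
  {S : Ω → Set Pt} {lam : ℝ≥0}

theorem ae_goodBd' (hK : KPointStmt.{u}) (hC : ColoursStmt.{u}) (hlam : 0 < lam)
    (Q : Quad) (h : IsColouredPoisson P S lam) : ∀ᵐ ω ∂P, GoodBd Q (S ω) :=
  ae_goodBd hK hC four cornerNull pair density circ bd hlam Q h

theorem duality (hK : KPointStmt.{u}) (hC : ColoursStmt.{u}) (hlam : 0 < lam)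
    (h : IsColouredPoisson P S lam) (Q : Quad) :
    (∀ᵐ ω ∂P, Q.Cross 0 2 (blackRegion (S ω)) ↔ ¬ Q.Cross 1 3 (whiteRegion (S ω))) ∧
    NullMeasurableSet {ω | Q.Cross 0 2 (blackRegion (S ω))} P ∧
    NullMeasurableSet {ω | Q.Cross 1 3 (blackRegion (S ω))} P ∧
    P {ω | Q.Cross 0 2 (blackRegion (S ω))} + P {ω | Q.Cross 1 3 (blackRegion (S ω))} = 1 ∧
    (Q.SelfDual → P {ω | Q.Cross 0 2 (blackRegion (S ω))} = 1 / 2) := by
  have hM : MeasCrossStmt.{0} := measCross
  have hI : InvStmt.{u} := inv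
  have hg := ae_goodBd' hK hC hlam Q h
  have hb : ∀ i j : Fin 4, ∀ᵐ ω ∂P, (Q.Cross i j (blackRegion (S ω)) ↔ S ω ∈ crossSet Q i j) := by
    intro i j
    filter_upwards [hg] with ω hω
    rw [region (S ω) hω.toGood]
    exact Iff.rfl
  have he : ∀ i j : Fin 4, {ω | Q.Cross i j (blackRegion (S ω))} =ᵐ[P]
      {ω | S ω ∈ crossSet Q i j} := by
    intro i j
    filter_upwards [hb i j] with ω hω
    exact propext hω
  have hmeas : ∀ i j : Fin 4, NullMeasurableSet {ω | Q.Cross i j (blackRegion (S ω))} P := by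
    intro i j
    exact (prob_flip hI hM Q i j h).1.nullMeasurableSet.congr (he i j).symm
  have hsum : P {ω | Q.Cross 0 2 (blackRegion (S ω))} +
      P {ω | Q.Cross 1 3 (blackRegion (S ω))} = 1 := by
    rw [measure_congr (he 0 2), measure_congr (he 1 3)]
    exact prob_sum hI hM (dual sep) notBoth tame Q h hg
  refine ⟨?_, hmeas 0 2, hmeas 1 3, hsum, fun hQ => ?_⟩
  · filter_upwards [hg] with ω hω
    rw [whiteRegion_eq, region (S ω) hω.toGood, region (flip (S ω)) hω.toGood.flip]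
    exact dichotomy (dual sep) notBoth tame Q (S ω) hω
  · have h1 : P {ω | Q.Cross 1 3 (blackRegion (S ω))} = P {ω | Q.Cross 0 2 (blackRegion (S ω))} := by
      rw [measure_congr (he 0 2), measure_congr (he 1 3)]
      exact prob_symm hI hM Q hQ h
    rw [h1, ← two_mul] at hsum
    rw [ENNReal.eq_div_iff (by norm_num) (by norm_num)]
    exact hsum

end prob

theorem symmetric_limit (hK : KPointStmt.{u}) (hC : ColoursStmt.{u}) (Q : Quad) (φ : ℂ → ℂ)
    (x : ℝ) (hφ : Q.IsUniformizer φ x) (hQ : Q.SelfDual) :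
    x = 1 / 2 ∧ cardy x = 1 / 2 ∧
      ∀ (Ω : ℝ → Type u) [∀ ε, MeasurableSpace (Ω ε)] (P : ∀ ε, Measure (Ω ε))
        [∀ ε, IsProbabilityMeasure (P ε)] (S : ∀ ε, Ω ε → Set Pt),
        (∀ ε > 0, IsColouredPoisson (P ε) (S ε) (Real.toNNReal (ε ^ (-2 : ℤ)))) →
        Tendsto (fun ε => (P ε {ω | Q.Cross 0 2 (blackRegion (S ε ω))}).toReal) (𝓝[>] 0)
          (𝓝 (cardy x)) := by
  have hx := half Q φ x hφ hQ
  subst hx
  refine ⟨rfl, cardyHalf, ?_⟩
  intro Ω _ P _ S hS
  rw [show cardy (1 / 2) = 1 / 2 from cardyHalf]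
  refine tendsto_const_nhds.congr' ?_
  filter_upwards [self_mem_nhdsWithin] with ε hε
  have hε' : (0 : ℝ) < ε := hε
  have h1 := (duality hK hC (lam := Real.toNNReal (ε ^ (-2 : ℤ)))
    (Real.toNNReal_pos.2 (by positivity)) (hS ε hε') Q).2.2.2.2 hQ
  rw [h1]
  norm_num

end P148
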