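import Vale.Agent.P148.Props2

/-!
# P148, second theorem: assembly
-/

open MeasureTheory Set Metric Topology Filter ProbabilityTheory
open scoped ENNReal NNReal

namespace P148

universe u

theorem cArc_add_two_pi (z₀ : ℂ) (R s t : ℝ) :
    cArc z₀ R (s + 2 * Real.pi) (t + 2 * Real.pi) = cArc z₀ R s t := by
  have hp : ∀ u : ℝ, Complex.exp ((u + 2 * Real.pi : ℝ) * Complex.I) =
      Complex.exp (u * Complex.I) := by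
    intro u
    push_cast
    rw [add_mul, Complex.exp_add, Complex.exp_two_pi_mul_I, mul_one]
  ext z
  constructor
  · rintro ⟨u, hu, rfl⟩
    refine ⟨u - 2 * Real.pi, ⟨by linarith [hu.1], by linarith [hu.2]⟩, ?_⟩
    have := hp (u - 2 * Real.pi)
    rw [sub_add_cancel] at this
    simp only [this]
  · rintro ⟨u, hu, rfl⟩
    refine ⟨u + 2 * Real.pi, ⟨by linarith [hu.1], by linarith [hu.2]⟩, ?_⟩
    simp only [hp u]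

theorem crossEv_comm (X A A' : Set ℂ) : crossEv X A A' = crossEv X A' A := by
  ext T
  constructor
  · rintro ⟨K, h1, h2, h3, h4⟩
    exact ⟨K, h1, h2, h4, h3⟩
  · rintro ⟨K, h1, h2, h3, h4⟩
    exact ⟨K, h1, h2, h4, h3⟩

theorem discX_swap (z₀ : ℂ) (R θ₀ θ₁ θ₂ θ₃ : ℝ) :
    discX z₀ R θ₂ θ₃ (θ₀ + 2 * Real.pi) (θ₁ + 2 * Real.pi) = discX z₀ R θ₀ θ₁ θ₂ θ₃ := by
  unfold discX
  rw [cArc_add_two_pi, crossEv_comm]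

section prob

variable {Ω : Type u} [MeasurableSpace Ω] {P : Measure Ω} [IsProbabilityMeasure P]
  {S : Ω → Set Pt} {lam : ℝ≥0}

/-- The crossing probability of a disc quad. -/
theorem prob_isDisc (hlam : 0 < lam) (h : IsColouredPoisson P S lam) {Q : Quad} {z₀ : ℂ}
    {R θ₀ θ₁ θ₂ θ₃ : ℝ} (hR : 0 < R) (hQ : Q.IsDisc z₀ R θ₀ θ₁ θ₂ θ₃) :
    P {ω | Q.Cross 0 2 (blackRegion (S ω))} = P {ω | S ω ∈ discX z₀ R θ₀ θ₁ θ₂ θ₃} := by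
  refine measure_congr ?_
  filter_upwards [ae_goodBd' kPoint2 colours2 hlam Q h] with ω hω
  refine propext ?_
  change Q.Cross 0 2 (blackRegion (S ω)) ↔ S ω ∈ discX z₀ R θ₀ θ₁ θ₂ θ₃
  rw [region (S ω) hω.toGood, ← (crossSet_of_isDisc hR hQ).1]
  exact Iff.rfl

theorem chain2 (hCh : ChainStmt.{u}) (hlam : 0 < lam) (h : IsColouredPoisson P S lam) (z₀ : ℂ)
    {R θ₀ θ₁ θ₂ θ₃ : ℝ} (hR : 0 < R) (h01 : θ₀ < θ₁) (h12 : θ₁ < θ₂) (h23 : θ₂ < θ₃)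
    (h30 : θ₃ < θ₀ + 2 * Real.pi) (k : ℕ)
    (hk : min (θ₂ - θ₁) (θ₀ + 2 * Real.pi - θ₃) ≤ k * min (θ₁ - θ₀) (θ₃ - θ₂)) :
    (1 / 4) ^ k ≤ P {ω | S ω ∈ discX z₀ R θ₀ θ₁ θ₂ θ₃} := by
  rcases min_le_iff.1 hk with h1 | h1
  · exact hCh Ω P S lam hlam h z₀ R hR θ₀ θ₁ θ₂ θ₃ h01 h12 h23 h30 k h1
  · rw [← discX_swap]
    refine hCh Ω P S lam hlam h z₀ R hR θ₂ θ₃ (θ₀ + 2 * Real.pi) (θ₁ + 2 * Real.pi) h23 h30
      (by linarith) (by linarith) k ?_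
    rw [add_sub_add_right_eq_sub, min_comm]
    exact h1

theorem lower (hCh : ChainStmt.{u}) (hlam : 0 < lam) (h : IsColouredPoisson P S lam) (z₀ : ℂ)
    {R θ₀ θ₁ θ₂ θ₃ : ℝ} (hR : 0 < R) (h01 : θ₀ < θ₁) (h12 : θ₁ < θ₂) (h23 : θ₂ < θ₃)
    (h30 : θ₃ < θ₀ + 2 * Real.pi) (k : ℕ)
    (hk : min (θ₂ - θ₁) (θ₀ + 2 * Real.pi - θ₃) ≤ k * min (θ₁ - θ₀) (θ₃ - θ₂)) :
    (1 / 4) ^ k ≤ (P {ω | S ω ∈ discX z₀ R θ₀ θ₁ θ₂ θ₃}).toReal := by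
  have h1 := chain2 hCh hlam h z₀ hR h01 h12 h23 h30 k hk
  have h2 := ENNReal.toReal_mono (measure_ne_top _ _) h1
  rw [ENNReal.toReal_pow, ENNReal.toReal_div] at h2
  simpa using h2

theorem dual_real (hDi : DichStmt.{u}) (hlam : 0 < lam) (h : IsColouredPoisson P S lam) (z₀ : ℂ)
    {R θ₀ θ₁ θ₂ θ₃ : ℝ} (hR : 0 < R) (h01 : θ₀ < θ₁) (h12 : θ₁ < θ₂) (h23 : θ₂ < θ₃)
    (h30 : θ₃ < θ₀ + 2 * Real.pi) :
    (P {ω | S ω ∈ discX z₀ R θ₀ θ₁ θ₂ θ₃}).toReal =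
      1 - (P {ω | S ω ∈ discX z₀ R θ₁ θ₂ θ₃ (θ₀ + 2 * Real.pi)}).toReal := by
  have h1 := (hDi Ω P S lam hlam h z₀ R hR θ₀ θ₁ θ₂ θ₃ h01 h12 h23 h30).2
  have h2 := congrArg ENNReal.toReal h1
  rw [ENNReal.toReal_add (measure_ne_top _ _) (measure_ne_top _ _), ENNReal.toReal_one] at h2
  linarith

theorem upper (hDi : DichStmt.{u}) (hCh : ChainStmt.{u}) (hlam : 0 < lam)
    (h : IsColouredPoisson P S lam) (z₀ : ℂ)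
    {R θ₀ θ₁ θ₂ θ₃ : ℝ} (hR : 0 < R) (h01 : θ₀ < θ₁) (h12 : θ₁ < θ₂) (h23 : θ₂ < θ₃)
    (h30 : θ₃ < θ₀ + 2 * Real.pi) (k : ℕ)
    (hk : min (θ₁ - θ₀) (θ₃ - θ₂) ≤ k * min (θ₂ - θ₁) (θ₀ + 2 * Real.pi - θ₃)) :
    (P {ω | S ω ∈ discX z₀ R θ₀ θ₁ θ₂ θ₃}).toReal ≤ 1 - (1 / 4) ^ k := by
  rw [dual_real hDi hlam h z₀ hR h01 h12 h23 h30]
  have h1 := lower hCh hlam h z₀ hR h12 h23 h30 (by linarith : θ₀ + 2 * Real.pi < θ₁ + 2 * Real.pi)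
    k (by
      have : θ₁ + 2 * Real.pi - (θ₀ + 2 * Real.pi) = θ₁ - θ₀ := by ring
      rw [this, min_comm (θ₃ - θ₂)]
      exact hk)
  linarith

/-- The bound in terms of the modulus. -/
theorem pow_bound {a b y : ℝ} (hb : 0 < b) (ha : 0 < a) (hy : a / b + 1 ≤ y) :
    ∃ k : ℕ, a ≤ k * b ∧ (4 : ℝ) ^ (-y) ≤ (1 / 4) ^ k := by
  refine ⟨⌈a / b⌉₊, ?_, ?_⟩
  · rw [← div_le_iff₀ hb]
    exact Nat.le_ceil _
  · have h1 : ((⌈a / b⌉₊ : ℕ) : ℝ) ≤ y := (Nat.ceil_lt_add_one (by positivity)).le.trans hy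
    rw [Real.rpow_neg (by norm_num), one_div, inv_pow, ← Real.rpow_natCast 4]
    exact inv_anti₀ (by positivity) (Real.rpow_le_rpow_of_exponent_le (by norm_num) h1)

theorem xr_third : xr (Real.pi / 3) (Real.pi / 3) (Real.pi / 3) = 1 / 3 := by
  unfold xr
  have h1 : Real.pi / 3 / 2 = Real.pi / 6 := by ring
  have h2 : (Real.pi / 3 + Real.pi / 3) / 2 = Real.pi / 3 := by ring
  rw [h1, h2, Real.sin_pi_div_six, Real.sin_pi_div_three]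
  have h3 : Real.sqrt 3 * Real.sqrt 3 = 3 := Real.mul_self_sqrt (by norm_num)
  field_simp
  nlinarith [h3]

/-- All bounds for a disc quad. -/
theorem disc_main (hDi : DichStmt.{u}) (hCh : ChainStmt.{u}) (hHex : HexStmt.{u})
    (hT : TrigStmt) (hN : CardyThirdStmt) (hlam : 0 < lam) (h : IsColouredPoisson P S lam)
    {Q : Quad} {z₀ : ℂ} {R θ₀ θ₁ θ₂ θ₃ : ℝ} (hR : 0 < R) (h01 : θ₀ < θ₁) (h12 : θ₁ < θ₂)
    (h23 : θ₂ < θ₃) (h30 : θ₃ < θ₀ + 2 * Real.pi) (hQ : Q.IsDisc z₀ R θ₀ θ₁ θ₂ θ₃) :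
    (∀ k : ℕ, min (θ₂ - θ₁) (θ₀ + 2 * Real.pi - θ₃) ≤ k * min (θ₁ - θ₀) (θ₃ - θ₂) →
      (1 / 4) ^ k ≤ (P {ω | Q.Cross 0 2 (blackRegion (S ω))}).toReal) ∧
    (∀ k : ℕ, min (θ₁ - θ₀) (θ₃ - θ₂) ≤ k * min (θ₂ - θ₁) (θ₀ + 2 * Real.pi - θ₃) →
      (P {ω | Q.Cross 0 2 (blackRegion (S ω))}).toReal ≤ 1 - (1 / 4) ^ k) ∧
    (4 : ℝ) ^ (-(Real.pi / xr (θ₁ - θ₀) (θ₂ - θ₁) (θ₃ - θ₂))) ≤
      (P {ω | Q.Cross 0 2 (blackRegion (S ω))}).toReal ∧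
    (P {ω | Q.Cross 0 2 (blackRegion (S ω))}).toReal ≤
      1 - (4 : ℝ) ^ (-(Real.pi / (1 - xr (θ₁ - θ₀) (θ₂ - θ₁) (θ₃ - θ₂)))) ∧
    (θ₁ = θ₀ + Real.pi / 3 → θ₂ = θ₀ + 2 * Real.pi / 3 → θ₃ = θ₀ + Real.pi →
      xr (θ₁ - θ₀) (θ₂ - θ₁) (θ₃ - θ₂) = 1 / 3 ∧
      1 / 3 ≤ (P {ω | Q.Cross 0 2 (blackRegion (S ω))}).toReal ∧
      (P {ω | Q.Cross 0 2 (blackRegion (S ω))}).toReal ≤ 1 / 2 ∧
      |(P {ω | Q.Cross 0 2 (blackRegion (S ω))}).toReal - cardy (1 / 3)| ≤ 9 / 100) := by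
  rw [prob_isDisc hlam h hR hQ]
  have hα : 0 < θ₁ - θ₀ := sub_pos.2 h01
  have hβ : 0 < θ₂ - θ₁ := sub_pos.2 h12
  have hγ : 0 < θ₃ - θ₂ := sub_pos.2 h23
  have hδ : 0 < θ₀ + 2 * Real.pi - θ₃ := sub_pos.2 h30
  have hlow := fun k => lower hCh hlam h z₀ hR h01 h12 h23 h30 k
  have hup := fun k => upper hDi hCh hlam h z₀ hR h01 h12 h23 h30 k
  obtain ⟨t1, t2, t3, t4⟩ := hT (θ₁ - θ₀) (θ₂ - θ₁) (θ₃ - θ₂) (θ₀ + 2 * Real.pi - θ₃) hα hβ hγ hδ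
    (by ring)
  obtain ⟨-, -, -, t5⟩ := hT (θ₂ - θ₁) (θ₃ - θ₂) (θ₀ + 2 * Real.pi - θ₃) (θ₁ - θ₀) hβ hγ hδ hα
    (by ring)
  rw [t3, min_comm (θ₃ - θ₂)] at t5
  refine ⟨hlow, hup, ?_, ?_, ?_⟩
  · obtain ⟨k, hk1, hk2⟩ := pow_bound (lt_min hα hγ) (lt_min hβ hδ) t4
    exact hk2.trans (hlow k hk1)
  · obtain ⟨k, hk1, hk2⟩ := pow_bound (lt_min hβ hδ) (lt_min hα hγ) t5
    have := hup k hk1
    linarith
  · rintro rfl rfl rfl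
    obtain ⟨e1, e2⟩ := hHex Ω P S lam hlam h z₀ R hR θ₀
    have e3 := ENNReal.toReal_mono (measure_ne_top _ _) e1
    have e4 := ENNReal.toReal_mono (by norm_num) e2
    rw [ENNReal.toReal_div] at e3 e4
    simp only [ENNReal.toReal_one, ENNReal.toReal_ofNat] at e3 e4
    refine ⟨?_, e3, e4, ?_⟩
    · have a1 : θ₀ + Real.pi / 3 - θ₀ = Real.pi / 3 := by ring
      have a2 : θ₀ + 2 * Real.pi / 3 - (θ₀ + Real.pi / 3) = Real.pi / 3 := by ring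
      have a3 : θ₀ + Real.pi - (θ₀ + 2 * Real.pi / 3) = Real.pi / 3 := by ring
      rw [a1, a2, a3, xr_third]
    · obtain ⟨n1, n2⟩ := hN
      rw [abs_le]
      constructor
      · linarith
      · linarith

end prob

end P148
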