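import Vale.Agent.P148.Props

/-!
# P148: the deterministic conditions hold almost surely
-/

open MeasureTheory Set Metric Topology Filter ProbabilityTheory
open scoped ENNReal NNReal

namespace P148

universe u

/-- The nearest point of a colour exists. -/
lemma exists_nearest {S : Set Pt} (h : Good S) (z : ℂ) (c : Bool) :
    ∃ v ∈ col S c, dist z v = infDist z (col S c) := by
  obtain ⟨v₀, hv₀⟩ := h.colours c
  set R : ℝ := ‖z‖ + dist z v₀ + 1 with hR
  have hfin : (col S c ∩ ball (0 : ℂ) R).Finite := by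
    have h1 := (h.locFin R).image Prod.fst
    refine h1.subset ?_
    rintro v ⟨hv, hvR⟩
    exact ⟨(v, c), ⟨hv, hvR, mem_univ _⟩, rfl⟩
  have hcl : IsClosed (col S c ∩ closedBall z (dist z v₀)) := by
    refine (hfin.subset ?_).isClosed
    rintro v ⟨hv, hvz⟩
    refine ⟨hv, ?_⟩
    rw [mem_ball_zero_iff]
    rw [mem_closedBall, dist_comm] at hvz
    have h1 : ‖v‖ ≤ ‖z‖ + dist z v := by
      rw [dist_eq_norm]
      have := norm_sub_norm_le v z
      rw [norm_sub_rev] at this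
      linarith
    rw [hR]
    linarith
  have hne : (col S c ∩ closedBall z (dist z v₀)).Nonempty :=
    ⟨v₀, hv₀, by rw [mem_closedBall, dist_comm]⟩
  obtain ⟨v, hv, hvd⟩ := hcl.exists_infDist_eq_dist hne z
  refine ⟨v, hv.1, ?_⟩
  refine le_antisymm ?_ (infDist_le_dist_of_mem hv.1)
  rw [le_infDist ⟨v₀, hv₀⟩]
  intro w hw
  rcases le_or_gt (dist z w) (dist z v₀) with hle | hlt
  · rw [← hvd]
    exact infDist_le_dist_of_mem ⟨hw, by rw [mem_closedBall, dist_comm]; exact hle⟩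
  · have h2 : dist z v ≤ dist z v₀ := by
      have := hv.2
      rw [mem_closedBall, dist_comm] at this
      exact this
    exact h2.trans hlt.le

lemma inj_two {v w : ℂ} (h : v ≠ w) : Function.Injective ![v, w] := by
  intro i j hij
  fin_cases i <;> fin_cases j
  · rfl
  · exact absurd hij h
  · exact absurd hij.symm h
  · rfl

lemma mem_two {v w : ℂ} {T : Set ℂ} (hv : v ∈ T) (hw : w ∈ T) (i : Fin 2) : (![v, w] i) ∈ T := by
  fin_cases i
  · exact hv
  · exact hw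

lemma col_subset_pts (S : Set Pt) (c : Bool) : col S c ⊆ pts S := fun v hv => ⟨(v, c), hv, rfl⟩

/-- Almost surely the configuration is good. -/
theorem asGood (hK : KPointStmt.{u}) (hC : ColoursStmt.{u}) (h4 : FourStmt)
    {Ω : Type u} [MeasurableSpace Ω] (P : Measure Ω) [IsProbabilityMeasure P] (S : Ω → Set Pt)
    (lam : ℝ≥0) (hl : 0 < lam) (hS : IsColouredPoisson P S lam) : ∀ᵐ ω ∂P, Good (S ω) := by
  filter_upwards [hK Ω P S lam hS 4 _ h4, hC Ω P S lam hl hS] with ω h1 h2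
  refine ⟨hS.locFin ω, hS.oneColour ω, fun c => h2 c, ?_⟩
  intro x hx hp hz
  exact h1 x hx hp ⟨hx, hz⟩

/-- Almost surely no corner lies on a bisector. -/
theorem asCorner (hK : KPointStmt.{u}) (h6 : CornerStmt)
    {Ω : Type u} [MeasurableSpace Ω] (P : Measure Ω) [IsProbabilityMeasure P] (S : Ω → Set Pt)
    (lam : ℝ≥0) (hS : IsColouredPoisson P S lam) (a : ℂ) :
    ∀ᵐ ω ∂P, Good (S ω) → gap (S ω) a ≠ 0 := by
  filter_upwards [hK Ω P S lam hS 2 _ (h6 a)] with ω h1 hG h0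
  obtain ⟨v, hv, hvd⟩ := exists_nearest hG a true
  obtain ⟨w, hw, hwd⟩ := exists_nearest hG a false
  have hne : v ≠ w := by
    rintro rfl
    exact hG.oneColour v ⟨hv, hw⟩
  refine h1 ![v, w] (inj_two hne) (mem_two (col_subset_pts _ _ hv) (col_subset_pts _ _ hw)) ?_
  change dist a v = dist a w
  rw [hvd, hwd]
  unfold gap at h0
  linarith

/-- A closed set `A`: almost surely, near every zero of `gap` in `A` both signs occur on `A`. -/
theorem asBd (hK : KPointStmt.{u}) (h2 : PairStmt) (hD : DensityStmt) (h3 : CircStmt)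
    (hB : BdStmt) {Ω : Type u} [MeasurableSpace Ω] (P : Measure Ω) [IsProbabilityMeasure P]
    (S : Ω → Set Pt) (lam : ℝ≥0) (hS : IsColouredPoisson P S lam) (A : Set ℂ) (hA : IsClosed A) :
    ∀ᵐ ω ∂P, Good (S ω) → ∀ z ∈ A, gap (S ω) z = 0 → ∀ r > 0,
      (∃ y ∈ A ∩ ball z r, gap (S ω) y < 0) ∧ (∃ y ∈ A ∩ ball z r, 0 < gap (S ω) y) := by
  obtain ⟨D, hDc, hDd⟩ := TopologicalSpace.exists_countable_dense ℂ
  have e1 : ∀ᵐ ω ∂P, ∀ c ∈ D, ∀ n : ℕ, ∀ x : Fin 2 → ℂ, Function.Injective x →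
      (∀ i, x i ∈ pts (S ω)) → x ∉ {x : Fin 2 → ℂ | x 0 ≠ x 1 ∧
        (∀ y ∈ A ∩ ball c (1 / ((n : ℝ) + 1)), 0 ≤ ell (x 0) (x 1) y) ∧
        ∀ ε > 0, ∃ y ∈ A ∩ ball c (1 / ((n : ℝ) + 1)), ell (x 0) (x 1) y < ε} := by
    rw [ae_ball_iff hDc]
    intro c _
    rw [ae_all_iff]
    intro n
    exact hK Ω P S lam hS 2 _ (h2 _ (isBounded_ball.subset inter_subset_right))
  have e2 := hK Ω P S lam hS 3 _ (h3 _ (hD A hA))
  filter_upwards [e1, e2] with ω f1 f2 hG z hz h0 r hr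
  by_contra hcon
  have hor : (∀ y ∈ A ∩ ball z r, 0 ≤ gap (S ω) y) ∨ (∀ y ∈ A ∩ ball z r, gap (S ω) y ≤ 0) := by
    by_contra hc
    push Not at hc
    exact hcon hc
  rcases hB (S ω) hG A hA z hz h0 r hr hor with ⟨v, hv, w, hw, hvw, hz0, r', hr', hy⟩ | ⟨hcf, x, hx, hp, hd⟩
  · obtain ⟨n, hn⟩ := exists_nat_one_div_lt (show (0 : ℝ) < r' / 2 by linarith)
    have hn0 : (0 : ℝ) < 1 / ((n : ℝ) + 1) := Nat.one_div_pos_of_nat
    obtain ⟨c, hcD, hcz⟩ := hDd.exists_dist_lt z hn0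
    refine f1 c hcD n ![v, w] (inj_two hvw) (mem_two hv hw) ⟨hvw, ?_, ?_⟩
    · rintro y ⟨hyA, hyc⟩
      change 0 ≤ ell v w y
      refine hy y ⟨hyA, ?_⟩
      rw [mem_ball] at hyc ⊢
      have := dist_triangle y c z
      rw [dist_comm c z] at this
      linarith
    · intro ε hε
      exact ⟨z, ⟨hz, by rw [mem_ball]; exact hcz⟩, by change ell v w z < ε; rw [hz0]; exact hε⟩
  · exact f2 x hx hp ⟨hx, z, hcf, hd⟩

end P148
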