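import Vale.Agent.P148.Glue

/-!
# P148: the assembly, deterministic part
-/

open MeasureTheory Set Metric Topology Filter ProbabilityTheory
open scoped ENNReal NNReal

namespace P148

universe u

/-! ### the gap function -/

lemma continuous_gap (S : Set Pt) : Continuous (gap S) :=
  (continuous_infDist_pt _).sub (continuous_infDist_pt _)

/-- A homeomorphism pulls back small neighbourhoods. -/
lemma exists_ball_sub (H : ℂ ≃ₜ ℂ) (p : ℂ) {δ : ℝ} (hδ : 0 < δ) :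
    ∃ r > 0, ball (H p) r ⊆ H '' ball p δ := by
  have h1 : IsOpen (H '' ball p δ) := H.isOpenMap _ isOpen_ball
  have h2 : H p ∈ H '' ball p δ := mem_image_of_mem _ (mem_ball_self hδ)
  exact Metric.isOpen_iff.1 h1 _ h2

lemma tameBd_comp (Q : Quad) {G : ℂ → ℝ} (h : ∀ i, ∀ z ∈ Q.arc i, G z = 0 → ∀ r > 0,
    (∃ y ∈ Q.arc i ∩ ball z r, G y < 0) ∧ ∃ y ∈ Q.arc i ∩ ball z r, 0 < G y) :
    TameBd fun p => G (Q.H p) := by
  intro i p hp h0 δ hδ
  obtain ⟨r, hr, hsub⟩ := exists_ball_sub Q.H p hδ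
  have key : ∀ y ∈ Q.arc i ∩ ball (Q.H p) r, ∃ q ∈ side i, dist q p < δ ∧ Q.H q = y := by
    rintro y ⟨⟨q, hq, rfl⟩, hy⟩
    obtain ⟨q', hq', he⟩ := hsub hy
    have : q' = q := Q.H.injective he
    subst this
    exact ⟨q', hq, hq', rfl⟩
  obtain ⟨⟨y, hy, hy0⟩, ⟨y', hy', hy0'⟩⟩ := h i (Q.H p) (mem_image_of_mem _ hp) h0 r hr
  obtain ⟨q, hq, hqd, rfl⟩ := key y hy
  obtain ⟨q', hq', hqd', rfl⟩ := key y' hy'
  exact ⟨⟨q, hq, hqd, hy0⟩, ⟨q', hq', hqd', hy0'⟩⟩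

lemma tame_comp (Q : Quad) {G : ℂ → ℝ} (h : Tame G) : Tame fun p => G (Q.H p) := by
  intro p h0 δ hδ
  obtain ⟨r, hr, hsub⟩ := exists_ball_sub Q.H p hδ
  obtain ⟨N, hN, hpN, hNb, hc1, hc2, hcl1, hcl2⟩ := h (Q.H p) h0 r hr
  have him : ∀ T : Set ℂ, Q.H ⁻¹' T = Q.H.symm '' T := by
    intro T
    rw [← Q.H.symm_symm, Homeomorph.preimage_symm, Q.H.symm_symm]
  refine ⟨Q.H ⁻¹' N, hN.preimage Q.H.continuous, hpN, ?_, ?_, ?_, ?_, ?_⟩
  · intro q hq
    obtain ⟨q', hq', he⟩ := hsub (hNb hq)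
    have : q' = q := Q.H.injective he
    subst this
    exact hq'
  · have : Q.H ⁻¹' N ∩ {z | G (Q.H z) < 0} = Q.H ⁻¹' (N ∩ {z | G z < 0}) := rfl
    rw [this, him]
    exact hc1.image _ Q.H.symm.continuous.continuousOn
  · have : Q.H ⁻¹' N ∩ {z | 0 < G (Q.H z)} = Q.H ⁻¹' (N ∩ {z | 0 < G z}) := rfl
    rw [this, him]
    exact hc2.image _ Q.H.symm.continuous.continuousOn
  · have : {z | G (Q.H z) < 0} = Q.H ⁻¹' {z | G z < 0} := rfl
    rw [this, ← Q.H.preimage_closure]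
    exact hcl1
  · have : {z | 0 < G (Q.H z)} = Q.H ⁻¹' {z | 0 < G z} := rfl
    rw [this, ← Q.H.preimage_closure]
    exact hcl2

/-! ### the square -/

lemma closure_osq : closure {z : ℂ | |z.re| < 1 ∧ |z.im| < 1} = sq := by
  have h1 : {z : ℂ | |z.re| < 1 ∧ |z.im| < 1} = Ioo (-1) 1 ×ℂ Ioo (-1) 1 := by
    ext z
    simp only [mem_ofPred_eq, Complex.mem_reProdIm, mem_Ioo, abs_lt]
  have h2 : sq = Icc (-1) 1 ×ℂ Icc (-1) 1 := by
    ext z
    simp only [sq, mem_ofPred_eq, Complex.mem_reProdIm, mem_Icc, abs_le]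
  rw [h1, h2, Complex.closure_reProdIm, closure_Ioo (by norm_num)]

lemma isClosed_sq : IsClosed sq := by
  rw [← closure_osq]
  exact isClosed_closure

lemma isCompact_sq : IsCompact sq := by
  have h2 : sq = Icc (-1) 1 ×ℂ Icc (-1) 1 := by
    ext z
    simp only [sq, mem_ofPred_eq, Complex.mem_reProdIm, mem_Icc, abs_le]
  rw [h2]
  exact isCompact_Icc.reProdIm isCompact_Icc

lemma isClosed_side (i : Fin 4) : IsClosed (side i) := by
  have hr : IsClosed {z : ℂ | |z.re| ≤ 1} :=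
    isClosed_le (continuous_abs.comp Complex.continuous_re) continuous_const
  have hi : IsClosed {z : ℂ | |z.im| ≤ 1} :=
    isClosed_le (continuous_abs.comp Complex.continuous_im) continuous_const
  fin_cases i
  · exact hr.inter (isClosed_eq Complex.continuous_im continuous_const)
  · exact (isClosed_eq Complex.continuous_re continuous_const).inter hi
  · exact hr.inter (isClosed_eq Complex.continuous_im continuous_const)
  · exact (isClosed_eq Complex.continuous_re continuous_const).inter hi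

lemma side_subset (i : Fin 4) : side i ⊆ sq := by
  fin_cases i
  · rintro z ⟨h1, h2⟩
    exact ⟨h1, by rw [h2]; simp⟩
  · rintro z ⟨h1, h2⟩
    exact ⟨by rw [h1]; simp, h2⟩
  · rintro z ⟨h1, h2⟩
    exact ⟨h1, by rw [h2]; simp⟩
  · rintro z ⟨h1, h2⟩
    exact ⟨by rw [h1]; simp, h2⟩

lemma isCompact_side (i : Fin 4) : IsCompact (side i) :=
  isCompact_sq.of_isClosed_subset (isClosed_side i) (side_subset i)

namespace Quad

variable (Q : Quad)

lemma closure_D : closure Q.D = Q.H '' sq := by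
  rw [Quad.D, ← Q.H.image_closure, closure_osq]

lemma isCompact_closure : IsCompact (closure Q.D) := by
  rw [Q.closure_D]
  exact isCompact_sq.image Q.H.continuous

lemma isCompact_arc (i : Fin 4) : IsCompact (Q.arc i) := (isCompact_side i).image Q.H.continuous

lemma isClosed_arc (i : Fin 4) : IsClosed (Q.arc i) := (Q.isCompact_arc i).isClosed

lemma arc_subset (i : Fin 4) : Q.arc i ⊆ closure Q.D := by
  rw [Q.closure_D]
  exact image_mono (side_subset i)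

/-- Crossings of a quad are crossings of the square. -/
lemma cross_iff (i j : Fin 4) (R : Set ℂ) : Q.Cross i j R ↔
    ∃ K ⊆ Q.H ⁻¹' R ∩ sq, IsConnected K ∧ (K ∩ side i).Nonempty ∧ (K ∩ side j).Nonempty := by
  constructor
  · rintro ⟨K, hK, hc, ⟨x, hx, a, ha, rfl⟩, ⟨y, hy, b, hb, rfl⟩⟩
    refine ⟨Q.H.symm '' K, ?_, hc.image _ Q.H.symm.continuous.continuousOn,
      ⟨a, ⟨_, hx, by simp⟩, ha⟩, ⟨b, ⟨_, hy, by simp⟩, hb⟩⟩
    rintro _ ⟨z, hz, rfl⟩
    have h1 := hK hz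
    rw [Q.closure_D] at h1
    obtain ⟨w, hw, he⟩ := h1.2
    refine ⟨?_, ?_⟩
    · rw [mem_preimage, Homeomorph.apply_symm_apply]
      exact h1.1
    · rw [← he, Homeomorph.symm_apply_apply]
      exact hw
  · rintro ⟨K, hK, hc, ⟨x, hx, hx'⟩, ⟨y, hy, hy'⟩⟩
    refine ⟨Q.H '' K, ?_, hc.image _ Q.H.continuous.continuousOn,
      ⟨Q.H x, mem_image_of_mem _ hx, mem_image_of_mem _ hx'⟩,
      ⟨Q.H y, mem_image_of_mem _ hy, mem_image_of_mem _ hy'⟩⟩
    rintro _ ⟨z, hz, rfl⟩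
    refine ⟨(hK hz).1, ?_⟩
    rw [Q.closure_D]
    exact mem_image_of_mem _ (hK hz).2

lemma cross_symm (i j : Fin 4) (R : Set ℂ) : Q.Cross i j R ↔ Q.Cross j i R := by
  constructor
  · rintro ⟨K, h1, h2, h3, h4⟩
    exact ⟨K, h1, h2, h4, h3⟩
  · rintro ⟨K, h1, h2, h3, h4⟩
    exact ⟨K, h1, h2, h4, h3⟩

end Quad

/-- The exact dichotomy for a tame function. -/
theorem cross_dichotomy (hT2 : DualStmt) (hT3 : NotBothStmt) (Q : Quad) {G : ℂ → ℝ}
    (hG : Continuous G) (hT : Tame G)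
    (hB : ∀ i, ∀ z ∈ Q.arc i, G z = 0 → ∀ r > 0,
      (∃ y ∈ Q.arc i ∩ ball z r, G y < 0) ∧ ∃ y ∈ Q.arc i ∩ ball z r, 0 < G y)
    (hC : ∀ i, G (Q.mark i) ≠ 0) :
    Q.Cross 1 3 {z | 0 ≤ G z} ↔ ¬ Q.Cross 0 2 {z | G z ≤ 0} := by
  have hcont : Continuous fun p => G (Q.H p) := hG.comp Q.H.continuous
  rw [Q.cross_iff, Q.cross_iff]
  constructor
  · intro h1 h2
    exact hT3 (fun p => G (Q.H p)) hcont (tame_comp Q hT) (tameBd_comp Q hB) hC h2 h1
  · intro h1
    rcases hT2 {p | G (Q.H p) ≤ 0} {p | 0 ≤ G (Q.H p)} (isClosed_le hcont continuous_const)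
      (isClosed_le continuous_const hcont) (fun p _ => le_total (G (Q.H p)) 0) with h | h
    · exact absurd h h1
    · exact h

end P148
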