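import Vale.Agent.P148.Props2

/-!
# P148, row X1: the Harris inequality for the pixelized configuration
-/

open MeasureTheory Set Metric Topology Filter ProbabilityTheory
open scoped ENNReal NNReal

namespace P148

universe u

namespace HarrisAux

/-- The pixel boxes. -/
abbrev Ix (k : ℕ) : Type := {m : ℤ × ℤ // m ∈ window k} × Bool

/-- The numbering of the boxes. -/
noncomputable def en (k : ℕ) : Fin (Fintype.card (Ix k)) ≃ Ix k := (Fintype.equivFin (Ix k)).symm

/-- The box. -/
def box (k : ℕ) (i : Ix k) : Set Pt := pixel k i.1.1 ×ˢ {i.2}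

theorem measurableSet_pixel (k : ℕ) (m : ℤ × ℤ) : MeasurableSet (pixel k m) := by
  have h1 : Measurable fun z : ℂ => ⌊z.re * 2 ^ k⌋ :=
    Int.measurable_floor.comp (Complex.measurable_re.mul_const _)
  have h2 : Measurable fun z : ℂ => ⌊z.im * 2 ^ k⌋ :=
    Int.measurable_floor.comp (Complex.measurable_im.mul_const _)
  exact (h1 (measurableSet_singleton m.1)).inter (h2 (measurableSet_singleton m.2))

theorem measurableSet_box (k : ℕ) (i : Ix k) : MeasurableSet (box k i) :=
  (measurableSet_pixel k i.1.1).prod (measurableSet_singleton i.2)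

theorem bdd_box (k : ℕ) (i : Ix k) : Bdd (box k i) := by
  refine ⟨|(i.1.1.1 : ℝ)| + |(i.1.1.2 : ℝ)| + 3, fun q hq => ⟨?_, mem_univ _⟩⟩
  obtain ⟨h1, h2⟩ := (hq.1 : q.1 ∈ pixel k i.1.1)
  have h2k : (1 : ℝ) ≤ 2 ^ k := one_le_pow₀ (by norm_num)
  have key : ∀ (x : ℝ) (n : ℤ), ⌊x * 2 ^ k⌋ = n → |x| ≤ |(n : ℝ)| + 1 := by
    intro x n h
    rw [Int.floor_eq_iff] at h
    have h3 : |x * 2 ^ k| ≤ |(n : ℝ)| + 1 := by
      rw [abs_le]
      constructor
      · have := neg_abs_le (n : ℝ)
        linarith [h.1]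
      · have := le_abs_self (n : ℝ)
        linarith [h.2]
    calc |x| = |x| * 1 := (mul_one _).symm
      _ ≤ |x| * 2 ^ k := mul_le_mul_of_nonneg_left h2k (abs_nonneg _)
      _ = |x * 2 ^ k| := by rw [abs_mul, abs_of_pos (by positivity : (0 : ℝ) < 2 ^ k)]
      _ ≤ _ := h3
  have h3 := key _ _ h1
  have h4 := key _ _ h2
  rw [mem_ball_zero_iff]
  have h5 := Complex.norm_le_abs_re_add_abs_im q.1
  linarith

theorem disjoint_box (k : ℕ) {i j : Ix k} (h : i ≠ j) : Disjoint (box k i) (box k j) := by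
  rw [Set.disjoint_left]
  rintro q ⟨⟨h1, h2⟩, h3⟩ ⟨⟨h4, h5⟩, h6⟩
  apply h
  refine Prod.ext (Subtype.ext (Prod.ext ?_ ?_)) ?_
  · exact h1.symm.trans h4
  · exact h2.symm.trans h5
  · exact (mem_singleton_iff.mp h3).symm.trans (mem_singleton_iff.mp h6)

/-- The configuration of a vector. -/
def conf (k : ℕ) (x : Fin (Fintype.card (Ix k)) → Bool) : Set Pt :=
  {q | ∃ j, q = (pixPt k (en k j).1.1, (en k j).2) ∧ x j = (en k j).2}

theorem conf_mono {k : ℕ} {F : Set (Set Pt)} (hF : Incr F) {x y : Fin (Fintype.card (Ix k)) → Bool}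
    (h : x ≤ y) (hx : conf k x ∈ F) : conf k y ∈ F := by
  refine hF _ _ ?_ ?_ hx
  · rintro v ⟨j, h1, h2⟩
    refine ⟨j, h1, ?_⟩
    have h3 : (en k j).2 = true := (congrArg Prod.snd h1).symm
    rw [h3] at h2 ⊢
    have := h j
    rw [h2] at this
    exact top_le_iff.mp this
  · rintro v ⟨j, h1, h2⟩
    refine ⟨j, h1, ?_⟩
    have h3 : (en k j).2 = false := (congrArg Prod.snd h1).symm
    rw [h3] at h2 ⊢
    have := h j
    rw [h2] at this
    exact le_bot_iff.mp this

/-- The bit of a box from its number of points. -/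
def bit (c : Bool) (n : ℕ) : Bool := if n = 0 then !c else c

theorem bit_eq (c : Bool) (n : ℕ) : bit c n = c ↔ n ≠ 0 := by
  unfold bit
  cases c <;> split_ifs with h <;> simp [h]

/-- The vector of a point process. -/
noncomputable def vec {Ω : Type u} (S : Ω → Set Pt) (k : ℕ) (j : Fin (Fintype.card (Ix k)))
    (ω : Ω) : Bool :=
  bit (en k j).2 (S ω ∩ box k (en k j)).ncard

section
variable {Ω : Type u} [MeasurableSpace Ω] {P : Measure Ω} [IsProbabilityMeasure P]
  {S : Ω → Set Pt} {lam : ℝ≥0}

theorem pix_eq (h : IsColouredPoisson P S lam) (k : ℕ) (ω : Ω) :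
    pix k (S ω) = conf k (fun j => vec S k j ω) := by
  have hfin : ∀ i : Ix k, (S ω ∩ box k i).Finite := by
    intro i
    obtain ⟨r, hr⟩ := bdd_box k i
    exact (h.locFin ω r).subset (inter_subset_inter_right _ hr)
  ext q
  constructor
  · rintro ⟨m, hm, h1, h2⟩
    refine ⟨(en k).symm (⟨m, hm⟩, q.2), ?_, ?_⟩
    · rw [Equiv.apply_symm_apply]
      exact Prod.ext h1 rfl
    · show bit _ _ = _
      rw [bit_eq, Equiv.apply_symm_apply]
      have : (S ω ∩ box k (⟨m, hm⟩, q.2)).Nonempty := h2
      rw [Ne, Set.ncard_eq_zero (hfin _)]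
      exact this.ne_empty
  · rintro ⟨j, h1, h2⟩
    have h3 : bit (en k j).2 (S ω ∩ box k (en k j)).ncard = (en k j).2 := h2
    rw [bit_eq, Ne, Set.ncard_eq_zero (hfin _)] at h3
    refine ⟨(en k j).1.1, (en k j).1.2, congrArg Prod.fst h1, ?_⟩
    have h4 : q.2 = (en k j).2 := congrArg Prod.snd h1
    rw [h4]
    exact Set.nonempty_iff_ne_empty.mpr h3

theorem measurable_vec (h : IsColouredPoisson P S lam) (k : ℕ) (j : Fin (Fintype.card (Ix k))) :
    Measurable (vec S k j) :=
  (measurable_of_countable (bit (en k j).2)).comp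
    (h.meas _ (measurableSet_box k _) (bdd_box k _))

theorem indep_vec (h : IsColouredPoisson P S lam) (k : ℕ) : iIndepFun (vec S k) P := by
  have h1 := h.indep (Fintype.card (Ix k)) (fun j => box k (en k j))
    (fun j => measurableSet_box k _) (fun j => bdd_box k _)
    (fun i j hij => disjoint_box k fun e => hij ((en k).injective e))
  exact h1.comp (fun j => bit (en k j).2) fun j => measurable_of_countable _

/-- The weight of a bit. -/
noncomputable def wt (P : Measure Ω) (S : Ω → Set Pt) (k : ℕ) (j : Fin (Fintype.card (Ix k)))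
    (b : Bool) : ℝ := P.real {ω | vec S k j ω = b}

theorem prob_vec (h : IsColouredPoisson P S lam) (k : ℕ) (x : Fin (Fintype.card (Ix k)) → Bool) :
    P.real {ω | (fun j => vec S k j ω) = x} = ∏ j, wt P S k j (x j) := by
  have h1 : P {ω | (fun j => vec S k j ω) = x} = ∏ j, P {ω | vec S k j ω = x j} := by
    have h2 := (iIndepFun_iff_map_fun_eq_pi_map
      (fun j => (measurable_vec h k j).aemeasurable)).mp (indep_vec h k)
    have h3 : P.map (fun ω j => vec S k j ω) {x} = ∏ j, P.map (vec S k j) {x j} := by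
      rw [h2, Measure.pi_singleton]
    rw [Measure.map_apply (measurable_pi_lambda _ fun j => measurable_vec h k j)
      (measurableSet_singleton x)] at h3
    rw [show {ω | (fun j => vec S k j ω) = x} = (fun ω j => vec S k j ω) ⁻¹' {x} from rfl, h3]
    refine Finset.prod_congr rfl fun j _ => ?_
    rw [Measure.map_apply (measurable_vec h k j) (measurableSet_singleton _)]
    rfl
  rw [Measure.real, h1, ENNReal.toReal_prod]
  rfl

theorem prob_conf (h : IsColouredPoisson P S lam) (k : ℕ) (F : Set (Set Pt)) :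
    MeasurableSet {ω | pix k (S ω) ∈ F} ∧ P.real {ω | pix k (S ω) ∈ F} =
      ∑ x : Fin (Fintype.card (Ix k)) → Bool, (∏ j, wt P S k j (x j)) *
        Set.indicator {x | conf k x ∈ F} 1 x := by
  classical
  have hv : Measurable (fun ω j => vec S k j ω) := measurable_pi_lambda _ fun j =>
    measurable_vec h k j
  have e : {ω | pix k (S ω) ∈ F} = (fun ω j => vec S k j ω) ⁻¹' {x | conf k x ∈ F} := by
    ext ω
    show pix k (S ω) ∈ F ↔ conf k (fun j => vec S k j ω) ∈ F
    rw [pix_eq h]
  have hms : ∀ A : Set (Fin (Fintype.card (Ix k)) → Bool), MeasurableSet A := fun A =>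
    A.toFinite.measurableSet
  refine ⟨e ▸ hv (hms _), ?_⟩
  have h1 : {ω | pix k (S ω) ∈ F} = ⋃ x ∈ (Finset.univ.filter fun x => conf k x ∈ F :
      Finset (Fin (Fintype.card (Ix k)) → Bool)), {ω | (fun j => vec S k j ω) = x} := by
    rw [e]
    ext ω
    simp
  rw [h1, measureReal_biUnion_finset]
  · rw [Finset.sum_filter]
    refine Finset.sum_congr rfl fun x _ => ?_
    by_cases hx : conf k x ∈ F
    · rw [if_pos hx, prob_vec h, Set.indicator_of_mem (show x ∈ {x | conf k x ∈ F} from hx)]
      simp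
    · rw [if_neg hx, Set.indicator_of_notMem (show x ∉ {x | conf k x ∈ F} from hx), mul_zero]
  · intro x _ y _ hxy
    rw [Function.onFun, Set.disjoint_left]
    rintro ω h2 h3
    exact hxy (h2.symm.trans h3)
  · intro x _
    exact hv (measurableSet_singleton x)

end

end HarrisAux

open HarrisAux in
/-- **Row X1**: the Harris inequality for the pixelized configuration. -/
theorem harris : HarrisStmt.{u} := by
  intro Ω _ P _ S lam h k F F' hF hF'
  classical
  refine ⟨(prob_conf h k F).1, ?_⟩
  have key : P.real {ω | pix k (S ω) ∈ F} * P.real {ω | pix k (S ω) ∈ F'} ≤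
      P.real {ω | pix k (S ω) ∈ F ∩ F'} := by
    rw [(prob_conf h k F).2, (prob_conf h k F').2, (prob_conf h k (F ∩ F')).2]
    have hw : ∀ j b, 0 ≤ wt P S k j b := fun j b => measureReal_nonneg
    have hone : ∑ x : Fin (Fintype.card (Ix k)) → Bool, ∏ j, wt P S k j (x j) = 1 := by
      have h1 := (prob_conf h k univ).2
      have h2 : {ω | pix k (S ω) ∈ (univ : Set (Set Pt))} = univ := by ext; simp
      rw [h2, probReal_univ] at h1
      rw [h1]
      refine Finset.sum_congr rfl fun x _ => ?_
      simp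
    have hmono : ∀ G : Set (Set Pt), Incr G →
        Monotone (Set.indicator {x : Fin (Fintype.card (Ix k)) → Bool | conf k x ∈ G}
          (1 : (Fin (Fintype.card (Ix k)) → Bool) → ℝ)) := by
      intro G hG x y hxy
      by_cases hx : conf k x ∈ G
      · rw [Set.indicator_of_mem (show x ∈ {x | conf k x ∈ G} from hx),
          Set.indicator_of_mem (show y ∈ {x | conf k x ∈ G} from conf_mono hG hxy hx)]
        exact le_rfl
      · rw [Set.indicator_of_notMem (show x ∉ {x | conf k x ∈ G} from hx)]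
        exact Set.indicator_nonneg (fun _ _ => zero_le_one) _
    have hf := fkg (μ := fun x : Fin (Fintype.card (Ix k)) → Bool => ∏ j, wt P S k j (x j))
      (f := Set.indicator {x | conf k x ∈ F} 1) (g := Set.indicator {x | conf k x ∈ F'} 1)
      (fun x => Finset.prod_nonneg fun j _ => hw j _)
      (fun x => Set.indicator_nonneg (fun _ _ => zero_le_one) _)
      (fun x => Set.indicator_nonneg (fun _ _ => zero_le_one) _)
      (hmono F hF) (hmono F' hF') (fun a b => by
        rw [← Finset.prod_mul_distrib, ← Finset.prod_mul_distrib]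
        refine Finset.prod_le_prod (fun j _ => mul_nonneg (hw _ _) (hw _ _)) fun j _ => ?_
        have e1 : (a ⊓ b) j = a j ⊓ b j := rfl
        have e2 : (a ⊔ b) j = a j ⊔ b j := rfl
        rw [e1, e2]
        rcases le_total (a j) (b j) with hab | hab
        · rw [inf_eq_left.mpr hab, sup_eq_right.mpr hab]
        · rw [inf_eq_right.mpr hab, sup_eq_left.mpr hab, mul_comm])
    rw [hone, one_mul] at hf
    refine hf.trans (le_of_eq (Finset.sum_congr rfl fun x _ => ?_))
    congr 1
    rw [show {x : Fin (Fintype.card (Ix k)) → Bool | conf k x ∈ F ∩ F'} =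
      {x | conf k x ∈ F} ∩ {x | conf k x ∈ F'} from rfl, Set.inter_indicator_one]
    rfl
  have hfin : ∀ A : Set Ω, P A ≠ ⊤ := fun A => measure_ne_top P A
  rw [← ENNReal.toReal_le_toReal (ENNReal.mul_ne_top (hfin _) (hfin _)) (hfin _),
    ENNReal.toReal_mul]
  exact key

end P148
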