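import Vale.Agent.P148.Inv

/-!
# P148, row P2: no `k` points of the process in a null set; both colours occur
-/

open MeasureTheory Set Metric Topology Filter ProbabilityTheory
open scoped ENNReal NNReal

namespace P148

theorem fair_univ : fair univ = 1 := by
  rw [fair, Measure.smul_apply, Measure.count_apply_finite univ finite_univ, smul_eq_mul]
  simp only [Finite.toFinset_univ, Finset.card_univ, Fintype.card_bool, Nat.cast_ofNat]
  exact ENNReal.inv_mul_cancel (by norm_num) (by norm_num)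

theorem fair_singleton (c : Bool) : fair {c} = 2⁻¹ := by
  rw [fair, Measure.smul_apply, Measure.count_singleton, smul_eq_mul, mul_one]

theorem inten_prod (lam : ℝ≥0) (B : Set ℂ) (C : Set Bool) :
    inten lam (B ×ˢ C) = lam * (volume B * fair C) := by
  rw [inten, Measure.smul_apply, Measure.prod_prod]
  rfl

/-- P3. -/
theorem colours : ColoursStmt := by
  intro Ω _ P _ S lam hlam h
  rw [ae_all_iff]
  intro c
  have key : ∀ n : ℕ, P {ω | ¬ ∃ v : ℂ, (v, c) ∈ S ω} ≤
      ENNReal.ofReal (Real.exp (-((lam : ℝ) * Real.pi * 2⁻¹ * (n : ℝ) ^ 2))) := by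
    intro n
    have hA : MeasurableSet (ball (0 : ℂ) n ×ˢ ({c} : Set Bool)) :=
      isOpen_ball.measurableSet.prod MeasurableSet.of_discrete
    have hB : Bdd (ball (0 : ℂ) n ×ˢ ({c} : Set Bool)) := ⟨n, prod_mono_right (subset_univ _)⟩
    have hv : (inten lam (ball (0 : ℂ) n ×ˢ ({c} : Set Bool))).toNNReal =
        lam * NNReal.pi * 2⁻¹ * (n : ℝ≥0) ^ 2 := by
      rw [inten_prod, fair_singleton, Complex.volume_ball, ENNReal.ofReal_natCast,
        ENNReal.toNNReal_mul, ENNReal.toNNReal_mul, ENNReal.toNNReal_mul, ENNReal.toNNReal_pow,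
        ENNReal.toNNReal_coe, ENNReal.toNNReal_coe, ENNReal.toNNReal_natCast, ENNReal.toNNReal_inv]
      simp only [ENNReal.toNNReal_ofNat]
      ring
    calc P {ω | ¬ ∃ v : ℂ, (v, c) ∈ S ω}
        ≤ P {ω | S ω ∩ (ball (0 : ℂ) n ×ˢ ({c} : Set Bool)) = ∅} := by
          apply measure_mono
          intro ω hω
          simp only [mem_ofPred_eq] at hω ⊢
          rw [eq_empty_iff_forall_notMem]
          rintro ⟨v, c'⟩ ⟨hv1, hv2⟩
          have hc : c' = c := hv2.2
          subst hc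
          exact hω ⟨v, hv1⟩
      _ = ENNReal.ofReal (Real.exp (-((lam : ℝ) * Real.pi * 2⁻¹ * (n : ℝ) ^ 2))) := by
          rw [h.void_prob hA hB, poissonMeasure_singleton, hv]
          simp
  have hlim : Tendsto (fun n : ℕ => ENNReal.ofReal
      (Real.exp (-((lam : ℝ) * Real.pi * 2⁻¹ * (n : ℝ) ^ 2)))) atTop (𝓝 0) := by
    rw [← ENNReal.ofReal_zero]
    refine (ENNReal.continuous_ofReal.tendsto 0).comp ?_
    refine Real.tendsto_exp_neg_atTop_nhds_zero.comp ?_
    refine Tendsto.const_mul_atTop (by positivity) ?_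
    exact (tendsto_pow_atTop (two_ne_zero)).comp tendsto_natCast_atTop_atTop
  have h0 : P {ω | ¬ ∃ v : ℂ, (v, c) ∈ S ω} = 0 :=
    le_antisymm (ge_of_tendsto' hlim key) zero_le
  exact h0

variable {Ω : Type*} [MeasurableSpace Ω] {P : Measure Ω} {S : Ω → Set Pt} {lam : ℝ≥0}

theorem IsColouredPoisson.hit_prob [IsProbabilityMeasure P] (h : IsColouredPoisson P S lam)
    {A : Set Pt} (hm : MeasurableSet A) (hA : Bdd A) :
    P ((fun ω => (S ω ∩ A).ncard) ⁻¹' {0}ᶜ) ≤ inten lam A := by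
  rw [preimage_compl, prob_compl_eq_one_sub ((h.meas A hm hA) MeasurableSet.of_discrete),
    ← h.void_eq hA, h.void_prob hm hA, poissonMeasure_singleton]
  set r := (inten lam A).toNNReal with hr
  have h1 : (1 : ℝ≥0∞) ≤ ENNReal.ofReal (Real.exp (-(r : ℝ)) * (r : ℝ) ^ 0 / (Nat.factorial 0 : ℝ))
      + r := by
    rw [← ENNReal.ofReal_coe_nnreal, ← ENNReal.ofReal_add (by positivity) (by positivity),
      ← ENNReal.ofReal_one]
    apply ENNReal.ofReal_le_ofReal
    have := Real.add_one_le_exp (-(r : ℝ))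
    simp only [pow_zero, mul_one, Nat.factorial_zero, Nat.cast_one, div_one]
    linarith
  calc 1 - ENNReal.ofReal (Real.exp (-(r : ℝ)) * (r : ℝ) ^ 0 / (Nat.factorial 0 : ℝ))
      ≤ (r : ℝ≥0∞) := tsub_le_iff_left.2 h1
    _ ≤ _ := ENNReal.coe_toNNReal_le_self

theorem IsColouredPoisson.box_prob [IsProbabilityMeasure P] (h : IsColouredPoisson P S lam)
    {k : ℕ} (B : Fin k → Set ℂ) (hB : ∀ i, MeasurableSet (B i)) {r : ℝ}
    (hr : ∀ i, B i ⊆ ball 0 r) (hd : Pairwise (fun i j => Disjoint (B i) (B j))) :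
    P {ω | ∀ i, (B i ∩ pts (S ω)).Nonempty} ≤ (lam : ℝ≥0∞) ^ k * ∏ i, volume (B i) := by
  have hm : ∀ i, MeasurableSet (B i ×ˢ (univ : Set Bool)) := fun i => (hB i).prod MeasurableSet.univ
  have hb : ∀ i, Bdd (B i ×ˢ (univ : Set Bool)) := fun i => ⟨r, prod_mono_left (hr i)⟩
  have hi := (h.indep k (fun i => B i ×ˢ (univ : Set Bool)) hm hb
    (fun i j hij => (hd hij).set_prod_left _ _)).measure_inter_preimage_eq_mul Finset.univ
    (sets := fun _ => {0}ᶜ) (fun _ _ => MeasurableSet.of_discrete)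
  calc P {ω | ∀ i, (B i ∩ pts (S ω)).Nonempty}
      ≤ P (⋂ i ∈ (Finset.univ : Finset (Fin k)),
          (fun ω => (S ω ∩ (B i ×ˢ (univ : Set Bool))).ncard) ⁻¹' {0}ᶜ) := by
        apply measure_mono
        intro ω hω
        simp only [mem_iInter]
        intro i _
        obtain ⟨x, hx, ⟨⟨y, c⟩, hy, rfl⟩⟩ := hω i
        have hne : (S ω ∩ (B i ×ˢ (univ : Set Bool))).Nonempty := ⟨(y, c), hy, hx, mem_univ _⟩
        intro h0
        rw [mem_singleton_iff, Set.ncard_eq_zero (h.finite_inter ω (hb i))] at h0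
        exact hne.ne_empty h0
    _ = ∏ i, P ((fun ω => (S ω ∩ (B i ×ˢ (univ : Set Bool))).ncard) ⁻¹' {0}ᶜ) := hi
    _ ≤ ∏ i, ((lam : ℝ≥0∞) * volume (B i)) := by
        apply Finset.prod_le_prod' 
        intro i _
        refine (h.hit_prob (hm i) (hb i)).trans_eq ?_
        rw [inten_prod, fair_univ, mul_one]
    _ = (lam : ℝ≥0∞) ^ k * ∏ i, volume (B i) := by
        rw [Finset.prod_mul_distrib, Finset.prod_const, Finset.card_univ, Fintype.card_fin]

/-- A null set of `k + 1` tuples is covered by countably many measurable boxes of small total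
volume. -/
theorem exists_boxes {k : ℕ} (N : Set (Fin (k + 1) → ℂ)) (hN : volume N = 0) {δ : ℝ≥0∞}
    (hδ : 0 < δ) : ∃ B : ℕ → Fin (k + 1) → Set ℂ, (∀ n i, MeasurableSet (B n i)) ∧
      N ⊆ (⋃ n, univ.pi (B n)) ∧ ∑' n, ∏ i, volume (B n i) < δ := by
  have h1 : OuterMeasure.pi (fun _ : Fin (k + 1) => (volume : Measure ℂ).toOuterMeasure) N = 0 := by
    have h2 : OuterMeasure.pi (fun _ : Fin (k + 1) => (volume : Measure ℂ).toOuterMeasure) N ≤
        (Measure.pi fun _ : Fin (k + 1) => (volume : Measure ℂ)) N := by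
      rw [Measure.pi]
      exact le_toMeasure_apply _ _ _
    exact le_antisymm (h2.trans_eq hN) zero_le
  rw [OuterMeasure.pi, OuterMeasure.boundedBy_apply] at h1
  have h3 : (⨅ (t : ℕ → Set (Fin (k + 1) → ℂ)) (_ : N ⊆ iUnion t),
      ∑' n, ⨆ _ : (t n).Nonempty,
        piPremeasure (fun _ : Fin (k + 1) => (volume : Measure ℂ).toOuterMeasure) (t n)) < δ := by
    rw [h1]; exact hδ
  rw [iInf_lt_iff] at h3
  obtain ⟨t, ht⟩ := h3
  rw [iInf_lt_iff] at ht
  obtain ⟨hNt, ht⟩ := ht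
  refine ⟨fun n i => toMeasurable volume (Function.eval i '' t n),
    fun n i => measurableSet_toMeasurable _ _, ?_, ?_⟩
  · intro x hx
    obtain ⟨n, hn⟩ := mem_iUnion.1 (hNt hx)
    refine mem_iUnion.2 ⟨n, fun i _ => subset_toMeasurable _ _ ⟨x, hn, rfl⟩⟩
  · refine lt_of_le_of_lt (ENNReal.tsum_le_tsum fun n => ?_) ht
    rcases (t n).eq_empty_or_nonempty with h0 | h0
    · rw [Finset.prod_eq_zero (Finset.mem_univ 0)]
      · exact zero_le
      · rw [measure_toMeasurable, h0, image_empty, measure_empty]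
    · rw [iSup_pos h0, piPremeasure]
      apply le_of_eq
      refine Finset.prod_congr rfl fun i _ => ?_
      rw [measure_toMeasurable]
      rfl

/-- No point of a null set has its coordinates in the process, in given disjoint bounded boxes. -/
theorem IsColouredPoisson.box_null [IsProbabilityMeasure P] (h : IsColouredPoisson P S lam)
    {k : ℕ} (V : Fin (k + 1) → Set ℂ) (hV : ∀ i, MeasurableSet (V i)) {r : ℝ}
    (hr : ∀ i, V i ⊆ ball 0 r) (hd : Pairwise (fun i j => Disjoint (V i) (V j)))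
    (N : Set (Fin (k + 1) → ℂ)) (hN : volume N = 0) :
    P {ω | ∃ x ∈ N, ∀ i, x i ∈ V i ∧ x i ∈ pts (S ω)} = 0 := by
  have key : ∀ δ : ℝ≥0∞, 0 < δ → P {ω | ∃ x ∈ N, ∀ i, x i ∈ V i ∧ x i ∈ pts (S ω)} ≤
      (lam : ℝ≥0∞) ^ (k + 1) * δ := by
    intro δ hδ
    obtain ⟨B, hB, hNB, hs⟩ := exists_boxes N hN hδ
    calc P {ω | ∃ x ∈ N, ∀ i, x i ∈ V i ∧ x i ∈ pts (S ω)}
        ≤ P (⋃ n, {ω | ∀ i, ((B n i ∩ V i) ∩ pts (S ω)).Nonempty}) := by
          apply measure_mono
          rintro ω ⟨x, hx, hx2⟩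
          obtain ⟨n, hn⟩ := mem_iUnion.1 (hNB hx)
          exact mem_iUnion.2 ⟨n, fun i => ⟨x i, ⟨hn i (mem_univ _), (hx2 i).1⟩, (hx2 i).2⟩⟩
      _ ≤ ∑' n, P {ω | ∀ i, ((B n i ∩ V i) ∩ pts (S ω)).Nonempty} := measure_iUnion_le _
      _ ≤ ∑' n, (lam : ℝ≥0∞) ^ (k + 1) * ∏ i, volume (B n i) := by
          refine ENNReal.tsum_le_tsum fun n => ?_
          refine (h.box_prob (fun i => B n i ∩ V i) (fun i => (hB n i).inter (hV i))
            (fun i => inter_subset_right.trans (hr i))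
            (fun i j hij => (hd hij).mono inter_subset_right inter_subset_right)).trans ?_
          gcongr with i _
          exact inter_subset_left
      _ = (lam : ℝ≥0∞) ^ (k + 1) * ∑' n, ∏ i, volume (B n i) := ENNReal.tsum_mul_left
      _ ≤ (lam : ℝ≥0∞) ^ (k + 1) * δ := by gcongr
  have hlim : Tendsto (fun n : ℕ => (lam : ℝ≥0∞) ^ (k + 1) * ((n : ℝ≥0∞) + 1)⁻¹) atTop (𝓝 0) := by
    rw [← mul_zero ((lam : ℝ≥0∞) ^ (k + 1))]
    refine ENNReal.Tendsto.const_mul ?_ (Or.inr (by simp))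
    have := (tendsto_add_atTop_iff_nat 1).2 ENNReal.tendsto_inv_nat_nhds_zero
    simpa using this
  refine le_antisymm (ge_of_tendsto' hlim fun n => key _ ?_) zero_le
  simp

/-- P2. -/
theorem kPoint : KPointStmt := by
  intro Ω _ P _ S lam h k N hN
  rcases k with _ | k
  · refine Eventually.of_forall fun ω x _ _ hx => ?_
    have h1 : N = univ := by
      ext y
      simp only [mem_univ, iff_true]
      rwa [Subsingleton.elim y x]
    rw [h1, volume_pi, Measure.pi_univ] at hN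
    simp at hN
  · have h1 : ∀ᵐ ω ∂P, ∀ (V : Fin (k + 1) → TopologicalSpace.countableBasis ℂ) (n : ℕ),
        (∀ i, (V i : Set ℂ) ⊆ ball 0 n) →
        Pairwise (fun i j => Disjoint (V i : Set ℂ) (V j : Set ℂ)) →
        ¬ ∃ x ∈ N, ∀ i, x i ∈ (V i : Set ℂ) ∧ x i ∈ pts (S ω) := by
      rw [ae_all_iff]
      intro V
      rw [ae_all_iff]
      intro n
      by_cases h2 : ∀ i, (V i : Set ℂ) ⊆ ball 0 n
      · by_cases h3 : Pairwise (fun i j => Disjoint (V i : Set ℂ) (V j : Set ℂ))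
        · have h4 := h.box_null (fun i => (V i : Set ℂ)) (fun i =>
            (TopologicalSpace.isOpen_of_mem_countableBasis (V i).2).measurableSet) h2 h3 N hN
          have h5 : ∀ᵐ ω ∂P, ¬ ∃ x ∈ N, ∀ i, x i ∈ (V i : Set ℂ) ∧ x i ∈ pts (S ω) := by
            rw [ae_iff]
            simpa only [not_not] using h4
          filter_upwards [h5] with ω hω _ _
          exact hω
        · exact Eventually.of_forall fun ω _ h3' => absurd h3' h3
      · exact Eventually.of_forall fun ω h2' => absurd h2' h2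
    filter_upwards [h1] with ω hω x hx hxS hxN
    obtain ⟨U, hU1, hU2⟩ := (Set.finite_range x).t2_separation
    obtain ⟨r, hr⟩ : ∃ n : ℕ, ∀ i, x i ∈ ball (0 : ℂ) n := by
      obtain ⟨n, hn⟩ := exists_nat_gt (∑ i, ‖x i‖)
      refine ⟨n, fun i => ?_⟩
      rw [mem_ball_zero_iff]
      exact (Finset.single_le_sum (fun j _ => norm_nonneg (x j)) (Finset.mem_univ i)).trans_lt hn
    have h2 : ∀ i, ∃ v ∈ TopologicalSpace.countableBasis ℂ, x i ∈ v ∧ v ⊆ U (x i) ∩ ball 0 r := by
      intro i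
      exact (TopologicalSpace.isBasis_countableBasis ℂ).exists_subset_of_mem_open
        ⟨(hU1 (x i)).1, hr i⟩ ((hU1 (x i)).2.inter isOpen_ball)
    choose v hv1 hv2 hv3 using h2
    refine hω (fun i => ⟨v i, hv1 i⟩) r (fun i => (hv3 i).trans inter_subset_right) ?_
      ⟨x, hxN, fun i => ⟨hv2 i, hxS i⟩⟩
    intro i j hij
    exact (hU2 (mem_range_self i) (mem_range_self j) (fun e => hij (hx e))).mono
      ((hv3 i).trans inter_subset_left) ((hv3 j).trans inter_subset_left)

end P148
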