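import Vale.Agent.P148.Inv

/-!
# P148, row P2 (second): the points of the process avoid null sets of tuples
-/

open MeasureTheory Set Metric Topology Filter ProbabilityTheory
open scoped ENNReal NNReal

namespace P148
namespace KP2

theorem fair_univ : fair univ = 1 := by
  rw [fair, Measure.smul_apply, Measure.count_univ, ENat.card_eq_coe_fintype_card]
  simp only [Fintype.card_bool, smul_eq_mul]
  norm_num
  exact ENNReal.inv_mul_cancel (by norm_num) (by norm_num)

theorem inten_prod_univ (lam : ℝ≥0) (B : Set ℂ) :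
    inten lam (B ×ˢ univ) = lam * volume B := by
  have : SFinite fair := by
    unfold fair
    infer_instance
  rw [inten, Measure.smul_apply, Measure.prod_prod, fair_univ, mul_one]
  rfl

theorem poisson_pos_le (r : ℝ≥0) : poissonMeasure r {0}ᶜ ≤ r := by
  rw [prob_compl_eq_one_sub (MeasurableSet.singleton 0), poissonMeasure_singleton]
  simp only [pow_zero, mul_one, Nat.factorial_zero, Nat.cast_one, div_one]
  rw [tsub_le_iff_right]
  have h1 : (r : ℝ≥0∞) = ENNReal.ofReal r := (ENNReal.ofReal_coe_nnreal).symm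
  rw [h1, ← ENNReal.ofReal_add (NNReal.coe_nonneg r) (Real.exp_pos _).le, ← ENNReal.ofReal_one]
  apply ENNReal.ofReal_le_ofReal
  have := Real.add_one_le_exp (-(r : ℝ))
  linarith

variable {Ω : Type*} [MeasurableSpace Ω] {P : Measure Ω} {S : Ω → Set Pt} {lam : ℝ≥0}

theorem hit_le (h : IsColouredPoisson P S lam) {B : Set ℂ} (hB : MeasurableSet B)
    (hb : Bdd (B ×ˢ univ)) :
    P ((fun ω => (S ω ∩ B ×ˢ univ).ncard) ⁻¹' {0}ᶜ) ≤ lam * volume B := by
  have hm : MeasurableSet (B ×ˢ (univ : Set Bool)) := hB.prod MeasurableSet.univ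
  rw [← Measure.map_apply (h.meas _ hm hb) (MeasurableSet.of_discrete), h.law _ hm hb]
  refine (poisson_pos_le _).trans ?_
  rw [← inten_prod_univ]
  exact ENNReal.coe_toNNReal_le_self

/-- The outer measure of the tuples of points of the process in a product of sets. -/
noncomputable def hitOuter (P : Measure Ω) (S : Ω → Set Pt) {k : ℕ} (Q : Fin k → Set ℂ) :
    OuterMeasure (Fin k → ℂ) where
  measureOf B := P {ω | ∃ x ∈ B, (∀ i, x i ∈ Q i) ∧ ∀ i, x i ∈ pts (S ω)}
  empty := by simp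
  mono {B C} hBC := measure_mono fun ω ⟨x, hx, h1, h2⟩ => ⟨x, hBC hx, h1, h2⟩
  iUnion_nat B _ := by
    refine le_trans (measure_mono ?_) (measure_iUnion_le _)
    rintro ω ⟨x, hx, h1, h2⟩
    obtain ⟨n, hn⟩ := mem_iUnion.1 hx
    exact mem_iUnion.2 ⟨n, x, hn, h1, h2⟩

theorem hitOuter_pi (h : IsColouredPoisson P S lam) {k : ℕ} {Q : Fin k → Set ℂ}
    (hQ : ∀ i, MeasurableSet (Q i)) (hb : ∀ i, Bdd (Q i ×ˢ univ))
    (hd : Pairwise fun i j => Disjoint (Q i) (Q j)) (s : Fin k → Set ℂ) :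
    hitOuter P S Q (pi univ s) ≤ ∏ i, ((lam : ℝ≥0∞) * volume (s i)) := by
  set B : Fin k → Set ℂ := fun i => toMeasurable volume (s i) ∩ Q i with hB
  have hBm : ∀ i, MeasurableSet (B i) := fun i => (measurableSet_toMeasurable _ _).inter (hQ i)
  have hBb : ∀ i, Bdd (B i ×ˢ univ) := fun i => by
    obtain ⟨r, hr⟩ := hb i
    exact ⟨r, (prod_mono inter_subset_right subset_rfl).trans hr⟩
  have hBd : Pairwise fun i j => Disjoint (B i ×ˢ (univ : Set Bool)) (B j ×ˢ univ) := by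
    intro i j hij
    rw [Set.disjoint_prod]
    exact Or.inl ((hd hij).mono inter_subset_right inter_subset_right)
  have hind := h.indep k (fun i => B i ×ˢ univ) (fun i => (hBm i).prod MeasurableSet.univ) hBb hBd
  have h1 : hitOuter P S Q (pi univ s) ≤
      P (⋂ i ∈ (Finset.univ : Finset (Fin k)),
        (fun ω => (S ω ∩ B i ×ˢ univ).ncard) ⁻¹' {0}ᶜ) := by
    refine measure_mono ?_
    rintro ω ⟨x, hx, hxQ, hxS⟩
    refine mem_iInter₂.2 fun i _ => ?_
    obtain ⟨y, hy, hyx⟩ := hxS i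
    have hmem : y ∈ S ω ∩ B i ×ˢ univ := by
      refine ⟨hy, ⟨⟨subset_toMeasurable _ _ ?_, ?_⟩, mem_univ _⟩⟩
      · rw [hyx]; exact hx i (mem_univ _)
      · rw [hyx]; exact hxQ i
    exact Set.ncard_ne_zero_of_mem hmem (h.finite_inter ω (hBb i))
  refine h1.trans ?_
  rw [hind.measure_inter_preimage_eq_mul Finset.univ (sets := fun _ => {0}ᶜ)
    (fun i _ => MeasurableSet.of_discrete)]
  refine Finset.prod_le_prod' fun i _ => ?_
  exact (hit_le h (hBm i) (hBb i)).trans
    (mul_le_mul' le_rfl ((measure_mono inter_subset_left).trans (measure_toMeasurable _).le))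

theorem hitOuter_null (h : IsColouredPoisson P S lam) {k : ℕ} {Q : Fin k → Set ℂ}
    (hQ : ∀ i, MeasurableSet (Q i)) (hb : ∀ i, Bdd (Q i ×ˢ univ))
    (hd : Pairwise fun i j => Disjoint (Q i) (Q j)) {N : Set (Fin k → ℂ)} (hN : volume N = 0) :
    P {ω | ∃ x ∈ N, (∀ i, x i ∈ Q i) ∧ ∀ i, x i ∈ pts (S ω)} = 0 := by
  set L : ℝ≥0 := max lam 1 with hL
  have hL1 : (1 : ℝ≥0) ≤ L := le_max_right _ _
  have hL0 : (L : ℝ≥0∞) ≠ 0 := by
    have : (0 : ℝ≥0) < L := lt_of_lt_of_le one_pos hL1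
    exact_mod_cast this.ne'
  have hLt : (L : ℝ≥0∞) ≠ ∞ := ENNReal.coe_ne_top
  have hc0 : ((L : ℝ≥0∞) ^ k)⁻¹ ≠ 0 := ENNReal.inv_ne_zero.2 (ENNReal.pow_ne_top hLt)
  have hct : ((L : ℝ≥0∞) ^ k)⁻¹ ≠ ∞ := ENNReal.inv_ne_top.2 (pow_ne_zero _ hL0)
  have key : ((L : ℝ≥0∞) ^ k)⁻¹ • hitOuter P S Q ≤
      OuterMeasure.pi fun _ : Fin k => (volume : Measure ℂ).toOuterMeasure := by
    rw [OuterMeasure.le_pi]
    intro s _
    rw [_root_.smul_apply, smul_eq_mul]
    calc ((L : ℝ≥0∞) ^ k)⁻¹ * hitOuter P S Q (pi univ s)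
        ≤ ((L : ℝ≥0∞) ^ k)⁻¹ * ∏ i, ((L : ℝ≥0∞) * volume (s i)) := by
          gcongr
          refine (hitOuter_pi h hQ hb hd s).trans (Finset.prod_le_prod' fun i _ => ?_)
          gcongr
          exact_mod_cast le_max_left _ _
      _ = ∏ i, volume (s i) := by
          rw [Finset.prod_mul_distrib, Finset.prod_const, Finset.card_univ, Fintype.card_fin,
            ← mul_assoc, ENNReal.inv_mul_cancel (pow_ne_zero _ hL0) (ENNReal.pow_ne_top hLt),
            one_mul]
  have h2 : (OuterMeasure.pi fun _ : Fin k => (volume : Measure ℂ).toOuterMeasure) N ≤ 0 := by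
    rw [← hN]
    change _ ≤ Measure.pi (fun _ : Fin k => (volume : Measure ℂ)) N
    rw [Measure.pi]
    exact le_toMeasure_apply _ _ _
  have h3 := (key N).trans h2
  rw [_root_.smul_apply, smul_eq_mul, nonpos_iff_eq_zero, mul_eq_zero] at h3
  exact h3.resolve_left hc0

/-- Distinct points lie in disjoint rational balls. -/
theorem exists_balls {k : ℕ} {x : Fin k → ℂ} (hx : Function.Injective x) :
    ∃ (m : ℕ) (n : Fin k → ℕ),
      (Pairwise fun i j => Disjoint (ball (TopologicalSpace.denseSeq ℂ (n i)) (1 / (m + 1 : ℝ)))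
        (ball (TopologicalSpace.denseSeq ℂ (n j)) (1 / (m + 1 : ℝ)))) ∧
      ∀ i, x i ∈ ball (TopologicalSpace.denseSeq ℂ (n i)) (1 / (m + 1 : ℝ)) := by
  have h1 : ∀ i j : Fin k, ∀ᶠ m : ℕ in atTop, i ≠ j → 4 * (1 / (m + 1 : ℝ)) < dist (x i) (x j) := by
    intro i j
    by_cases hij : i = j
    · exact Eventually.of_forall fun m h => (h hij).elim
    · have hpos : 0 < dist (x i) (x j) := dist_pos.2 (hx.ne hij)
      have := (tendsto_one_div_add_atTop_nhds_zero_nat (𝕜 := ℝ)).const_mul 4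
      rw [mul_zero] at this
      filter_upwards [this.eventually (gt_mem_nhds hpos)] with m hm _
      exact hm
  obtain ⟨m, hm⟩ := (eventually_all.2 fun i => eventually_all.2 (h1 i)).exists
  have hr : (0 : ℝ) < 1 / (m + 1 : ℝ) := by positivity
  have h2 : ∀ i, ∃ n : ℕ, dist (x i) (TopologicalSpace.denseSeq ℂ n) < 1 / (m + 1 : ℝ) := fun i =>
    (TopologicalSpace.denseRange_denseSeq ℂ).exists_dist_lt (x i) hr
  choose n hn using h2
  refine ⟨m, n, fun i j hij => ?_, fun i => hn i⟩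
  refine Set.disjoint_left.2 ?_
  intro z hz hz'
  have e1 := hm i j hij
  have e2 : dist (x i) (x j) ≤ dist (x i) (TopologicalSpace.denseSeq ℂ (n i)) +
      dist z (TopologicalSpace.denseSeq ℂ (n i)) + (dist z (TopologicalSpace.denseSeq ℂ (n j)) +
      dist (x j) (TopologicalSpace.denseSeq ℂ (n j))) := by
    have t1 := dist_triangle (x i) (TopologicalSpace.denseSeq ℂ (n i)) z
    have t2 := dist_triangle z (TopologicalSpace.denseSeq ℂ (n j)) (x j)
    have t3 := dist_triangle (x i) z (x j)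
    have c1 := dist_comm (TopologicalSpace.denseSeq ℂ (n i)) z
    have c2 := dist_comm (TopologicalSpace.denseSeq ℂ (n j)) (x j)
    linarith
  have e3 := hn i
  have e4 := hn j
  rw [mem_ball] at hz hz'
  linarith

end KP2

/-- **P2**: almost surely no `k` different points of the process lie in a given null set. -/
theorem kPoint2 : KPointStmt := by
  intro Ω _ P _ S lam h k N hN
  have h1 : ∀ (m : ℕ) (n : Fin k → ℕ), (Pairwise fun i j =>
      Disjoint (ball (TopologicalSpace.denseSeq ℂ (n i)) (1 / (m + 1 : ℝ)))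
        (ball (TopologicalSpace.denseSeq ℂ (n j)) (1 / (m + 1 : ℝ)))) →
      ∀ᵐ ω ∂P, ¬ ∃ x ∈ N, (∀ i, x i ∈ ball (TopologicalSpace.denseSeq ℂ (n i)) (1 / (m + 1 : ℝ))) ∧
        ∀ i, x i ∈ pts (S ω) := by
    intro m n hd
    have := KP2.hitOuter_null h (Q := fun i => ball (TopologicalSpace.denseSeq ℂ (n i))
      (1 / (m + 1 : ℝ))) (fun i => measurableSet_ball) (fun i => ?_) hd hN
    · rw [ae_iff]
      simpa using this
    · refine ⟨dist (TopologicalSpace.denseSeq ℂ (n i)) 0 + 1 / (m + 1 : ℝ), prod_mono ?_ subset_rfl⟩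
      apply ball_subset_ball'
      linarith
  have h2 : ∀ᵐ ω ∂P, ∀ (m : ℕ) (n : Fin k → ℕ), (Pairwise fun i j =>
      Disjoint (ball (TopologicalSpace.denseSeq ℂ (n i)) (1 / (m + 1 : ℝ)))
        (ball (TopologicalSpace.denseSeq ℂ (n j)) (1 / (m + 1 : ℝ)))) →
      ¬ ∃ x ∈ N, (∀ i, x i ∈ ball (TopologicalSpace.denseSeq ℂ (n i)) (1 / (m + 1 : ℝ))) ∧
        ∀ i, x i ∈ pts (S ω) := by
    rw [ae_all_iff]
    intro m
    rw [ae_all_iff]
    intro n
    by_cases hd : (Pairwise fun i j =>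
      Disjoint (ball (TopologicalSpace.denseSeq ℂ (n i)) (1 / (m + 1 : ℝ)))
        (ball (TopologicalSpace.denseSeq ℂ (n j)) (1 / (m + 1 : ℝ))))
    · filter_upwards [h1 m n hd] with ω hω _
      exact hω
    · exact Eventually.of_forall fun ω h => (hd h).elim
  filter_upwards [h2] with ω hω x hx hxS hxN
  obtain ⟨m, n, hd, hb⟩ := KP2.exists_balls hx
  exact hω m n hd ⟨x, hxN, hb, hxS⟩

end P148
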