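import Vale.Agent.P148.Props2

/-!
# P148, row U1: the modulus of a disc quad
-/

open MeasureTheory Set Metric Topology Filter
open scoped ComplexConjugate

namespace P148

open Half

/-- The modulus of a quad does not depend on the uniformizer. -/
theorem unif_unique (Q : Quad) {φ ψ : ℂ → ℂ} {x y : ℝ} (h : Q.IsUniformizer φ x)
    (h' : Q.IsUniformizer ψ y) : x = y := by
  have hDo := isOpen_D Q
  have hu := useq_mem Q
  have ht := useq_tendsto Q
  choose s hs hs1 hs2 using fun i => norm_seq h i (useq Q i) (hu i) (ht i)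
  choose r hr hr1 hr2 using fun i => norm_seq h' i (useq Q i) (hu i) (ht i)
  have lim : ∀ a b c d : Fin 4,
      |pc x a * qc b - qc a * pc x b| * |pc x c * qc d - qc c * pc x d| *
        (|pc y a * qc c - qc a * pc y c| * |pc y b * qc d - qc b * pc y d|) =
      |pc x a * qc c - qc a * pc x c| * |pc x b * qc d - qc b * pc x d| *
        (|pc y a * qc b - qc a * pc y b| * |pc y c * qc d - qc c * pc y d|) := by
    intro a b c d
    have L1 := (((pair_lim (hs a) (hs b) (hs1 a) (hs2 a) (hs1 b) (hs2 b)).mul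
      (pair_lim (hs c) (hs d) (hs1 c) (hs2 c) (hs1 d) (hs2 d))).mul
      ((pair_lim (hr a) (hr c) (hr1 a) (hr2 a) (hr1 c) (hr2 c)).mul
      (pair_lim (hr b) (hr d) (hr1 b) (hr2 b) (hr1 d) (hr2 d))))
    have L2 := (((pair_lim (hs a) (hs c) (hs1 a) (hs2 a) (hs1 c) (hs2 c)).mul
      (pair_lim (hs b) (hs d) (hs1 b) (hs2 b) (hs1 d) (hs2 d))).mul
      ((pair_lim (hr a) (hr b) (hr1 a) (hr2 a) (hr1 b) (hr2 b)).mul
      (pair_lim (hr c) (hr d) (hr1 c) (hr2 c) (hr1 d) (hr2 d))))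
    refine tendsto_nhds_unique (L1.congr fun n => ?_) L2
    have h4 := four_pt hDo h.hol h'.hol h.bij h'.bij (hu a n) (hu b n) (hu c n) (hu d n)
    have g1 : ∀ i, ‖s i n‖ ≠ 0 := fun i => norm_ne_zero_iff.2 (hs i n)
    have g2 : ∀ i, ‖r i n‖ ≠ 0 := fun i => norm_ne_zero_iff.2 (hr i n)
    have g10 := g1 a
    have g11 := g1 b
    have g12 := g1 c
    have g13 := g1 d
    have g20 := g2 a
    have g21 := g2 b
    have g22 := g2 c
    have g23 := g2 d
    calc _ = (‖φ (useq Q a n) - conj (φ (useq Q b n))‖ * ‖φ (useq Q c n) - conj (φ (useq Q d n))‖ *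
        (‖ψ (useq Q a n) - conj (ψ (useq Q c n))‖ * ‖ψ (useq Q b n) - conj (ψ (useq Q d n))‖)) /
          (‖s a n‖ * ‖s b n‖ * ‖s c n‖ * ‖s d n‖ *
            (‖r a n‖ * ‖r b n‖ * ‖r c n‖ * ‖r d n‖)) := by
          field_simp
      _ = _ := by
          rw [h4]
          field_simp
  have e1 := lim 0 1 2 3
  have e2 := lim 1 2 0 3
  have p0 : ∀ z : ℝ, pc z 0 = 0 := fun _ => rfl
  have p1 : ∀ z : ℝ, pc z 1 = z := fun _ => rfl
  have p2 : ∀ z : ℝ, pc z 2 = 1 := fun _ => rfl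
  have p3 : ∀ z : ℝ, pc z 3 = 1 := fun _ => rfl
  have q0 : qc 0 = 1 := rfl
  have q1 : qc 1 = 1 := rfl
  have q2 : qc 2 = 1 := rfl
  have q3 : qc 3 = 0 := rfl
  simp only [p0, p1, p2, p3, q0, q1, q2, q3] at e1 e2
  norm_num at e1 e2
  rcases eq_or_ne x 0 with hx | hx
  · rw [hx, abs_zero] at e1
    rw [hx, abs_eq_zero.1 e1.symm]
  · have hx' : |x| ≠ 0 := abs_ne_zero.2 hx
    have e3 : |x - 1| = |y - 1| := by
      have : |x| * |x - 1| = |x| * |y - 1| := by
        rw [← e1] at e2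
        linear_combination e2
      exact mul_left_cancel₀ hx' this
    have f1 : x ^ 2 = y ^ 2 := by rw [← sq_abs x, ← sq_abs y, e1]
    have f2 : (x - 1) ^ 2 = (y - 1) ^ 2 := by rw [← sq_abs (x - 1), ← sq_abs (y - 1), e3]
    nlinarith

/-- U1 from U2. -/
theorem modulus_of (h : UnifStmt) : ModulusStmt := by
  intro Q z₀ R θ₀ θ₁ θ₂ θ₃ hR h01 h12 h23 h3 hQ φ x hφ
  obtain ⟨ψ, hψ⟩ := h Q z₀ R θ₀ θ₁ θ₂ θ₃ hR h01 h12 h23 h3 hQ
  exact unif_unique Q hφ hψ

end P148
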