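import Vale.Agent.P148.Props2

/-!
# P148, row U2: the uniformizer of a disc quad
-/

open MeasureTheory Set Metric Topology Filter
open scoped ComplexConjugate

namespace P148

namespace Unif

/-- half-angle formula -/
theorem exp_sub (s t : ℝ) : Complex.exp (s * Complex.I) - Complex.exp (t * Complex.I) =
    2 * Complex.I * ((Real.sin ((s - t) / 2) : ℝ) : ℂ) *
      Complex.exp (((s + t) / 2 : ℝ) * Complex.I) := by
  have e1 : Complex.exp (s * Complex.I) = Complex.exp (((s + t) / 2 : ℝ) * Complex.I) *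
      Complex.exp (((s - t) / 2 : ℝ) * Complex.I) := by
    rw [← Complex.exp_add]
    congr 1
    push_cast
    ring
  have e2 : Complex.exp (t * Complex.I) = Complex.exp (((s + t) / 2 : ℝ) * Complex.I) *
      Complex.exp (-(((s - t) / 2 : ℝ) : ℂ) * Complex.I) := by
    rw [← Complex.exp_add]
    congr 1
    push_cast
    ring
  rw [e1, e2, Complex.exp_mul_I (((s - t) / 2 : ℝ) : ℂ), Complex.exp_mul_I (-(((s - t) / 2 : ℝ) : ℂ)),
    Complex.cos_neg, Complex.sin_neg, Complex.ofReal_sin]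
  ring

theorem exp_mul_conj (t : ℝ) :
    Complex.exp (t * Complex.I) * conj (Complex.exp (t * Complex.I)) = 1 := by
  rw [Complex.mul_conj, Complex.normSq_eq_norm_sq, Complex.norm_exp_ofReal_mul_I]
  simp

/-- The Moebius map of the disc. -/
theorem mob_bij {lam a d z₀ : ℂ} {R κ : ℝ} (hκ : 0 < κ) (hlam : lam.im < 0)
    (had : a ≠ d) (hd : ‖d - z₀‖ = R)
    (him : ∀ z, z ≠ d → (lam * (z - a) / (z - d)).im = κ * (R ^ 2 - ‖z - z₀‖ ^ 2) / ‖z - d‖ ^ 2) :
    BijOn (fun z => lam * (z - a) / (z - d)) (ball z₀ R) {w | 0 < w.im} := by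
  have hR : 0 ≤ R := hd ▸ norm_nonneg _
  have hlam0 : lam ≠ 0 := by
    rintro rfl
    simp at hlam
  have hne : ∀ z ∈ ball z₀ R, z ≠ d := by
    rintro z hz rfl
    rw [mem_ball, dist_eq_norm, hd] at hz
    exact lt_irrefl _ hz
  refine ⟨fun z hz => ?_, fun z hz z' hz' h => ?_, fun ζ hζ => ?_⟩
  · show 0 < (lam * (z - a) / (z - d)).im
    rw [him z (hne z hz)]
    have h1 : 0 < ‖z - d‖ := norm_pos_iff.2 (sub_ne_zero.2 (hne z hz))
    rw [mem_ball, dist_eq_norm] at hz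
    have h2 : 0 < R ^ 2 - ‖z - z₀‖ ^ 2 := by
      nlinarith [norm_nonneg (z - z₀)]
    positivity
  · have h1 : z - d ≠ 0 := sub_ne_zero.2 (hne z hz)
    have h2 : z' - d ≠ 0 := sub_ne_zero.2 (hne z' hz')
    have h3 : lam * (z - a) / (z - d) = lam * (z' - a) / (z' - d) := h
    rw [div_eq_div_iff h1 h2] at h3
    have h4 : lam * (a - d) * (z - z') = 0 := by linear_combination h3
    rcases mul_eq_zero.1 h4 with h5 | h5
    · rcases mul_eq_zero.1 h5 with h6 | h6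
      · exact absurd h6 hlam0
      · exact absurd (sub_eq_zero.1 h6) had
    · exact sub_eq_zero.1 h5
  · have hζ' : 0 < ζ.im := hζ
    have h1 : ζ - lam ≠ 0 := by
      intro h
      rw [sub_eq_zero.1 h] at hζ'
      linarith
    have h2 : d - a ≠ 0 := sub_ne_zero.2 had.symm
    have e1 : (ζ * d - lam * a) / (ζ - lam) - d = lam * (d - a) / (ζ - lam) := by
      field_simp
      ring
    have e2 : (ζ * d - lam * a) / (ζ - lam) - a = ζ * (d - a) / (ζ - lam) := by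
      field_simp
      ring
    have h3 : (ζ * d - lam * a) / (ζ - lam) ≠ d := by
      intro h
      rw [h, sub_self] at e1
      exact div_ne_zero (mul_ne_zero hlam0 h2) h1 e1.symm
    have e3 : lam * ((ζ * d - lam * a) / (ζ - lam) - a) / ((ζ * d - lam * a) / (ζ - lam) - d) = ζ := by
      rw [e1, e2]
      field_simp
    refine ⟨(ζ * d - lam * a) / (ζ - lam), ?_, e3⟩
    have h4 := him _ h3
    rw [e3] at h4
    have h5 : 0 < ‖(ζ * d - lam * a) / (ζ - lam) - d‖ := norm_pos_iff.2 (sub_ne_zero.2 h3)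
    rw [mem_ball, dist_eq_norm]
    by_contra hcon
    push Not at hcon
    have h6 : κ * (R ^ 2 - ‖(ζ * d - lam * a) / (ζ - lam) - z₀‖ ^ 2) /
        ‖(ζ * d - lam * a) / (ζ - lam) - d‖ ^ 2 ≤ 0 := by
      apply div_nonpos_of_nonpos_of_nonneg
      · apply mul_nonpos_of_nonneg_of_nonpos hκ.le
        nlinarith
      · positivity
    linarith

end Unif

open Unif

theorem unif : UnifStmt := by
  intro Q z₀ R θ₀ θ₁ θ₂ θ₃ hR h01 h12 h23 h3 hQ
  have hpi := Real.pi_pos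
  have s0 : 0 < Real.sin ((θ₃ - θ₂) / 2) := Real.sin_pos_of_pos_of_lt_pi (by linarith) (by linarith)
  have s1 : 0 < Real.sin ((θ₂ - θ₀) / 2) := Real.sin_pos_of_pos_of_lt_pi (by linarith) (by linarith)
  have s2 : 0 < Real.sin ((θ₃ - θ₀) / 2) := Real.sin_pos_of_pos_of_lt_pi (by linarith) (by linarith)
  have s3 : 0 < Real.sin ((θ₁ - θ₀) / 2) := Real.sin_pos_of_pos_of_lt_pi (by linarith) (by linarith)
  have s4 : 0 < Real.sin ((θ₃ - θ₁) / 2) := Real.sin_pos_of_pos_of_lt_pi (by linarith) (by linarith)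
  obtain ⟨A, hA⟩ : ∃ A, A = Complex.exp (θ₀ * Complex.I) := ⟨_, rfl⟩
  obtain ⟨B, hB⟩ : ∃ B, B = Complex.exp (θ₁ * Complex.I) := ⟨_, rfl⟩
  obtain ⟨C, hC⟩ : ∃ C, C = Complex.exp (θ₂ * Complex.I) := ⟨_, rfl⟩
  obtain ⟨D, hD⟩ : ∃ D, D = Complex.exp (θ₃ * Complex.I) := ⟨_, rfl⟩
  obtain ⟨e, he⟩ : ∃ e, e = Complex.exp (((θ₃ - θ₀) / 2 : ℝ) * Complex.I) := ⟨_, rfl⟩
  obtain ⟨M, hM⟩ : ∃ M, M = Complex.exp (((θ₃ + θ₀) / 2 : ℝ) * Complex.I) := ⟨_, rfl⟩
  have hec : e * conj e = 1 := by rw [he]; exact exp_mul_conj _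
  have hMc : M * conj M = 1 := by rw [hM]; exact exp_mul_conj _
  have hein : conj e = Complex.exp (-(((θ₃ - θ₀) / 2 : ℝ) : ℂ) * Complex.I) := by
    rw [he, ← Complex.exp_conj, map_mul, Complex.conj_ofReal, Complex.conj_I]
    congr 1
    ring
  have hAe : A = M * conj e := by
    rw [hein, hM, hA, ← Complex.exp_add]
    congr 1
    push_cast
    ring
  have hDe : D = M * e := by
    rw [he, hM, hD, ← Complex.exp_add]
    congr 1
    push_cast
    ring
  have hI : (2 * Complex.I : ℂ) ≠ 0 := by simp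
  have hexp : ∀ t : ℝ, Complex.exp (t * Complex.I) ≠ 0 := fun t => Complex.exp_ne_zero _
  have c1 : ((Real.sin ((θ₂ - θ₀) / 2) : ℝ) : ℂ) ≠ 0 := by exact_mod_cast s1.ne'
  have c4 : ((Real.sin ((θ₃ - θ₁) / 2) : ℝ) : ℂ) ≠ 0 := by exact_mod_cast s4.ne'
  have hCA : C - A = 2 * Complex.I * ((Real.sin ((θ₂ - θ₀) / 2) : ℝ) : ℂ) *
      Complex.exp (((θ₂ + θ₀) / 2 : ℝ) * Complex.I) := by rw [hC, hA]; exact exp_sub _ _
  have hCD : C - D = -(2 * Complex.I * ((Real.sin ((θ₃ - θ₂) / 2) : ℝ) : ℂ) *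
      Complex.exp (((θ₂ + θ₃) / 2 : ℝ) * Complex.I)) := by
    rw [hC, hD, exp_sub, show (θ₂ - θ₃) / 2 = -((θ₃ - θ₂) / 2) by ring, Real.sin_neg]
    push_cast
    ring
  have hBA : B - A = 2 * Complex.I * ((Real.sin ((θ₁ - θ₀) / 2) : ℝ) : ℂ) *
      Complex.exp (((θ₁ + θ₀) / 2 : ℝ) * Complex.I) := by rw [hB, hA]; exact exp_sub _ _
  have hBD : B - D = -(2 * Complex.I * ((Real.sin ((θ₃ - θ₁) / 2) : ℝ) : ℂ) *
      Complex.exp (((θ₁ + θ₃) / 2 : ℝ) * Complex.I)) := by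
    rw [hB, hD, exp_sub, show (θ₁ - θ₃) / 2 = -((θ₃ - θ₁) / 2) by ring, Real.sin_neg]
    push_cast
    ring
  have hDA : D - A = 2 * Complex.I * ((Real.sin ((θ₃ - θ₀) / 2) : ℝ) : ℂ) *
      Complex.exp (((θ₃ + θ₀) / 2 : ℝ) * Complex.I) := by rw [hD, hA]; exact exp_sub _ _
  have hCA0 : C - A ≠ 0 := by
    rw [hCA]; exact mul_ne_zero (mul_ne_zero hI c1) (hexp _)
  have hBD0 : B - D ≠ 0 := by
    rw [hBD]; exact neg_ne_zero.2 (mul_ne_zero (mul_ne_zero hI c4) (hexp _))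
  have hDA0 : D - A ≠ 0 := by
    rw [hDA]
    exact mul_ne_zero (mul_ne_zero hI (by exact_mod_cast s2.ne')) (hexp _)
  have hCD0 : C - D ≠ 0 := by
    rw [hCD]
    exact neg_ne_zero.2 (mul_ne_zero (mul_ne_zero hI (by exact_mod_cast s0.ne')) (hexp _))
  obtain ⟨r, hr⟩ : ∃ r : ℝ, r = Real.sin ((θ₃ - θ₂) / 2) / Real.sin ((θ₂ - θ₀) / 2) := ⟨_, rfl⟩
  have hr0 : 0 < r := by rw [hr]; positivity
  have hrc : (r : ℂ) = ((Real.sin ((θ₃ - θ₂) / 2) : ℝ) : ℂ) /
      ((Real.sin ((θ₂ - θ₀) / 2) : ℝ) : ℂ) := by rw [hr, Complex.ofReal_div]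
  -- the multiplier
  have hlam : (C - D) / (C - A) = -((r : ℝ) : ℂ) * e := by
    rw [div_eq_iff hCA0, hCA, hCD]
    have e1 : Complex.exp (((θ₂ + θ₃) / 2 : ℝ) * Complex.I) =
        e * Complex.exp (((θ₂ + θ₀) / 2 : ℝ) * Complex.I) := by
      rw [he, ← Complex.exp_add]
      congr 1
      push_cast
      ring
    rw [e1, hrc]
    field_simp
  have heim : e.im = Real.sin ((θ₃ - θ₀) / 2) := by rw [he, Complex.exp_ofReal_mul_I_im]
  have hlamim : ((C - D) / (C - A)).im < 0 := by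
    rw [hlam, neg_mul, Complex.neg_im, Complex.im_ofReal_mul, heim]
    nlinarith [mul_pos hr0 s2]
  obtain ⟨a, ha⟩ : ∃ a, a = z₀ + R * A := ⟨_, rfl⟩
  obtain ⟨d, hd⟩ : ∃ d, d = z₀ + R * D := ⟨_, rfl⟩
  have hRc : (R : ℂ) ≠ 0 := by exact_mod_cast hR.ne'
  have had : a ≠ d := by
    intro h
    rw [ha, hd] at h
    have : (R : ℂ) * (D - A) = 0 := by linear_combination -h
    rcases mul_eq_zero.1 this with h1 | h1
    · exact hRc h1
    · exact hDA0 h1
  have hdn : ‖d - z₀‖ = R := by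
    rw [hd, add_sub_cancel_left, norm_mul, hD, Complex.norm_exp_ofReal_mul_I, mul_one,
      Complex.norm_real, Real.norm_of_nonneg hR.le]
  have him : ∀ z, z ≠ d → ((C - D) / (C - A) * (z - a) / (z - d)).im =
      (r * Real.sin ((θ₃ - θ₀) / 2)) * (R ^ 2 - ‖z - z₀‖ ^ 2) / ‖z - d‖ ^ 2 := by
    intro z hz
    have hz0 : z - d ≠ 0 := sub_ne_zero.2 hz
    obtain ⟨w, hw⟩ : ∃ w, w = z - z₀ := ⟨_, rfl⟩
    have hwc : w * conj w = ((‖w‖ ^ 2 : ℝ) : ℂ) := by
      rw [Complex.mul_conj, Complex.normSq_eq_norm_sq]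
    have hza : z - a = w - R * (M * conj e) := by rw [hw, ha, hAe]; ring
    have hzd : z - d = w - R * (M * e) := by rw [hw, hd, hDe]; ring
    have key : (C - D) / (C - A) * (z - a) * conj (z - d) =
        -((r : ℝ) : ℂ) * (e * ((‖w‖ ^ 2 : ℝ) : ℂ) - R * (conj M * w + M * conj w) +
          R ^ 2 * conj e) := by
      rw [hlam, hza, hzd, map_sub, map_mul, map_mul, Complex.conj_ofReal]
      linear_combination (-(r : ℂ) * e) * hwc + (r * R * conj M * w) * hec +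
        (r * R * M * conj w) * hec - (r * R ^ 2 * conj e * (e * conj e)) * hMc -
        (r * R ^ 2 * conj e) * hec
    have hq : (C - D) / (C - A) * (z - a) / (z - d) =
        ((C - D) / (C - A) * (z - a) * conj (z - d)) / ((‖z - d‖ ^ 2 : ℝ) : ℂ) := by
      have h1 : (z - d) * conj (z - d) = ((‖z - d‖ ^ 2 : ℝ) : ℂ) := by
        rw [Complex.mul_conj, Complex.normSq_eq_norm_sq]
      have h2 : conj (z - d) ≠ 0 := (map_ne_zero _).2 hz0
      rw [← h1, mul_div_mul_right _ _ h2]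
    have hmid : (conj M * w + M * conj w).im = 0 := by
      simp only [Complex.add_im, Complex.mul_im, Complex.conj_re, Complex.conj_im]
      ring
    have h3 : (-((r : ℝ) : ℂ) * (e * ((‖w‖ ^ 2 : ℝ) : ℂ) - R * (conj M * w + M * conj w) +
        R ^ 2 * conj e)).im = r * Real.sin ((θ₃ - θ₀) / 2) * (R ^ 2 - ‖w‖ ^ 2) := by
      have e1 : (e * ((‖w‖ ^ 2 : ℝ) : ℂ)).im = e.im * ‖w‖ ^ 2 := Complex.im_mul_ofReal _ _
      have e2 : ((R : ℂ) ^ 2 * conj e).im = -(R ^ 2 * e.im) := by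
        rw [← Complex.ofReal_pow, Complex.im_ofReal_mul, Complex.conj_im]
        ring
      rw [neg_mul, Complex.neg_im, Complex.im_ofReal_mul, Complex.add_im, Complex.sub_im, e1, e2,
        Complex.im_ofReal_mul, hmid, heim]
      ring
    rw [hq, Complex.div_ofReal_im, key, h3, ← hw]
  have hne : ∀ z ∈ ball z₀ R, z - d ≠ 0 := by
    intro z hz h
    rw [sub_eq_zero.1 h, mem_ball, dist_eq_norm, hdn] at hz
    exact lt_irrefl _ hz
  refine ⟨fun z => (C - D) / (C - A) * (z - a) / (z - d), ?_, ?_, ?_, ?_, ?_, ?_, ?_⟩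
  · rw [hQ.disc]
    intro z hz
    have h1 := hne z hz
    have h2 : DifferentiableAt ℂ (fun z => (C - D) / (C - A) * (z - a) / (z - d)) z := by
      refine DifferentiableAt.div ?_ ?_ h1
      · fun_prop
      · fun_prop
    exact h2.differentiableWithinAt
  · rw [hQ.disc]
    exact mob_bij (mul_pos hr0 s2) hlamim had hdn him
  · rw [hQ.mark3, ← hD, ← hd]
    rintro z ⟨-, hz⟩
    have h1 : z - d ≠ 0 := sub_ne_zero.2 hz
    have h2 : ContinuousAt (fun z => (C - D) / (C - A) * (z - a) / (z - d)) z := by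
      refine ContinuousAt.div ?_ ?_ h1
      · fun_prop
      · fun_prop
    exact h2.continuousWithinAt
  · show (C - D) / (C - A) * (Q.mark 0 - a) / (Q.mark 0 - d) = 0
    rw [hQ.mark0, ← hA, ← ha, sub_self, mul_zero, zero_div]
  · show (C - D) / (C - A) * (Q.mark 1 - a) / (Q.mark 1 - d) = _
    rw [hQ.mark1, ← hB]
    have e1 : z₀ + R * B - a = R * (B - A) := by rw [ha]; ring
    have e2 : z₀ + R * B - d = R * (B - D) := by rw [hd]; ring
    have hRB : (R : ℂ) * (B - D) ≠ 0 := mul_ne_zero hRc hBD0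
    rw [e1, e2, hlam, div_eq_iff hRB, hBA, hBD, hrc, xr]
    have e3 : Complex.exp (((θ₁ + θ₃) / 2 : ℝ) * Complex.I) =
        e * Complex.exp (((θ₁ + θ₀) / 2 : ℝ) * Complex.I) := by
      rw [he, ← Complex.exp_add]
      congr 1
      push_cast
      ring
    have e4 : (θ₁ - θ₀ + (θ₂ - θ₁)) / 2 = (θ₂ - θ₀) / 2 := by ring
    have e5 : (θ₂ - θ₁ + (θ₃ - θ₂)) / 2 = (θ₃ - θ₁) / 2 := by ring
    have e6 : ((Real.sin ((θ₁ - θ₀) / 2) * Real.sin ((θ₃ - θ₂) / 2) /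
        (Real.sin ((θ₂ - θ₀) / 2) * Real.sin ((θ₃ - θ₁) / 2)) : ℝ) : ℂ) =
        ((Real.sin ((θ₁ - θ₀) / 2) : ℝ) : ℂ) * ((Real.sin ((θ₃ - θ₂) / 2) : ℝ) : ℂ) /
        (((Real.sin ((θ₂ - θ₀) / 2) : ℝ) : ℂ) * ((Real.sin ((θ₃ - θ₁) / 2) : ℝ) : ℂ)) := by
      rw [Complex.ofReal_div, Complex.ofReal_mul, Complex.ofReal_mul]
    rw [e3, e4, e5, e6]
    field_simp
  · show (C - D) / (C - A) * (Q.mark 2 - a) / (Q.mark 2 - d) = 1
    rw [hQ.mark2, ← hC]
    have e1 : z₀ + R * C - a = R * (C - A) := by rw [ha]; ring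
    have e2 : z₀ + R * C - d = R * (C - D) := by rw [hd]; ring
    rw [e1, e2]
    field_simp
  · rw [hQ.mark3, ← hD, ← hd, hQ.disc]
    have h1 : Tendsto (fun z : ℂ => ‖z - d‖) (𝓝[ball z₀ R] d) (𝓝[>] 0) := by
      refine tendsto_nhdsWithin_iff.2 ⟨?_, ?_⟩
      · have h2 : Continuous fun z : ℂ => ‖z - d‖ := by fun_prop
        have h3 := h2.tendsto d
        rw [sub_self, norm_zero] at h3
        exact h3.mono_left nhdsWithin_le_nhds
      · filter_upwards [self_mem_nhdsWithin] with z hz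
        exact norm_pos_iff.2 (hne z hz)
    have h2 := tendsto_inv_nhdsGT_zero.comp h1
    have h3 : Tendsto (fun z : ℂ => ‖(C - D) / (C - A) * (z - a)‖) (𝓝[ball z₀ R] d)
        (𝓝 ‖(C - D) / (C - A) * (d - a)‖) := by
      have h4 : Continuous fun z : ℂ => ‖(C - D) / (C - A) * (z - a)‖ := by fun_prop
      exact (h4.tendsto d).mono_left nhdsWithin_le_nhds
    have h5 : 0 < ‖(C - D) / (C - A) * (d - a)‖ :=
      norm_pos_iff.2 (mul_ne_zero (div_ne_zero hCD0 hCA0) (sub_ne_zero.2 had.symm))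
    refine (h3.pos_mul_atTop h5 h2).congr fun z => ?_
    show ‖(C - D) / (C - A) * (z - a)‖ * ‖z - d‖⁻¹ = ‖(C - D) / (C - A) * (z - a) / (z - d)‖
    rw [norm_div _ (z - d)]
    exact (div_eq_mul_inv _ _).symm

end P148
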