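import Vale.Agent.P148.Modulus
import Vale.Agent.P148.Unif

/-!
# P148, row U1
-/

namespace P148

theorem modulus : ModulusStmt := modulus_of unif

end P148
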