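import Vale.Agent.P148.Props

/-!
# P148, row T3a: unions of small connected pieces along a connected set
-/

open Set Metric Topology

namespace P148

theorem conn_nbhd {U K : Set ℂ} (hK : IsConnected K) (N : ℂ → Set ℂ)
    (hN : ∀ p ∈ K, IsOpen (N p) ∧ p ∈ N p ∧ IsPreconnected (N p ∩ U) ∧ p ∈ closure U) :
    IsConnected (⋃ p ∈ K, N p ∩ U) := by
  have hmeet : ∀ p ∈ K, ∀ V : Set ℂ, IsOpen V → p ∈ V → (V ∩ U).Nonempty := fun p hp V hV hpV =>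
    mem_closure_iff.1 (hN p hp).2.2.2 V hV hpV
  refine ⟨?_, ?_⟩
  · obtain ⟨p, hp⟩ := hK.1
    obtain ⟨y, hy⟩ := hmeet p hp (N p) (hN p hp).1 (hN p hp).2.1
    exact ⟨y, mem_biUnion hp hy⟩
  · rw [isPreconnected_iff_subset_of_disjoint]
    intro u v hu hv huv hdis
    have hsub : ∀ p ∈ K, N p ∩ U ⊆ u ∨ N p ∩ U ⊆ v := by
      intro p hp
      have h1 : N p ∩ U ⊆ ⋃ p ∈ K, N p ∩ U := fun y hy => mem_biUnion hp hy
      refine isPreconnected_iff_subset_of_disjoint.1 (hN p hp).2.2.1 u v hu hv (h1.trans huv) ?_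
      rw [← subset_empty_iff] at hdis ⊢
      exact (inter_subset_inter_left _ h1).trans hdis
    have hno : ∀ y ∈ ⋃ p ∈ K, N p ∩ U, ¬ (y ∈ u ∧ y ∈ v) := by
      intro y hy h
      have : y ∈ (⋃ p ∈ K, N p ∩ U) ∩ (u ∩ v) := ⟨hy, h⟩
      rw [hdis] at this
      exact this
    set Ou : Set ℂ := ⋃ p ∈ {p | p ∈ K ∧ N p ∩ U ⊆ u}, N p with hOu
    set Ov : Set ℂ := ⋃ p ∈ {p | p ∈ K ∧ N p ∩ U ⊆ v}, N p with hOv
    have hOuo : IsOpen Ou := isOpen_biUnion fun p hp => (hN p hp.1).1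
    have hOvo : IsOpen Ov := isOpen_biUnion fun p hp => (hN p hp.1).1
    have hcov : K ⊆ Ou ∪ Ov := by
      intro p hp
      rcases hsub p hp with h | h
      · exact Or.inl (mem_biUnion (show p ∈ {p | p ∈ K ∧ N p ∩ U ⊆ u} from ⟨hp, h⟩) (hN p hp).2.1)
      · exact Or.inr (mem_biUnion (show p ∈ {p | p ∈ K ∧ N p ∩ U ⊆ v} from ⟨hp, h⟩) (hN p hp).2.1)
    have hdd : ∀ q ∈ K, ¬ (q ∈ Ou ∧ q ∈ Ov) := by
      rintro q hq ⟨h1, h2⟩
      simp only [hOu, hOv, mem_iUnion, mem_ofPred_eq, exists_prop] at h1 h2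
      obtain ⟨p, ⟨hp, hpu⟩, hqp⟩ := h1
      obtain ⟨p', ⟨hp', hpv⟩, hqp'⟩ := h2
      obtain ⟨y, ⟨hy1, hy2⟩, hyU⟩ := hmeet q hq (N p ∩ N p') ((hN p hp).1.inter (hN p' hp').1)
        ⟨hqp, hqp'⟩
      exact hno y (mem_biUnion hp ⟨hy1, hyU⟩) ⟨hpu ⟨hy1, hyU⟩, hpv ⟨hy2, hyU⟩⟩
    have hfin : ∀ q ∈ K, q ∈ Ou → N q ∩ U ⊆ u := by
      intro q hq hqu
      rcases hsub q hq with h | h
      · exact h
      · exact absurd ⟨hqu, mem_biUnion (show q ∈ {p | p ∈ K ∧ N p ∩ U ⊆ v} from ⟨hq, h⟩)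
          (hN q hq).2.1⟩ (hdd q hq)
    have hfin' : ∀ q ∈ K, q ∈ Ov → N q ∩ U ⊆ v := by
      intro q hq hqv
      rcases hsub q hq with h | h
      · exact absurd ⟨mem_biUnion (show q ∈ {p | p ∈ K ∧ N p ∩ U ⊆ u} from ⟨hq, h⟩)
          (hN q hq).2.1, hqv⟩ (hdd q hq)
      · exact h
    have hKK := isPreconnected_iff_subset_of_disjoint.1 hK.2 Ou Ov hOuo hOvo hcov (by
      rw [← subset_empty_iff]
      rintro q ⟨hq, h⟩
      exact hdd q hq h)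
    rcases hKK with h | h
    · exact Or.inl (iUnion₂_subset fun q hq => hfin q hq (h hq))
    · exact Or.inr (iUnion₂_subset fun q hq => hfin' q hq (h hq))

end P148
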