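import Vale.Agent.P148.Defs

/-!
# P148: the rows of the proof, as propositions
-/

open MeasureTheory Set Metric Topology Filter ProbabilityTheory
open scoped ENNReal NNReal

namespace P148

universe u

/-! ### topology -/

/-- T1: in a compact set without crossing, the two ends can be separated. -/
def SepStmt : Prop :=
  ∀ (F A A' : Set ℂ), IsCompact F → IsClosed A → IsClosed A' →
    (¬ ∃ K ⊆ F, IsConnected K ∧ (K ∩ A).Nonempty ∧ (K ∩ A').Nonempty) →
    ∃ F₁ F₂ : Set ℂ, IsCompact F₁ ∧ IsCompact F₂ ∧ Disjoint F₁ F₂ ∧ F₁ ∪ F₂ = F ∧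
      F ∩ A ⊆ F₁ ∧ F ∩ A' ⊆ F₂

/-- T2: one of two closed sets covering the square crosses it. -/
def DualStmt : Prop :=
  ∀ (F F' : Set ℂ), IsClosed F → IsClosed F' → sq ⊆ F ∪ F' →
    (∃ K ⊆ F ∩ sq, IsConnected K ∧ (K ∩ side 0).Nonempty ∧ (K ∩ side 2).Nonempty) ∨
    (∃ K ⊆ F' ∩ sq, IsConnected K ∧ (K ∩ side 1).Nonempty ∧ (K ∩ side 3).Nonempty)

/-- The level set `{G = 0}` is locally a curve with the two signs on its two sides. -/
def Tame (G : ℂ → ℝ) : Prop :=
  ∀ p, G p = 0 → ∀ δ > 0, ∃ N : Set ℂ, IsOpen N ∧ p ∈ N ∧ N ⊆ ball p δ ∧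
    IsPreconnected (N ∩ {z | G z < 0}) ∧ IsPreconnected (N ∩ {z | 0 < G z}) ∧
    p ∈ closure {z | G z < 0} ∧ p ∈ closure {z | 0 < G z}

/-- Near every zero on the boundary of the square both signs occur on the boundary. -/
def TameBd (G : ℂ → ℝ) : Prop :=
  ∀ i, ∀ p ∈ side i, G p = 0 → ∀ δ > 0, (∃ q ∈ side i, dist q p < δ ∧ G q < 0) ∧
    ∃ q ∈ side i, dist q p < δ ∧ 0 < G q

/-- T3: no simultaneous crossings. -/
def NotBothStmt : Prop :=
  ∀ G : ℂ → ℝ, Continuous G → Tame G → TameBd G → (∀ i, G (corner i) ≠ 0) →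
    (∃ K ⊆ {z | G z ≤ 0} ∩ sq, IsConnected K ∧ (K ∩ side 0).Nonempty ∧ (K ∩ side 2).Nonempty) →
    (∃ K ⊆ {z | 0 ≤ G z} ∩ sq, IsConnected K ∧ (K ∩ side 1).Nonempty ∧ (K ∩ side 3).Nonempty) →
    False

/-! ### measurability -/

/-- M: the crossing event of a random continuous function is measurable. -/
def MeasCrossStmt : Prop :=
  ∀ (Ω : Type u) [MeasurableSpace Ω] (f : Ω → ℂ → ℝ), (∀ ω, Continuous (f ω)) →
    (∀ z, Measurable fun ω => f ω z) → ∀ X A A' : Set ℂ, IsCompact X → IsCompact A →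
    IsCompact A' → A ⊆ X → A' ⊆ X →
    MeasurableSet {ω | ∃ K ⊆ {z | f ω z ≤ 0} ∩ X, IsConnected K ∧ (K ∩ A).Nonempty ∧
      (K ∩ A').Nonempty}

/-! ### Poisson processes -/

/-- The sigma-algebra generated by the void events. -/
@[reducible] def voidSigma : MeasurableSpace (Set Pt) :=
  MeasurableSpace.generateFrom {E | ∃ A : Set Pt, MeasurableSet A ∧ Bdd A ∧
    E = {S : Set Pt | S ∩ A = ∅}}

/-- P1: invariance of the law under isometries and colour changes. -/
def InvStmt : Prop :=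
  ∀ (Ω : Type u) [MeasurableSpace Ω] (P : Measure Ω) [IsProbabilityMeasure P] (S : Ω → Set Pt)
    (lam : ℝ≥0), IsColouredPoisson P S lam → ∀ (σ : ℂ ≃ᵢ ℂ) (τ : Equiv.Perm Bool)
    (E : Set (Set Pt)), MeasurableSet[voidSigma] E →
    MeasurableSet {ω | S ω ∈ E} ∧ MeasurableSet {ω | Prod.map σ τ '' S ω ∈ E} ∧
      P {ω | Prod.map σ τ '' S ω ∈ E} = P {ω | S ω ∈ E}

/-- P2: almost surely no `k` different points of the process lie in a given null set. -/
def KPointStmt : Prop :=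
  ∀ (Ω : Type u) [MeasurableSpace Ω] (P : Measure Ω) [IsProbabilityMeasure P] (S : Ω → Set Pt)
    (lam : ℝ≥0), IsColouredPoisson P S lam → ∀ (k : ℕ) (N : Set (Fin k → ℂ)), volume N = 0 →
    ∀ᵐ ω ∂P, ∀ x : Fin k → ℂ, Function.Injective x → (∀ i, x i ∈ pts (S ω)) → x ∉ N

/-- P3: almost surely both colours occur. -/
def ColoursStmt : Prop :=
  ∀ (Ω : Type u) [MeasurableSpace Ω] (P : Measure Ω) [IsProbabilityMeasure P] (S : Ω → Set Pt)
    (lam : ℝ≥0), 0 < lam → IsColouredPoisson P S lam →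
    ∀ᵐ ω ∂P, ∀ c : Bool, ∃ v : ℂ, (v, c) ∈ S ω

/-! ### null sets -/

/-- The affine function `y ↦ |y - v|² - |y - w|²`, negative near `v`. -/
noncomputable def ell (v w y : ℂ) : ℝ := dist y v ^ 2 - dist y w ^ 2

/-- N2: for a bounded set `Y`, almost no bisector supports `Y`. -/
def PairStmt : Prop :=
  ∀ Y : Set ℂ, Bornology.IsBounded Y → volume {x : Fin 2 → ℂ | x 0 ≠ x 1 ∧
    (∀ y ∈ Y, 0 ≤ ell (x 0) (x 1) y) ∧ ∀ ε > 0, ∃ y ∈ Y, ell (x 0) (x 1) y < ε} = 0

/-- The points of `A` near which `A` avoids an open cone. -/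
def coneFree (A : Set ℂ) : Set ℂ :=
  {z ∈ A | ∃ h : ℂ, ∃ τ > 0, ∃ r > 0, ∀ s : ℝ, 0 < s → s < r → Disjoint (ball (z + s * h) (s * τ)) A}

/-- N3: density. -/
def DensityStmt : Prop := ∀ A : Set ℂ, IsClosed A → volume (coneFree A) = 0

/-- N4: almost no triple has its circumcentre in a given null set. -/
def CircStmt : Prop :=
  ∀ N : Set ℂ, volume N = 0 → volume {x : Fin 3 → ℂ | Function.Injective x ∧
    ∃ z ∈ N, dist z (x 0) = dist z (x 1) ∧ dist z (x 0) = dist z (x 2)} = 0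

/-- N5: almost no four points are concyclic. -/
def FourStmt : Prop :=
  volume {x : Fin 4 → ℂ | Function.Injective x ∧
    ∃ z, dist z (x 0) = dist z (x 1) ∧ dist z (x 0) = dist z (x 2) ∧
      dist z (x 0) = dist z (x 3)} = 0

/-- N6: almost no bisector contains a given point. -/
def CornerStmt : Prop := ∀ a : ℂ, volume {x : Fin 2 → ℂ | dist a (x 0) = dist a (x 1)} = 0

/-! ### local geometry -/

/-- The white and black point sets. -/
def col (S : Set Pt) (c : Bool) : Set ℂ := {v | (v, c) ∈ S}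

/-- Distance to black minus distance to white. -/
noncomputable def gap (S : Set Pt) (z : ℂ) : ℝ := infDist z (col S true) - infDist z (col S false)

/-- The deterministic conditions on a configuration used in the geometry. -/
structure Good (S : Set Pt) : Prop where
  locFin : ∀ r : ℝ, (S ∩ ball (0 : ℂ) r ×ˢ univ).Finite
  oneColour : ∀ z, ¬ ((z, true) ∈ S ∧ (z, false) ∈ S)
  colours : ∀ c : Bool, (col S c).Nonempty
  four : ∀ x : Fin 4 → ℂ, Function.Injective x → (∀ i, x i ∈ pts S) →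
    ¬ ∃ z, dist z (x 0) = dist z (x 1) ∧ dist z (x 0) = dist z (x 2) ∧ dist z (x 0) = dist z (x 3)

/-- V: the black region is where the distance to black is at most the distance to white. -/
def RegionStmt : Prop := ∀ S : Set Pt, Good S → blackRegion S = {z | gap S z ≤ 0}

/-- L1: the interface is locally a curve. -/
def TameStmt : Prop := ∀ S : Set Pt, Good S → Tame (gap S)

/-- L2: if near a zero `z` of `gap` in the closed set `A` one sign does not occur on `A`, then `z`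
is on a supporting bisector, or it is the centre of three points of the process and `A` avoids a
cone at `z`. -/
def BdStmt : Prop :=
  ∀ S : Set Pt, Good S → ∀ A : Set ℂ, IsClosed A → ∀ z ∈ A, gap S z = 0 → ∀ r > 0,
    ((∀ y ∈ A ∩ ball z r, 0 ≤ gap S y) ∨ (∀ y ∈ A ∩ ball z r, gap S y ≤ 0)) →
    (∃ v ∈ pts S, ∃ w ∈ pts S, v ≠ w ∧ ell v w z = 0 ∧ ∃ r' > 0, ∀ y ∈ A ∩ ball z r', 0 ≤ ell v w y) ∨
    (z ∈ coneFree A ∧ ∃ x : Fin 3 → ℂ, Function.Injective x ∧ (∀ i, x i ∈ pts S) ∧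
      dist z (x 0) = dist z (x 1) ∧ dist z (x 0) = dist z (x 2))

/-! ### conformal part -/

/-- C: the modulus of a self-dual quad. -/
def HalfStmt : Prop :=
  ∀ (Q : Quad) (φ : ℂ → ℂ) (x : ℝ), Q.IsUniformizer φ x → Q.SelfDual → x = 1 / 2

/-- F: Cardy's function at one half. -/
def CardyHalfStmt : Prop := cardy (1 / 2) = 1 / 2

end P148
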