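import Vale.Agent.P148.Final
import Vale.Agent.P148.Colours2

/-!
# P148, second theorem: quads in a disc. Definitions and rows
-/

open MeasureTheory Set Metric Topology Filter ProbabilityTheory
open scoped ENNReal NNReal

namespace P148

universe u

/-- The arc `{z₀ + R e^{iu} : s ≤ u ≤ t}` of the circle with centre `z₀` and radius `R`. -/
noncomputable def cArc (z₀ : ℂ) (R s t : ℝ) : Set ℂ :=
  (fun u : ℝ => z₀ + R * Complex.exp (u * Complex.I)) '' Icc s t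

/-- The quad is a disc with marked points at the angles `θ₀, θ₁, θ₂, θ₃` (counterclockwise). -/
structure Quad.IsDisc (Q : Quad) (z₀ : ℂ) (R θ₀ θ₁ θ₂ θ₃ : ℝ) : Prop where
  disc : Q.D = ball z₀ R
  mark0 : Q.mark 0 = z₀ + R * Complex.exp (θ₀ * Complex.I)
  mark1 : Q.mark 1 = z₀ + R * Complex.exp (θ₁ * Complex.I)
  mark2 : Q.mark 2 = z₀ + R * Complex.exp (θ₂ * Complex.I)
  mark3 : Q.mark 3 = z₀ + R * Complex.exp (θ₃ * Complex.I)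
  arc0 : Q.arc 0 = cArc z₀ R θ₀ θ₁
  arc1 : Q.arc 1 = cArc z₀ R θ₁ θ₂
  arc2 : Q.arc 2 = cArc z₀ R θ₂ θ₃
  arc3 : Q.arc 3 = cArc z₀ R θ₃ (θ₀ + 2 * Real.pi)

/-- The black crossing event of a compact set `X` from `A` to `A'`. -/
def crossEv (X A A' : Set ℂ) : Set (Set Pt) :=
  {T | ∃ K ⊆ {z | gap T z ≤ 0} ∩ X, IsConnected K ∧ (K ∩ A).Nonempty ∧ (K ∩ A').Nonempty}

/-- The black crossing event of the disc from the arc `[s, t]` to the arc `[u, v]`. -/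
def discX (z₀ : ℂ) (R s t u v : ℝ) : Set (Set Pt) :=
  crossEv (closedBall z₀ R) (cArc z₀ R s t) (cArc z₀ R u v)

/-! ### FKG -/

/-- Increasing events: more black points and fewer white points. -/
def Incr (F : Set (Set Pt)) : Prop :=
  ∀ T T' : Set Pt, (∀ v, (v, true) ∈ T → (v, true) ∈ T') →
    (∀ v, (v, false) ∈ T' → (v, false) ∈ T) → T ∈ F → T' ∈ F

/-- Pixels of side `2⁻ᵏ`. -/
def pixel (k : ℕ) (m : ℤ × ℤ) : Set ℂ := {z | ⌊z.re * 2 ^ k⌋ = m.1 ∧ ⌊z.im * 2 ^ k⌋ = m.2}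

/-- The lower left corner of a pixel. -/
noncomputable def pixPt (k : ℕ) (m : ℤ × ℤ) : ℂ := ⟨m.1 / 2 ^ k, m.2 / 2 ^ k⟩

/-- The pixels of level `k` in a large window. -/
noncomputable def window (k : ℕ) : Finset (ℤ × ℤ) := Finset.Icc (-4 ^ k) (4 ^ k) ×ˢ Finset.Icc (-4 ^ k) (4 ^ k)

/-- The pixelized configuration. -/
noncomputable def pix (k : ℕ) (T : Set Pt) : Set Pt :=
  {q | ∃ m ∈ window k, q.1 = pixPt k m ∧ (T ∩ pixel k m ×ˢ {q.2}).Nonempty}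

/-- `E` is approximated by increasing events of the pixelized configuration. -/
def Appr (E : Set (Set Pt)) : Prop :=
  ∃ F : ℕ → Set (Set Pt), (∀ k, Incr (F k)) ∧ ∀ T, Good T →
    (T ∈ E → ∀ᶠ k in atTop, pix k T ∈ F k) ∧ (T ∉ E → ∀ᶠ k in atTop, pix k T ∉ F k)

/-- F1 (Harris inequality for the pixelized configuration; Mathlib: `fkg`). -/
def HarrisStmt : Prop :=
  ∀ (Ω : Type u) [MeasurableSpace Ω] (P : Measure Ω) [IsProbabilityMeasure P] (S : Ω → Set Pt)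
    (lam : ℝ≥0), IsColouredPoisson P S lam → ∀ (k : ℕ) (F F' : Set (Set Pt)), Incr F → Incr F' →
    MeasurableSet {ω | pix k (S ω) ∈ F} ∧
      P {ω | pix k (S ω) ∈ F} * P {ω | pix k (S ω) ∈ F'} ≤ P {ω | pix k (S ω) ∈ F ∩ F'}

/-- F2: crossing events are approximable. (Take for `F k` the crossing event of the set
`{z | infEDist z (black) ≤ infEDist z (white) + 4 * 2⁻ᵏ}`: `infEDist`, not `infDist`, so that it is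
increasing also when a colour is missing.) -/
def ApprStmt : Prop :=
  ∀ X A A' : Set ℂ, IsCompact X → IsCompact A → IsCompact A' → A ⊆ X → A' ⊆ X →
    Appr (crossEv X A A')

/-- F3: FKG for approximable events. -/
def FKGStmt : Prop :=
  ∀ (Ω : Type u) [MeasurableSpace Ω] (P : Measure Ω) [IsProbabilityMeasure P] (S : Ω → Set Pt)
    (lam : ℝ≥0), 0 < lam → IsColouredPoisson P S lam → ∀ E E' : Set (Set Pt),
    MeasurableSet[voidSigma] E → MeasurableSet[voidSigma] E' → Appr E → Appr E' →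
    P {ω | S ω ∈ E} * P {ω | S ω ∈ E'} ≤ P {ω | S ω ∈ E ∩ E'}

/-! ### discs -/

/-- D1: disc quads exist. -/
def DiscQuadStmt : Prop :=
  ∀ (z₀ : ℂ) (R θ₀ θ₁ θ₂ θ₃ : ℝ), 0 < R → θ₀ < θ₁ → θ₁ < θ₂ → θ₂ < θ₃ →
    θ₃ < θ₀ + 2 * Real.pi → ∃ Q : Quad, Q.IsDisc z₀ R θ₀ θ₁ θ₂ θ₃

/-- D2: reflections and rotations of the disc. -/
def SymmStmt : Prop :=
  ∀ (Ω : Type u) [MeasurableSpace Ω] (P : Measure Ω) [IsProbabilityMeasure P] (S : Ω → Set Pt)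
    (lam : ℝ≥0), IsColouredPoisson P S lam → ∀ (z₀ : ℂ) (R : ℝ), 0 < R → ∀ s t u v : ℝ,
    (∀ ψ, P {ω | S ω ∈ discX z₀ R (2 * ψ - t) (2 * ψ - s) (2 * ψ - v) (2 * ψ - u)} =
      P {ω | S ω ∈ discX z₀ R s t u v}) ∧
    (∀ ψ, P {ω | S ω ∈ discX z₀ R (s + ψ) (t + ψ) (u + ψ) (v + ψ)} =
      P {ω | S ω ∈ discX z₀ R s t u v})

/-- D3: the dichotomy for discs, almost surely and in probability. -/
def DichStmt : Prop :=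
  ∀ (Ω : Type u) [MeasurableSpace Ω] (P : Measure Ω) [IsProbabilityMeasure P] (S : Ω → Set Pt)
    (lam : ℝ≥0), 0 < lam → IsColouredPoisson P S lam → ∀ (z₀ : ℂ) (R : ℝ), 0 < R →
    ∀ θ₀ θ₁ θ₂ θ₃ : ℝ, θ₀ < θ₁ → θ₁ < θ₂ → θ₂ < θ₃ → θ₃ < θ₀ + 2 * Real.pi →
    (∀ᵐ ω ∂P, S ω ∈ discX z₀ R θ₀ θ₁ θ₂ θ₃ ↔
      flip (S ω) ∉ discX z₀ R θ₁ θ₂ θ₃ (θ₀ + 2 * Real.pi)) ∧
    P {ω | S ω ∈ discX z₀ R θ₀ θ₁ θ₂ θ₃} +
      P {ω | S ω ∈ discX z₀ R θ₁ θ₂ θ₃ (θ₀ + 2 * Real.pi)} = 1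

/-- D4: kites. -/
def KiteStmt : Prop :=
  ∀ (Ω : Type u) [MeasurableSpace Ω] (P : Measure Ω) [IsProbabilityMeasure P] (S : Ω → Set Pt)
    (lam : ℝ≥0), 0 < lam → IsColouredPoisson P S lam → ∀ (z₀ : ℂ) (R : ℝ), 0 < R →
    ∀ b β : ℝ, 0 < β → β < Real.pi →
    P {ω | S ω ∈ discX z₀ R b (b + β) (b + Real.pi) (b - β + 2 * Real.pi)} = 1 / 2 ∧
    P {ω | S ω ∈ discX z₀ R (b - β) b (b + β) (b + Real.pi)} = 1 / 2

/-- D5: gluing of interlaced crossings. -/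
def GlueStmt : Prop :=
  ∀ (Ω : Type u) [MeasurableSpace Ω] (P : Measure Ω) [IsProbabilityMeasure P] (S : Ω → Set Pt)
    (lam : ℝ≥0), 0 < lam → IsColouredPoisson P S lam → ∀ (z₀ : ℂ) (R : ℝ), 0 < R →
    ∀ i₀ i₁ j₀ j₁ k₀ k₁ l₀ l₁ : ℝ, i₀ < i₁ → i₁ ≤ j₀ → j₀ < j₁ → j₁ ≤ k₀ → k₀ < k₁ → k₁ ≤ l₀ →
    l₀ < l₁ → l₁ < i₀ + 2 * Real.pi →
    ∀ᵐ ω ∂P, S ω ∈ discX z₀ R i₀ i₁ k₀ k₁ → S ω ∈ discX z₀ R j₀ j₁ l₀ l₁ →
      S ω ∈ discX z₀ R i₀ i₁ l₀ l₁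

/-- D6: the basic bound. -/
def BasicStmt : Prop :=
  ∀ (Ω : Type u) [MeasurableSpace Ω] (P : Measure Ω) [IsProbabilityMeasure P] (S : Ω → Set Pt)
    (lam : ℝ≥0), 0 < lam → IsColouredPoisson P S lam → ∀ (z₀ : ℂ) (R : ℝ), 0 < R →
    ∀ θ₀ θ₁ θ₂ θ₃ : ℝ, θ₀ < θ₁ → θ₁ < θ₂ → θ₂ < θ₃ → θ₃ < θ₀ + 2 * Real.pi →
    θ₂ - θ₁ ≤ θ₁ - θ₀ → θ₂ - θ₁ ≤ θ₃ - θ₂ →
    1 / 4 ≤ P {ω | S ω ∈ discX z₀ R θ₀ θ₁ θ₂ θ₃}

/-- D7: the chain bound. -/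
def ChainStmt : Prop :=
  ∀ (Ω : Type u) [MeasurableSpace Ω] (P : Measure Ω) [IsProbabilityMeasure P] (S : Ω → Set Pt)
    (lam : ℝ≥0), 0 < lam → IsColouredPoisson P S lam → ∀ (z₀ : ℂ) (R : ℝ), 0 < R →
    ∀ θ₀ θ₁ θ₂ θ₃ : ℝ, θ₀ < θ₁ → θ₁ < θ₂ → θ₂ < θ₃ → θ₃ < θ₀ + 2 * Real.pi →
    ∀ k : ℕ, θ₂ - θ₁ ≤ k * min (θ₁ - θ₀) (θ₃ - θ₂) →
    (1 / 4) ^ k ≤ P {ω | S ω ∈ discX z₀ R θ₀ θ₁ θ₂ θ₃}

/-- D8: six equal arcs. -/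
def HexStmt : Prop :=
  ∀ (Ω : Type u) [MeasurableSpace Ω] (P : Measure Ω) [IsProbabilityMeasure P] (S : Ω → Set Pt)
    (lam : ℝ≥0), 0 < lam → IsColouredPoisson P S lam → ∀ (z₀ : ℂ) (R : ℝ), 0 < R →
    ∀ θ : ℝ, 1 / 3 ≤ P {ω | S ω ∈ discX z₀ R θ (θ + Real.pi / 3) (θ + 2 * Real.pi / 3)
      (θ + Real.pi)} ∧
    P {ω | S ω ∈ discX z₀ R θ (θ + Real.pi / 3) (θ + 2 * Real.pi / 3) (θ + Real.pi)} ≤ 1 / 2

/-! ### the modulus -/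

/-- The cross-ratio of four points of the circle in terms of the arcs. -/
noncomputable def xr (α β γ : ℝ) : ℝ :=
  Real.sin (α / 2) * Real.sin (γ / 2) / (Real.sin ((α + β) / 2) * Real.sin ((β + γ) / 2))

/-- U1: the modulus of a disc quad. -/
def ModulusStmt : Prop :=
  ∀ (Q : Quad) (z₀ : ℂ) (R θ₀ θ₁ θ₂ θ₃ : ℝ), 0 < R → θ₀ < θ₁ → θ₁ < θ₂ → θ₂ < θ₃ →
    θ₃ < θ₀ + 2 * Real.pi → Q.IsDisc z₀ R θ₀ θ₁ θ₂ θ₃ → ∀ (φ : ℂ → ℂ) (x : ℝ),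
    Q.IsUniformizer φ x → x = xr (θ₁ - θ₀) (θ₂ - θ₁) (θ₃ - θ₂)

/-- U2: every disc quad has a uniformizer. -/
def UnifStmt : Prop :=
  ∀ (Q : Quad) (z₀ : ℂ) (R θ₀ θ₁ θ₂ θ₃ : ℝ), 0 < R → θ₀ < θ₁ → θ₁ < θ₂ → θ₂ < θ₃ →
    θ₃ < θ₀ + 2 * Real.pi → Q.IsDisc z₀ R θ₀ θ₁ θ₂ θ₃ →
    ∃ φ : ℂ → ℂ, Q.IsUniformizer φ (xr (θ₁ - θ₀) (θ₂ - θ₁) (θ₃ - θ₂))

/-- U3: trigonometry. -/
def TrigStmt : Prop :=
  ∀ α β γ δ : ℝ, 0 < α → 0 < β → 0 < γ → 0 < δ → α + β + γ + δ = 2 * Real.pi →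
    0 < xr α β γ ∧ xr α β γ < 1 ∧ xr β γ δ = 1 - xr α β γ ∧
    min β δ / min α γ + 1 ≤ Real.pi / xr α β γ

/-- N: a numerical bound. -/
def CardyThirdStmt : Prop := 41 / 100 ≤ cardy (1 / 3) ∧ cardy (1 / 3) ≤ 423 / 1000

/-! ### sanity checks -/

theorem crossSet_of_isDisc {Q : Quad} {z₀ : ℂ} {R θ₀ θ₁ θ₂ θ₃ : ℝ} (hR : 0 < R)
    (h : Q.IsDisc z₀ R θ₀ θ₁ θ₂ θ₃) : crossSet Q 0 2 = discX z₀ R θ₀ θ₁ θ₂ θ₃ ∧
      crossSet Q 1 3 = discX z₀ R θ₁ θ₂ θ₃ (θ₀ + 2 * Real.pi) := by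
  have hc : closure Q.D = closedBall z₀ R := by rw [h.disc, closure_ball _ hR.ne']
  constructor
  · ext T
    simp only [crossSet, Quad.Cross, discX, crossEv, mem_ofPred_eq, hc, h.arc0, h.arc2]
  · ext T
    simp only [crossSet, Quad.Cross, discX, crossEv, mem_ofPred_eq, hc, h.arc1, h.arc3]

theorem isCompact_cArc (z₀ : ℂ) (R s t : ℝ) : IsCompact (cArc z₀ R s t) :=
  isCompact_Icc.image (by fun_prop)

theorem cArc_subset {z₀ : ℂ} {R s t : ℝ} (hR : 0 < R) : cArc z₀ R s t ⊆ closedBall z₀ R := by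
  rintro _ ⟨u, -, rfl⟩
  rw [mem_closedBall, dist_eq_norm, add_sub_cancel_left, norm_mul, Complex.norm_exp_ofReal_mul_I,
    mul_one, Complex.norm_real, Real.norm_of_nonneg hR.le]

theorem measurable_discX {z₀ : ℂ} {R : ℝ} (hR : 0 < R) (s t u v : ℝ) :
    MeasurableSet[voidSigma] (discX z₀ R s t u v) :=
  @measCross.{0} (Set Pt) voidSigma gap continuous_gap measurable_gap (closedBall z₀ R)
    (cArc z₀ R s t) (cArc z₀ R u v) (isCompact_closedBall _ _) (isCompact_cArc _ _ _ _)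
    (isCompact_cArc _ _ _ _) (cArc_subset hR) (cArc_subset hR)

end P148
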