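import Vale.Agent.P148.Final
import Vale.Agent.P148.Colours2

/-!
# P148: the quenched form of the duality
-/

open MeasureTheory Set Metric Topology Filter ProbabilityTheory
open scoped ENNReal NNReal

namespace P148

universe u

section prob

variable {Ω : Type u} [MeasurableSpace Ω] {P : Measure Ω} [IsProbabilityMeasure P]
  {S : Ω → Set Pt} {lam : ℝ≥0}

/-- The sigma-algebra generated by the positions of the points: it is generated by the events
'no point of the process lies in `B`', where `B` is a bounded Borel set of the plane. -/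
@[reducible] def posSigma (S : Ω → Set Pt) : MeasurableSpace Ω :=
  MeasurableSpace.generateFrom {A | ∃ B : Set ℂ, MeasurableSet B ∧ Bornology.IsBounded B ∧
    A = {ω | pts (S ω) ∩ B = ∅}}

theorem pts_inter_eq_empty (T : Set Pt) (B : Set ℂ) : pts T ∩ B = ∅ ↔ T ∩ B ×ˢ univ = ∅ := by
  simp only [Set.eq_empty_iff_forall_notMem, pts]
  constructor
  · rintro h ⟨v, c⟩ ⟨h1, h2⟩
    exact h v ⟨⟨(v, c), h1, rfl⟩, h2.1⟩
  · rintro h v ⟨⟨⟨v', c⟩, h1, rfl⟩, h2⟩
    exact h (v', c) ⟨h1, h2, mem_univ _⟩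

/-- An event determined by the positions is invariant under the flip of the colours. -/
theorem exists_of_posSigma {A : Set Ω} (hA : MeasurableSet[posSigma S] A) :
    ∃ E : Set (Set Pt), MeasurableSet[voidSigma] E ∧ (∀ T, flip T ∈ E ↔ T ∈ E) ∧
      A = {ω | S ω ∈ E} := by
  let _ : MeasurableSpace (Set Pt) := voidSigma
  refine MeasurableSpace.generateFrom_induction _ (fun A _ => ∃ E : Set (Set Pt),
    MeasurableSet E ∧ (∀ T, flip T ∈ E ↔ T ∈ E) ∧ A = {ω | S ω ∈ E}) ?_ ?_ ?_ ?_ A hA
  · rintro _ ⟨B, hB, hb, rfl⟩ -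
    refine ⟨{T | pts T ∩ B = ∅}, ?_, fun T => ?_, rfl⟩
    · refine MeasurableSpace.measurableSet_generateFrom ⟨B ×ˢ univ, hB.prod .univ, ?_, ?_⟩
      · obtain ⟨r, hr⟩ := hb.subset_ball 0
        exact ⟨r, prod_mono hr subset_rfl⟩
      · ext T
        exact pts_inter_eq_empty T B
    · change pts (flip T) ∩ B = ∅ ↔ pts T ∩ B = ∅
      rw [pts_flip]
  · exact ⟨∅, MeasurableSet.empty, fun T => Iff.rfl, by simp⟩
  · rintro A - ⟨E, h1, h2, rfl⟩
    exact ⟨Eᶜ, h1.compl, fun T => not_congr (h2 T), rfl⟩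
  · intro A _ h
    choose E h1 h2 h3 using h
    refine ⟨⋃ n, E n, MeasurableSet.iUnion h1, fun T => ?_, ?_⟩
    · simp only [mem_iUnion]
      exact exists_congr fun n => h2 n T
    · ext ω
      simp only [mem_iUnion, mem_ofPred_eq]
      refine exists_congr fun n => ?_
      rw [h3 n]
      rfl

theorem posSigma_le (h : IsColouredPoisson P S lam) : posSigma S ≤ ‹MeasurableSpace Ω› := by
  intro A hA
  obtain ⟨E, h1, -, rfl⟩ := exists_of_posSigma hA
  exact h.measurable_self h1

theorem duality_pos (hlam : 0 < lam) (h : IsColouredPoisson P S lam) (Q : Quad) {A : Set Ω}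
    (hA : MeasurableSet[posSigma S] A) :
    P ({ω | Q.Cross 0 2 (blackRegion (S ω))} ∩ A) +
      P ({ω | Q.Cross 1 3 (blackRegion (S ω))} ∩ A) = P A := by
  obtain ⟨E, hE1, hE2, rfl⟩ := exists_of_posSigma hA
  have hg := ae_goodBd' kPoint2 colours2 hlam Q h
  have he : ∀ i j : Fin 4, {ω | Q.Cross i j (blackRegion (S ω))} =ᵐ[P]
      {ω | S ω ∈ crossSet Q i j} := by
    intro i j
    filter_upwards [hg] with ω hω
    have : Q.Cross i j (blackRegion (S ω)) ↔ S ω ∈ crossSet Q i j := by
      rw [region (S ω) hω.toGood]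
      exact Iff.rfl
    exact propext this
  have hm : MeasurableSet[voidSigma] (crossSet Q 1 3 ∩ E) :=
    MeasurableSet.inter (measurable_crossSet measCross Q 1 3) hE1
  obtain ⟨-, hm2, h3⟩ := inv Ω P S lam h (IsometryEquiv.refl ℂ) Equiv.boolNot _ hm
  have hm3 : MeasurableSet {ω | S ω ∈ E} := h.measurable_self hE1
  have hm4 : MeasurableSet {ω | flip (S ω) ∈ crossSet Q 1 3} :=
    (prob_flip inv measCross Q 1 3 h).2.1
  have e1 : P ({ω | Q.Cross 1 3 (blackRegion (S ω))} ∩ {ω | S ω ∈ E}) =
      P ({ω | flip (S ω) ∈ crossSet Q 1 3} ∩ {ω | S ω ∈ E}) := by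
    have a1 : P ({ω | Q.Cross 1 3 (blackRegion (S ω))} ∩ {ω | S ω ∈ E}) =
        P {ω | S ω ∈ crossSet Q 1 3 ∩ E} :=
      measure_congr ((he 1 3).inter (ae_eq_refl _))
    rw [a1, ← h3]
    congr 1
    ext ω
    exact and_congr_right fun _ => hE2 (S ω)
  have e2 : P ({ω | Q.Cross 0 2 (blackRegion (S ω))} ∩ {ω | S ω ∈ E}) =
      P ({ω | flip (S ω) ∈ crossSet Q 1 3}ᶜ ∩ {ω | S ω ∈ E}) := by
    refine measure_congr ?_
    refine ((he 0 2).trans ?_).inter (ae_eq_refl _)
    filter_upwards [hg] with ω hω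
    exact propext (dichotomy (dual sep) notBoth tame Q (S ω) hω)
  rw [e1, e2, inter_comm _ {ω | S ω ∈ E}, inter_comm _ {ω | S ω ∈ E}, add_comm,
    ← sdiff_eq, measure_inter_add_sdiff _ hm4]

/-- **The quenched duality**: given the positions of the points, the conditional crossing
probabilities of a quad and of the rotated quad add up to one. -/
theorem quenched (hlam : 0 < lam) (h : IsColouredPoisson P S lam) (Q : Quad) :
    ∀ᵐ ω ∂P, (P[{ω | Q.Cross 0 2 (blackRegion (S ω))}.indicator (fun _ => (1 : ℝ)) | posSigma S]) ω +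
      (P[{ω | Q.Cross 1 3 (blackRegion (S ω))}.indicator (fun _ => (1 : ℝ)) | posSigma S]) ω = 1 := by
  obtain ⟨-, hn1, hn2, -⟩ := duality kPoint2 colours2 hlam h Q
  have hi1 : Integrable ({ω | Q.Cross 0 2 (blackRegion (S ω))}.indicator (fun _ => (1 : ℝ))) P :=
    (integrable_const 1).indicator₀ hn1
  have hi2 : Integrable ({ω | Q.Cross 1 3 (blackRegion (S ω))}.indicator (fun _ => (1 : ℝ))) P :=
    (integrable_const 1).indicator₀ hn2
  have hle := posSigma_le h
  have h1 := condExp_add hi1 hi2 (posSigma S)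
  have h2 : (fun _ : Ω => (1 : ℝ)) =ᵐ[P] P[{ω | Q.Cross 0 2 (blackRegion (S ω))}.indicator
      (fun _ => (1 : ℝ)) + {ω | Q.Cross 1 3 (blackRegion (S ω))}.indicator (fun _ => (1 : ℝ)) |
        posSigma S] := by
    refine ae_eq_condExp_of_forall_setIntegral_eq hle (hi1.add hi2)
      (fun _ _ _ => (integrable_const 1).integrableOn) ?_ aestronglyMeasurable_const
    intro A hA _
    have hA' := hle A hA
    rw [integral_const, measureReal_restrict_apply_univ, smul_eq_mul, mul_one]
    have := duality_pos hlam h Q hA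
    simp only [Pi.add_apply]
    rw [integral_add hi1.integrableOn hi2.integrableOn,
      integral_indicator₀ (hn1.mono_ac Measure.absolutelyContinuous_restrict),
      integral_indicator₀ (hn2.mono_ac Measure.absolutelyContinuous_restrict)]
    simp only [integral_const, smul_eq_mul, mul_one, measureReal_def, Measure.restrict_apply_univ]
    rw [Measure.restrict_apply₀ (hn1.mono_ac Measure.absolutelyContinuous_restrict),
      Measure.restrict_apply₀ (hn2.mono_ac Measure.absolutelyContinuous_restrict),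
      ← this, ENNReal.toReal_add (measure_ne_top _ _) (measure_ne_top _ _)]
  filter_upwards [h1, h2] with ω h1 h2
  rw [← Pi.add_apply, ← h1, ← h2]

end prob

end P148
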