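import Vale.Agent.P148.DiscQuad
import Vale.Agent.P148.DDich
import Vale.Agent.P148.DGlue
import Vale.Agent.P148.Quenched

/-!
# P148, third theorem: three arcs. Definitions and rows
-/

open MeasureTheory Set Metric Topology Filter ProbabilityTheory
open scoped ENNReal NNReal

namespace P148

universe u

/-- `F` contains a connected set meeting `A` and `B`. -/
def Conn (F A B : Set ℂ) : Prop :=
  ∃ K ⊆ F, IsConnected K ∧ (K ∩ A).Nonempty ∧ (K ∩ B).Nonempty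

/-- `F` contains a connected set meeting `A`, `B` and `C`. -/
def Conn3 (F A B C : Set ℂ) : Prop :=
  ∃ K ⊆ F, IsConnected K ∧ (K ∩ A).Nonempty ∧ (K ∩ B).Nonempty ∧ (K ∩ C).Nonempty

/-- The point of the unit circle at angle `t`. -/
noncomputable def pt (t : ℝ) : ℂ := Complex.exp (t * Complex.I)

/-- The closed set of the unit disc where `g ≤ 0`. -/
def Fb (g : ℂ → ℝ) : Set ℂ := {z | g z ≤ 0} ∩ closedBall 0 1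

/-- The closed set of the unit disc where `0 ≤ g`. -/
def Fw (g : ℂ → ℝ) : Set ℂ := {z | 0 ≤ g z} ∩ closedBall 0 1

/-- Y2a: crossings in the square meet. -/
def SqMeetStmt : Prop :=
  ∀ K L : Set ℂ, IsCompact K → IsCompact L → K ⊆ sq → L ⊆ sq → IsConnected K → IsConnected L →
    (K ∩ side 0).Nonempty → (K ∩ side 2).Nonempty → (L ∩ side 1).Nonempty →
    (L ∩ side 3).Nonempty → (K ∩ L).Nonempty

/-- Y2b: crossings in the disc meet. -/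
def MeetStmt : Prop :=
  ∀ θ₀ θ₁ θ₂ θ₃ : ℝ, θ₀ < θ₁ → θ₁ < θ₂ → θ₂ < θ₃ → θ₃ < θ₀ + 2 * Real.pi →
    ∀ K L : Set ℂ, IsCompact K → IsCompact L → K ⊆ closedBall 0 1 → L ⊆ closedBall 0 1 →
    IsConnected K → IsConnected L → (K ∩ cArc 0 1 θ₀ θ₁).Nonempty →
    (K ∩ cArc 0 1 θ₂ θ₃).Nonempty → (L ∩ cArc 0 1 θ₁ θ₂).Nonempty →
    (L ∩ cArc 0 1 θ₃ (θ₀ + 2 * Real.pi)).Nonempty → (K ∩ L).Nonempty

/-- Y3: limits of crossings. -/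
def LimStmt : Prop :=
  ∀ (F A : Set ℂ) (B : ℕ → Set ℂ), IsCompact F → IsClosed A → (∀ n, IsCompact (B n)) →
    Antitone B → (∀ n, Conn F A (B n)) → Conn F A (⋂ n, B n)

/-- Y4: three arcs from pairs of arcs. -/
def ThreeStmt : Prop :=
  ∀ τ₀ τ₁ τ₂ : ℝ, τ₀ < τ₁ → τ₁ < τ₂ → τ₂ < τ₀ + 2 * Real.pi → ∀ F : Set ℂ, IsCompact F →
    F ⊆ closedBall 0 1 →
    (¬ Conn3 F (cArc 0 1 τ₀ τ₁) (cArc 0 1 τ₁ τ₂) (cArc 0 1 τ₂ (τ₀ + 2 * Real.pi)) ↔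
      ∃ q : ℚ, τ₀ < q ∧ (q : ℝ) < τ₁ ∧ ¬ Conn F (cArc 0 1 τ₀ q) (cArc 0 1 τ₁ τ₂) ∧
        ¬ Conn F (cArc 0 1 q τ₁) (cArc 0 1 τ₂ (τ₀ + 2 * Real.pi)))

/-- Near every zero of `g` on the unit circle both signs occur on the circle. -/
def CircleBd (g : ℂ → ℝ) : Prop :=
  ∀ p ∈ sphere (0 : ℂ) 1, g p = 0 → ∀ δ > 0, (∃ q ∈ sphere (0 : ℂ) 1, dist q p < δ ∧ g q < 0) ∧
    ∃ q ∈ sphere (0 : ℂ) 1, dist q p < δ ∧ 0 < g q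

/-- Y5a: a connected set which touches the circle in a zero of `g` can be enlarged so that it
touches the circle in another point nearby. -/
def ExtStmt : Prop :=
  ∀ g : ℂ → ℝ, Continuous g → Tame g → CircleBd g → ∀ K ⊆ Fb g, IsConnected K →
    ∀ p ∈ K, p ∈ sphere (0 : ℂ) 1 → g p = 0 → (∃ k ∈ K, k ≠ p) → ∀ δ > 0,
    ∃ K' ⊆ Fb g, K ⊆ K' ∧ IsConnected K' ∧ ∃ e ∈ K', e ∈ sphere (0 : ℂ) 1 ∧ dist e p < δ ∧ e ≠ p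

/-- Y5b: the two colours do not both meet the three arcs. -/
def ExclStmt : Prop :=
  ∀ (g : ℂ → ℝ) (τ₀ τ₁ τ₂ : ℝ), τ₀ < τ₁ → τ₁ < τ₂ → τ₂ < τ₀ + 2 * Real.pi → Continuous g →
    Tame g → CircleBd g → g (pt τ₀) ≠ 0 → g (pt τ₁) ≠ 0 → g (pt τ₂) ≠ 0 →
    (∀ q : ℚ, τ₀ < q → (q : ℝ) < τ₁ →
      ¬ (Conn (Fb g) (cArc 0 1 τ₀ q) (cArc 0 1 τ₁ τ₂) ∧
        Conn (Fw g) (cArc 0 1 q τ₁) (cArc 0 1 τ₂ (τ₀ + 2 * Real.pi))) ∧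
      ¬ (Conn (Fb g) (cArc 0 1 q τ₁) (cArc 0 1 τ₂ (τ₀ + 2 * Real.pi)) ∧
        Conn (Fw g) (cArc 0 1 τ₀ q) (cArc 0 1 τ₁ τ₂))) →
    ¬ (Conn3 (Fb g) (cArc 0 1 τ₀ τ₁) (cArc 0 1 τ₁ τ₂) (cArc 0 1 τ₂ (τ₀ + 2 * Real.pi)) ∧
      Conn3 (Fw g) (cArc 0 1 τ₀ τ₁) (cArc 0 1 τ₁ τ₂) (cArc 0 1 τ₂ (τ₀ + 2 * Real.pi)))

/-- Y1: the dichotomy for all Jordan domains, in the disc model. -/
def NBStmt : Prop :=
  ∀ (Ω : Type u) [MeasurableSpace Ω] (P : Measure Ω) [IsProbabilityMeasure P] (S : Ω → Set Pt)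
    (lam : ℝ≥0), 0 < lam → IsColouredPoisson P S lam → ∀ G : ℂ ≃ₜ ℂ, ∀ θ₀ θ₁ θ₂ θ₃ : ℝ,
    θ₀ < θ₁ → θ₁ < θ₂ → θ₂ < θ₃ → θ₃ < θ₀ + 2 * Real.pi → ∀ᵐ ω ∂P,
    (Conn (Fb (gap (S ω) ∘ G)) (cArc 0 1 θ₀ θ₁) (cArc 0 1 θ₂ θ₃) ↔
      ¬ Conn (Fw (gap (S ω) ∘ G)) (cArc 0 1 θ₁ θ₂) (cArc 0 1 θ₃ (θ₀ + 2 * Real.pi)))

/-- Y6: generic conditions in the disc model. -/
def GenStmt : Prop :=
  ∀ (Ω : Type u) [MeasurableSpace Ω] (P : Measure Ω) [IsProbabilityMeasure P] (S : Ω → Set Pt)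
    (lam : ℝ≥0), 0 < lam → IsColouredPoisson P S lam → ∀ (G : ℂ ≃ₜ ℂ) (τ : ℝ), ∀ᵐ ω ∂P,
    Tame (gap (S ω) ∘ G) ∧ CircleBd (gap (S ω) ∘ G) ∧ (gap (S ω) ∘ G) (pt τ) ≠ 0

/-- The three arm event in the disc model. -/
def triEv (G : ℂ ≃ₜ ℂ) (τ₀ τ₁ τ₂ : ℝ) : Set (Set Pt) :=
  {T | Conn3 (Fb (gap T ∘ G)) (cArc 0 1 τ₀ τ₁) (cArc 0 1 τ₁ τ₂) (cArc 0 1 τ₂ (τ₀ + 2 * Real.pi))}

/-- Y7: the event is measurable, and almost surely it occurs for exactly one colour. -/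
def TriStmt : Prop :=
  ∀ (Ω : Type u) [MeasurableSpace Ω] (P : Measure Ω) [IsProbabilityMeasure P] (S : Ω → Set Pt)
    (lam : ℝ≥0), 0 < lam → IsColouredPoisson P S lam → ∀ (G : ℂ ≃ₜ ℂ) (τ₀ τ₁ τ₂ : ℝ),
    τ₀ < τ₁ → τ₁ < τ₂ → τ₂ < τ₀ + 2 * Real.pi → MeasurableSet[voidSigma] (triEv G τ₀ τ₁ τ₂) ∧
    ∀ᵐ ω ∂P, (S ω ∈ triEv G τ₀ τ₁ τ₂ ↔ flip (S ω) ∉ triEv G τ₀ τ₁ τ₂)

/-- `R ∩ closure D` contains a connected set meeting all the sets of the list. -/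
def Quad.Touch (Q : Quad) (s : List (Set ℂ)) (R : Set ℂ) : Prop :=
  ∃ K ⊆ R ∩ closure Q.D, IsConnected K ∧ ∀ A ∈ s, (K ∩ A).Nonempty

/-- The disc model of a quad. -/
noncomputable def Quad.G (Q : Quad) : ℂ ≃ₜ ℂ := radial.symm.trans Q.H

/-- Y8: arcs in the disc model. -/
def ModelStmt : Prop :=
  ∀ Q : Quad, Q.G '' closedBall 0 1 = closure Q.D ∧
    Q.arc 0 = Q.G '' cArc 0 1 (-(3 * Real.pi / 4)) (-(Real.pi / 4)) ∧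
    Q.arc 1 = Q.G '' cArc 0 1 (-(Real.pi / 4)) (Real.pi / 4) ∧
    Q.arc 2 = Q.G '' cArc 0 1 (Real.pi / 4) (3 * Real.pi / 4) ∧
    Q.arc 3 = Q.G '' cArc 0 1 (3 * Real.pi / 4) (5 * Real.pi / 4)

end P148
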