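import Vale.Agent.P148.Props3
import Vale.Agent.P198.Hex.Miranda

/-!
# P148, row Y2a: crossings of the square meet
-/

open Set Metric Topology unitInterval

namespace P148

theorem joined_thick {K : Set ℂ} (hK : IsConnected K) {r : ℝ} (hr : 0 < r) {p q : ℂ}
    (hp : p ∈ K) (hq : q ∈ K) : JoinedIn (thickening r K) p q := by
  have h1 : IsConnected (⋃ p ∈ K, ball p r ∩ univ) := by
    refine conn_nbhd hK (fun p => ball p r) fun p _ => ⟨isOpen_ball, mem_ball_self hr, ?_, ?_⟩
    · rw [inter_univ]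
      exact (convex_ball _ _).isPreconnected
    · rw [closure_univ]
      exact mem_univ _
  have h2 : (⋃ p ∈ K, ball p r ∩ univ) = thickening r K := by
    rw [thickening_eq_biUnion_ball]
    simp only [inter_univ]
  rw [h2] at h1
  have h3 := isOpen_thickening.isConnected_iff_isPathConnected.1 h1
  exact h3.joinedIn p (self_subset_thickening hr K hp) q (self_subset_thickening hr K hq)

/-- Clamping the real part. -/
noncomputable def clampRe (z : ℂ) : ℂ := ((max (-1) (min 1 z.re) : ℝ) : ℂ) + (z.im : ℂ) * Complex.I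

/-- Clamping the imaginary part. -/
noncomputable def clampIm (z : ℂ) : ℂ := (z.re : ℂ) + ((max (-1) (min 1 z.im) : ℝ) : ℂ) * Complex.I

theorem continuous_clampRe : Continuous clampRe := by
  unfold clampRe
  fun_prop

theorem continuous_clampIm : Continuous clampIm := by
  unfold clampIm
  fun_prop

theorem clampRe_re (z : ℂ) : (clampRe z).re = max (-1) (min 1 z.re) := by simp [clampRe]

theorem clampRe_im (z : ℂ) : (clampRe z).im = z.im := by simp [clampRe]

theorem clampIm_re (z : ℂ) : (clampIm z).re = z.re := by simp [clampIm]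

theorem clampIm_im (z : ℂ) : (clampIm z).im = max (-1) (min 1 z.im) := by simp [clampIm]

theorem clamp_sq {x y : ℝ} (hy : |y| ≤ 1) : (max (-1) (min 1 x) - y) ^ 2 ≤ (x - y) ^ 2 := by
  obtain ⟨h1, h2⟩ := abs_le.1 hy
  rcases le_total x 1 with h | h
  · rw [min_eq_right h]
    rcases le_total (-1) x with h' | h'
    · rw [max_eq_right h']
    · rw [max_eq_left h']
      nlinarith
  · rw [min_eq_left h, max_eq_right (by norm_num)]
    nlinarith

theorem clampRe_dist {z p : ℂ} (hp : |p.re| ≤ 1) : dist (clampRe z) p ≤ dist z p := by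
  rw [Complex.dist_eq_re_im, Complex.dist_eq_re_im, clampRe_re, clampRe_im]
  exact Real.sqrt_le_sqrt (add_le_add (clamp_sq hp) le_rfl)

theorem clampIm_dist {z p : ℂ} (hp : |p.im| ≤ 1) : dist (clampIm z) p ≤ dist z p := by
  rw [Complex.dist_eq_re_im, Complex.dist_eq_re_im, clampIm_re, clampIm_im]
  exact Real.sqrt_le_sqrt (add_le_add le_rfl (clamp_sq hp))

theorem clamp_mem (x : ℝ) : -1 ≤ max (-1) (min 1 x) ∧ max (-1) (min 1 x) ≤ 1 :=
  ⟨le_max_left _ _, max_le (by norm_num) (min_le_left _ _)⟩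

/-- **Crossings of the square meet.** -/
theorem sqMeet : SqMeetStmt := by
  rintro K L hK hL hKs hLs hKc hLc ⟨p₀, hp0, -, hp0'⟩ ⟨p₁, hp1, -, hp1'⟩ ⟨q₁, hq1, hq1', -⟩
    ⟨q₀, hq0, hq0', -⟩
  by_contra hne
  have hd : Disjoint K L := by
    rw [disjoint_iff_inter_eq_empty]
    exact not_nonempty_iff_eq_empty.1 hne
  obtain ⟨r, hr, hdr⟩ := hd.exists_thickenings hK hL.isClosed
  obtain ⟨γ, hγ⟩ := joined_thick hKc hr hp0 hp1
  obtain ⟨η, hη⟩ := joined_thick hLc hr hq0 hq1
  have hcK : ∀ z ∈ thickening r K, clampRe z ∈ thickening r K := by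
    intro z hz
    rw [mem_thickening_iff] at hz ⊢
    obtain ⟨p, hp, hzp⟩ := hz
    exact ⟨p, hp, (clampRe_dist (hKs hp).1).trans_lt hzp⟩
  have hcL : ∀ z ∈ thickening r L, clampIm z ∈ thickening r L := by
    intro z hz
    rw [mem_thickening_iff] at hz ⊢
    obtain ⟨p, hp, hzp⟩ := hz
    exact ⟨p, hp, (clampIm_dist (hLs hp).2).trans_lt hzp⟩
  obtain ⟨s, t, hst⟩ := P198.PlanarTop.crossing (-1) 1 (-1) 1
    ⟨fun s => clampRe (γ s), continuous_clampRe.comp γ.continuous⟩
    ⟨fun t => clampIm (η t), continuous_clampIm.comp η.continuous⟩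
    (fun s => by
      change -1 ≤ (clampRe (γ s)).re ∧ (clampRe (γ s)).re ≤ 1
      rw [clampRe_re]
      exact clamp_mem _)
    (fun t => by
      change -1 ≤ (clampIm (η t)).im ∧ (clampIm (η t)).im ≤ 1
      rw [clampIm_im]
      exact clamp_mem _)
    (by
      change (clampRe (γ 0)).im ≤ -1
      rw [clampRe_im, γ.source, hp0'])
    (by
      change 1 ≤ (clampRe (γ 1)).im
      rw [clampRe_im, γ.target, hp1'])
    (by
      change (clampIm (η 0)).re ≤ -1
      rw [clampIm_re, η.source, hq0'])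
    (by
      change 1 ≤ (clampIm (η 1)).re
      rw [clampIm_re, η.target, hq1'])
  change clampRe (γ s) = clampIm (η t) at hst
  have h1 := hcK _ (hγ s)
  have h2 := hcL _ (hη t)
  rw [← hst] at h2
  exact Set.disjoint_left.1 hdr h1 h2

end P148
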