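import Vale.Agent.P148.Props3

/-!
# P148: crossings in the disc meet
-/

open MeasureTheory Set Metric Topology Filter ProbabilityTheory
open scoped ENNReal NNReal

namespace P148

/-- Y2b. -/
theorem meet (h : SqMeetStmt) : MeetStmt := by
  intro θ₀ θ₁ θ₂ θ₃ h01 h12 h23 h30 K L hK hL hKs hLs hKc hLc k0 k2 l1 l3
  obtain ⟨Q, hQ⟩ := discQuad 0 1 θ₀ θ₁ θ₂ θ₃ one_pos h01 h12 h23 h30
  have hcl : closedBall (0 : ℂ) 1 = Q.H '' sq := by
    rw [← Q.closure_D, hQ.disc, closure_ball _ one_ne_zero]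
  -- pull back by the homeomorphism
  have pull : ∀ X : Set ℂ, IsCompact X → X ⊆ closedBall 0 1 → IsConnected X →
      IsCompact (Q.H.symm '' X) ∧ Q.H.symm '' X ⊆ sq ∧ IsConnected (Q.H.symm '' X) := by
    intro X hX hXs hXc
    refine ⟨hX.image Q.H.symm.continuous, ?_, hXc.image _ Q.H.symm.continuous.continuousOn⟩
    rintro _ ⟨x, hx, rfl⟩
    have hx' := hXs hx
    rw [hcl] at hx'
    obtain ⟨y, hy, rfl⟩ := hx'
    rwa [Q.H.symm_apply_apply]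
  have touch : ∀ (X : Set ℂ) (i : Fin 4), (X ∩ Q.arc i).Nonempty →
      (Q.H.symm '' X ∩ side i).Nonempty := by
    rintro X i ⟨x, hx, y, hy, rfl⟩
    exact ⟨y, ⟨Q.H y, hx, Q.H.symm_apply_apply y⟩, hy⟩
  obtain ⟨cK, sK, nK⟩ := pull K hK hKs hKc
  obtain ⟨cL, sL, nL⟩ := pull L hL hLs hLc
  rw [← hQ.arc0] at k0
  rw [← hQ.arc2] at k2
  rw [← hQ.arc1] at l1
  rw [← hQ.arc3] at l3
  obtain ⟨z, ⟨x, hx, rfl⟩, ⟨y, hy, hxy⟩⟩ := h _ _ cK cL sK sL nK nL (touch K 0 k0) (touch K 2 k2)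
    (touch L 1 l1) (touch L 3 l3)
  have : y = x := Q.H.symm.injective hxy
  exact ⟨x, hx, this ▸ hy⟩

end P148
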