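import Vale.Agent.P148.Props3

/-!
# P148: the three arc event occurs for exactly one colour
-/

open MeasureTheory Set Metric Topology Filter ProbabilityTheory
open scoped ENNReal NNReal

namespace P148

universe u

theorem isCompact_Fb {g : ℂ → ℝ} (hg : Continuous g) : IsCompact (Fb g) :=
  (isCompact_closedBall 0 1).inter_left (isClosed_le hg continuous_const)

theorem isCompact_Fw {g : ℂ → ℝ} (hg : Continuous g) : IsCompact (Fw g) :=
  (isCompact_closedBall 0 1).inter_left (isClosed_le continuous_const hg)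

theorem Fb_flip (T : Set Pt) (G : ℂ ≃ₜ ℂ) : Fb (gap (flip T) ∘ G) = Fw (gap T ∘ G) := by
  unfold Fb Fw
  ext z
  simp only [Function.comp_apply, gap_flip, Left.neg_nonpos_iff]

theorem Conn.comm {F A B : Set ℂ} (h : Conn F A B) : Conn F B A := by
  obtain ⟨K, h1, h2, h3, h4⟩ := h
  exact ⟨K, h1, h2, h4, h3⟩

/-- In a closed set one may take the connected set compact. -/
theorem Conn.cpt {F A B : Set ℂ} (hF : IsCompact F) (h : Conn F A B) :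
    ∃ K ⊆ F, IsCompact K ∧ IsConnected K ∧ (K ∩ A).Nonempty ∧ (K ∩ B).Nonempty := by
  obtain ⟨K, h1, h2, h3, h4⟩ := h
  have hcl : closure K ⊆ F := closure_minimal h1 hF.isClosed
  exact ⟨closure K, hcl, hF.of_isClosed_subset isClosed_closure hcl, h2.closure,
    h3.mono (inter_subset_inter_left _ subset_closure),
    h4.mono (inter_subset_inter_left _ subset_closure)⟩

/-- Two interlaced connections of one colour give a three arc connection. -/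
theorem conn3_of_conn (hM : MeetStmt) {F : Set ℂ} (hF : IsCompact F) (hFb : F ⊆ closedBall 0 1)
    {τ₀ q τ₁ τ₂ : ℝ} (h1 : τ₀ < q) (h2 : q < τ₁) (h3 : τ₁ < τ₂) (h4 : τ₂ < τ₀ + 2 * Real.pi)
    (hK : Conn F (cArc 0 1 τ₀ q) (cArc 0 1 τ₁ τ₂))
    (hL : Conn F (cArc 0 1 q τ₁) (cArc 0 1 τ₂ (τ₀ + 2 * Real.pi))) :
    Conn3 F (cArc 0 1 τ₀ τ₁) (cArc 0 1 τ₁ τ₂) (cArc 0 1 τ₂ (τ₀ + 2 * Real.pi)) := by
  obtain ⟨K, k1, k2, k3, k4, k5⟩ := hK.cpt hF
  obtain ⟨L, l1, l2, l3, l4, l5⟩ := hL.cpt hF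
  have hn := hM τ₀ q τ₁ τ₂ h1 h2 h3 h4 K L k2 l2 (k1.trans hFb) (l1.trans hFb) k3 l3 k4 k5 l4 l5
  refine ⟨K ∪ L, union_subset k1 l1, IsConnected.union hn k3 l3, ?_, ?_, ?_⟩
  · exact (meets_mono k4 le_rfl h2.le).mono (inter_subset_inter_left _ subset_union_left)
  · exact k5.mono (inter_subset_inter_left _ subset_union_left)
  · exact l5.mono (inter_subset_inter_left _ subset_union_right)

theorem measurable_conn (G : ℂ ≃ₜ ℂ) (s t u v : ℝ) :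
    MeasurableSet[voidSigma] {T : Set Pt | Conn (Fb (gap T ∘ G)) (cArc 0 1 s t) (cArc 0 1 u v)} :=
  @measCross.{0} (Set Pt) voidSigma (fun T => gap T ∘ G)
    (fun T => (continuous_gap T).comp G.continuous) (fun z => measurable_gap (G z))
    (closedBall 0 1) (cArc 0 1 s t) (cArc 0 1 u v) (isCompact_closedBall _ _)
    (isCompact_cArc _ _ _ _) (isCompact_cArc _ _ _ _) (cArc_subset one_pos) (cArc_subset one_pos)

theorem tri (hNB : NBStmt.{u}) (hM : MeetStmt) (h3 : ThreeStmt) (hE : ExclStmt)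
    (hG : GenStmt.{u}) : TriStmt.{u} := by
  intro Ω _ P _ S lam hlam h G τ₀ τ₁ τ₂ h01 h12 h20
  have hc : ∀ T : Set Pt, Continuous (gap T ∘ G) := fun T => (continuous_gap T).comp G.continuous
  constructor
  · have he : triEv G τ₀ τ₁ τ₂ = (⋃ q ∈ {q : ℚ | τ₀ < q ∧ (q : ℝ) < τ₁},
        ({T : Set Pt | Conn (Fb (gap T ∘ G)) (cArc 0 1 τ₀ q) (cArc 0 1 τ₁ τ₂)}ᶜ ∩
          {T : Set Pt | Conn (Fb (gap T ∘ G)) (cArc 0 1 q τ₁)
            (cArc 0 1 τ₂ (τ₀ + 2 * Real.pi))}ᶜ))ᶜ := by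
      ext T
      have := h3 τ₀ τ₁ τ₂ h01 h12 h20 (Fb (gap T ∘ G)) (isCompact_Fb (hc T)) inter_subset_right
      rw [mem_compl_iff, ← not_iff_not, not_not]
      refine Iff.trans this ?_
      simp only [mem_iUnion, mem_inter_iff, mem_compl_iff, mem_ofPred_eq, exists_prop, and_assoc]
    rw [he]
    refine (MeasurableSet.biUnion (to_countable _) fun q _ => ?_).compl
    exact (measurable_conn G _ _ _ _).compl.inter (measurable_conn G _ _ _ _).compl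
  · have hq1 : ∀ᵐ ω ∂P, ∀ q : ℚ, τ₀ < q → (q : ℝ) < τ₁ →
        (Conn (Fb (gap (S ω) ∘ G)) (cArc 0 1 τ₀ q) (cArc 0 1 τ₁ τ₂) ↔
          ¬ Conn (Fw (gap (S ω) ∘ G)) (cArc 0 1 q τ₁) (cArc 0 1 τ₂ (τ₀ + 2 * Real.pi))) := by
      rw [ae_all_iff]
      intro q
      by_cases hq : τ₀ < q ∧ (q : ℝ) < τ₁
      · filter_upwards [hNB Ω P S lam hlam h G τ₀ q τ₁ τ₂ hq.1 hq.2 h12 h20] with ω hω
        exact fun _ _ => hω
      · exact Eventually.of_forall fun ω a b => absurd ⟨a, b⟩ hq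
    have hq2 : ∀ᵐ ω ∂P, ∀ q : ℚ, τ₀ < q → (q : ℝ) < τ₁ →
        (Conn (Fb (gap (S ω) ∘ G)) (cArc 0 1 q τ₁) (cArc 0 1 τ₂ (τ₀ + 2 * Real.pi)) ↔
          ¬ Conn (Fw (gap (S ω) ∘ G)) (cArc 0 1 τ₀ q) (cArc 0 1 τ₁ τ₂)) := by
      rw [ae_all_iff]
      intro q
      by_cases hq : τ₀ < q ∧ (q : ℝ) < τ₁
      · filter_upwards [hNB Ω P S lam hlam h G q τ₁ τ₂ (τ₀ + 2 * Real.pi) hq.2 h12 h20
          (by linarith [hq.1])] with ω hω
        intro _ _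
        rw [cArc_add_two_pi] at hω
        rw [hω]
        exact not_congr ⟨Conn.comm, Conn.comm⟩
      · exact Eventually.of_forall fun ω a b => absurd ⟨a, b⟩ hq
    filter_upwards [hq1, hq2, hG Ω P S lam hlam h G τ₀, hG Ω P S lam hlam h G τ₁,
      hG Ω P S lam hlam h G τ₂] with ω a1 a2 g0 g1 g2
    have hfl : flip (S ω) ∈ triEv G τ₀ τ₁ τ₂ ↔ Conn3 (Fw (gap (S ω) ∘ G)) (cArc 0 1 τ₀ τ₁)
        (cArc 0 1 τ₁ τ₂) (cArc 0 1 τ₂ (τ₀ + 2 * Real.pi)) := by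
      unfold triEv
      rw [mem_ofPred_eq, Fb_flip]
    rw [hfl]
    constructor
    · intro hb hw
      refine hE (gap (S ω) ∘ G) τ₀ τ₁ τ₂ h01 h12 h20 (hc _) g0.1 g0.2.1 g0.2.2 g1.2.2 g2.2.2 ?_
        ⟨hb, hw⟩
      intro q hq hq'
      exact ⟨fun hn => (a1 q hq hq').1 hn.1 hn.2, fun hn => (a2 q hq hq').1 hn.1 hn.2⟩
    · intro hw
      by_contra hb
      obtain ⟨q, hq, hq', n1, n2⟩ := (h3 τ₀ τ₁ τ₂ h01 h12 h20 (Fb (gap (S ω) ∘ G))
        (isCompact_Fb (hc _)) inter_subset_right).1 hb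
      have w1 : Conn (Fw (gap (S ω) ∘ G)) (cArc 0 1 q τ₁) (cArc 0 1 τ₂ (τ₀ + 2 * Real.pi)) :=
        by_contra fun hn => n1 ((a1 q hq hq').2 hn)
      have w2 : Conn (Fw (gap (S ω) ∘ G)) (cArc 0 1 τ₀ q) (cArc 0 1 τ₁ τ₂) :=
        by_contra fun hn => n2 ((a2 q hq hq').2 hn)
      exact hw (conn3_of_conn hM (isCompact_Fw (hc _)) inter_subset_right hq hq' h12 h20 w2 w1)

end P148
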