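import Vale.Agent.P148.TNB
import Vale.Agent.P148.TTri
import Vale.Agent.P148.TMeetD
import Vale.Agent.P148.TMeet

/-!
# P148, fourth theorem: `2n` arcs. Definitions and rows
-/

open MeasureTheory Set Metric Topology Filter ProbabilityTheory
open scoped ENNReal NNReal

namespace P148

universe u

/-- The arc of the unit circle between two consecutive marks. -/
noncomputable def mArc (t : ℕ → ℝ) (i : ℕ) : Set ℂ := cArc 0 1 (t i) (t (i + 1))

/-- `2n` marks in counterclockwise order on the unit circle, with angles `t 0, …, t (2n-1)`. -/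
structure Marks (n : ℕ) (t : ℕ → ℝ) : Prop where
  mono : ∀ i j, i < j → j ≤ 2 * n → t i < t j
  per : t (2 * n) = t 0 + 2 * Real.pi

/-- The number of classes of the `n` arcs `c, c + 2, …, c + 2(n - 1)` under the equivalence
relation generated by the relation that `F` contains a connected set meeting both arcs. -/
noncomputable def blocks (F : Set ℂ) (t : ℕ → ℝ) (n c : ℕ) : ℕ :=
  Nat.card (Quot fun i j : Fin n => Conn F (mArc t (2 * i + c)) (mArc t (2 * j + c)))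

/-- The dichotomy for all quads formed by the marks. -/
def Dual4 (t : ℕ → ℝ) (n : ℕ) (F F' : Set ℂ) : Prop :=
  ∀ i j k l : ℕ, i < j → j < k → k < l → l ≤ 2 * n → t l < t i + 2 * Real.pi →
    (Conn F (cArc 0 1 (t i) (t j)) (cArc 0 1 (t k) (t l)) ↔
      ¬ Conn F' (cArc 0 1 (t j) (t k)) (cArc 0 1 (t l) (t i + 2 * Real.pi)))

/-- Z1: the number of black classes of the even arcs plus the number of white classes of the odd
arcs is `n + 1`. -/
def DetStmt : Prop :=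
  ∀ (n : ℕ) (t : ℕ → ℝ), 1 ≤ n → Marks n t → ∀ F F' : Set ℂ, IsCompact F → IsCompact F' →
    F ⊆ closedBall 0 1 → F' ⊆ closedBall 0 1 → Dual4 t n F F' → Dual4 t n F' F →
    blocks F t n 0 + blocks F' t n 1 = n + 1

/-- Z2: almost surely, and in mean. -/
def BlockStmt : Prop :=
  ∀ (Ω : Type u) [MeasurableSpace Ω] (P : Measure Ω) [IsProbabilityMeasure P] (S : Ω → Set Pt)
    (lam : ℝ≥0), 0 < lam → IsColouredPoisson P S lam → ∀ (G : ℂ ≃ₜ ℂ) (n : ℕ) (t : ℕ → ℝ),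
    1 ≤ n → Marks n t →
    (∀ᵐ ω ∂P, blocks (Fb (gap (S ω) ∘ G)) t n 0 + blocks (Fw (gap (S ω) ∘ G)) t n 1 = n + 1) ∧
    ∫ ω, (blocks (Fb (gap (S ω) ∘ G)) t n 0 : ℝ) ∂P +
      ∫ ω, (blocks (Fb (gap (S ω) ∘ G)) t n 1 : ℝ) ∂P = n + 1

/-- The event that the black set connects the arcs `i` and `j`. -/
def arcEv (G : ℂ ≃ₜ ℂ) (t : ℕ → ℝ) (i j : ℕ) : Set (Set Pt) :=
  {T | Conn (Fb (gap T ∘ G)) (mArc t i) (mArc t j)}

/-- Z3: six arcs. -/
def SixStmt : Prop :=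
  ∀ (Ω : Type u) [MeasurableSpace Ω] (P : Measure Ω) [IsProbabilityMeasure P] (S : Ω → Set Pt)
    (lam : ℝ≥0), 0 < lam → IsColouredPoisson P S lam → ∀ (G : ℂ ≃ₜ ℂ) (t : ℕ → ℝ),
    Marks 3 t →
    (P {ω | S ω ∈ arcEv G t 0 2}).toReal + (P {ω | S ω ∈ arcEv G t 2 4}).toReal +
      (P {ω | S ω ∈ arcEv G t 4 0}).toReal + (P {ω | S ω ∈ arcEv G t 1 3}).toReal +
      (P {ω | S ω ∈ arcEv G t 3 5}).toReal + (P {ω | S ω ∈ arcEv G t 5 1}).toReal =
    2 + (P {ω | S ω ∈ arcEv G t 0 2 ∩ arcEv G t 2 4 ∩ arcEv G t 4 0}).toReal +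
      (P {ω | S ω ∈ arcEv G t 1 3 ∩ arcEv G t 3 5 ∩ arcEv G t 5 1}).toReal

/-- The disc with centre `z₀` and radius `R` as a Jordan domain. -/
def IsDiscMap (G : ℂ ≃ₜ ℂ) (z₀ : ℂ) (R : ℝ) : Prop := ∀ z, G z = z₀ + R * z

/-- Z4: `2n` equal arcs of a disc: the mean number of black classes is `(n + 1) / 2`. -/
def RegularStmt : Prop :=
  ∀ (Ω : Type u) [MeasurableSpace Ω] (P : Measure Ω) [IsProbabilityMeasure P] (S : Ω → Set Pt)
    (lam : ℝ≥0), 0 < lam → IsColouredPoisson P S lam → ∀ (G : ℂ ≃ₜ ℂ) (z₀ : ℂ) (R θ : ℝ),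
    0 < R → IsDiscMap G z₀ R → ∀ (n : ℕ), 1 ≤ n →
    ∫ ω, (blocks (Fb (gap (S ω) ∘ G)) (fun i => θ + i * (Real.pi / n)) n 0 : ℝ) ∂P = (n + 1) / 2

end P148
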