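import Vale.Agent.P148.Props4

/-!
# P148, fourth theorem: the Kreweras law. Definitions and rows
-/

open MeasureTheory Set Metric Topology Filter ProbabilityTheory
open scoped ENNReal NNReal

namespace P148

universe u

/-- The pattern of the `n` arcs `c, c + 2, …, c + 2(n - 1)`: the equivalence relation generated by
the relation that `F` contains a connected set meeting both arcs. -/
def pat (F : Set ℂ) (t : ℕ → ℝ) (n c : ℕ) (i j : Fin n) : Prop :=
  Relation.EqvGen (fun i j : Fin n => Conn F (mArc t (2 * i + c)) (mArc t (2 * j + c))) i j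

/-- The Kreweras complement. The arcs with number `2 a` strictly between the arcs `2 i + 1` and
`2 j + 1`, where `i ≤ j`, are those with `i < a ≤ j`. -/
def krew {n : ℕ} (π : Fin n → Fin n → Prop) (i j : Fin n) : Prop :=
  ∀ a b : Fin n, (min i j < a ∧ a ≤ max i j) → ¬ (min i j < b ∧ b ≤ max i j) → ¬ π a b

/-- K1: the white pattern of the odd arcs is the Kreweras complement of the black pattern of the
even arcs. -/
def KrewDetStmt : Prop :=
  ∀ (n : ℕ) (t : ℕ → ℝ), 1 ≤ n → Marks n t → ∀ F F' : Set ℂ, IsCompact F → IsCompact F' →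
    F ⊆ closedBall 0 1 → F' ⊆ closedBall 0 1 → Dual4 t n F F' → Dual4 t n F' F →
    pat F' t n 1 = krew (pat F t n 0)

/-- K2: almost surely; and the black pattern of the odd arcs has the law of the Kreweras complement
of the black pattern of the even arcs. -/
def KrewStmt : Prop :=
  ∀ (Ω : Type u) [MeasurableSpace Ω] (P : Measure Ω) [IsProbabilityMeasure P] (S : Ω → Set Pt)
    (lam : ℝ≥0), 0 < lam → IsColouredPoisson P S lam → ∀ (G : ℂ ≃ₜ ℂ) (n : ℕ) (t : ℕ → ℝ),
    1 ≤ n → Marks n t →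
    (∀ᵐ ω ∂P, pat (Fw (gap (S ω) ∘ G)) t n 1 = krew (pat (Fb (gap (S ω) ∘ G)) t n 0)) ∧
    ∀ A : Set (Fin n → Fin n → Prop),
      MeasurableSet {ω | pat (Fb (gap (S ω) ∘ G)) t n 1 ∈ A} ∧
      MeasurableSet {ω | krew (pat (Fb (gap (S ω) ∘ G)) t n 0) ∈ A} ∧
      P {ω | pat (Fb (gap (S ω) ∘ G)) t n 1 ∈ A} =
        P {ω | krew (pat (Fb (gap (S ω) ∘ G)) t n 0) ∈ A} ∧
      P⟦{ω | pat (Fb (gap (S ω) ∘ G)) t n 1 ∈ A} | posSigma S⟧ =ᵐ[P]
        P⟦{ω | krew (pat (Fb (gap (S ω) ∘ G)) t n 0) ∈ A} | posSigma S⟧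

end P148
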