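import Vale.Agent.P148.Props

/-!
# P148, row T1: separation of the ends of a compact set without crossing
-/

open MeasureTheory Set Metric Topology Filter

namespace P148

/-- a clopen set separates two closed sets of a compact Hausdorff space which are not joined by a
connected set -/
theorem exists_clopen_sep {X : Type*} [TopologicalSpace X] [CompactSpace X] [T2Space X]
    {a a' : Set X} (ha : IsClosed a) (ha' : IsClosed a')
    (h : ∀ x ∈ a, Disjoint (connectedComponent x) a') :
    ∃ U : Set X, IsClopen U ∧ a ⊆ U ∧ Disjoint U a' := by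
  have h1 : ∀ x ∈ a, ∃ s : Set X, IsClopen s ∧ x ∈ s ∧ Disjoint s a' := by
    intro x hx
    have h2 := h x hx
    rw [connectedComponent_eq_iInter_isClopen] at h2
    have h3 : a' ∩ ⋂ s : { s : Set X // IsClopen s ∧ x ∈ s }, (s : Set X) = ∅ := by
      rw [inter_comm]
      exact h2.inter_eq
    have : Nonempty { s : Set X // IsClopen s ∧ x ∈ s } := ⟨⟨univ, isClopen_univ, mem_univ x⟩⟩
    obtain ⟨⟨s, hs1, hs2⟩, hs⟩ := ha'.isCompact.elim_directed_family_closed
      (fun s : { s : Set X // IsClopen s ∧ x ∈ s } => (s : Set X)) (fun s => s.2.1.isClosed) h3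
      (by
        rintro ⟨s, hs1, hs2⟩ ⟨t, ht1, ht2⟩
        exact ⟨⟨s ∩ t, hs1.inter ht1, ⟨hs2, ht2⟩⟩, inter_subset_left, inter_subset_right⟩)
    refine ⟨s, hs1, hs2, ?_⟩
    rw [disjoint_iff_inter_eq_empty, inter_comm]
    exact hs
  choose! s hs1 hs2 hs3 using h1
  obtain ⟨t, ht1, ht2⟩ := ha.isCompact.elim_nhds_subcover s
    (fun x hx => (hs1 x hx).isOpen.mem_nhds (hs2 x hx))
  refine ⟨⋃ x ∈ t, s x, ?_, ht2, ?_⟩
  · exact Set.Finite.isClopen_biUnion t.finite_toSet fun x hx => hs1 x (ht1 x hx)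
  · rw [disjoint_iUnion₂_left]
    exact fun x hx => hs3 x (ht1 x hx)

theorem sep : SepStmt := by
  intro F A A' hF hA hA' hno
  have : CompactSpace F := isCompact_iff_compactSpace.1 hF
  obtain ⟨U, hU, h1, h2⟩ := exists_clopen_sep (X := F) (a := Subtype.val ⁻¹' A)
    (a' := Subtype.val ⁻¹' A') (hA.preimage continuous_subtype_val)
    (hA'.preimage continuous_subtype_val) (by
      intro x hx
      rw [Set.disjoint_left]
      intro y hy hy'
      refine hno ⟨Subtype.val '' connectedComponent x, ?_, ?_, ?_, ?_⟩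
      · rintro _ ⟨z, -, rfl⟩
        exact z.2
      · exact isConnected_connectedComponent.image _ continuous_subtype_val.continuousOn
      · exact ⟨x, ⟨x, mem_connectedComponent, rfl⟩, hx⟩
      · exact ⟨y, ⟨y, hy, rfl⟩, hy'⟩)
  refine ⟨Subtype.val '' U, Subtype.val '' Uᶜ, ?_, ?_, ?_, ?_, ?_, ?_⟩
  · exact hU.isClosed.isCompact.image continuous_subtype_val
  · exact hU.compl.isClosed.isCompact.image continuous_subtype_val
  · exact (disjoint_image_iff Subtype.val_injective).2 disjoint_compl_right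
  · rw [← image_union, union_compl_self, image_univ, Subtype.range_coe]
  · rintro x ⟨hx, hxA⟩
    exact ⟨⟨x, hx⟩, h1 hxA, rfl⟩
  · rintro x ⟨hx, hxA⟩
    exact ⟨⟨x, hx⟩, fun h => Set.disjoint_left.1 h2 h hxA, rfl⟩

end P148
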