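import Vale.Agent.P148.TDet

/-!
# P148, row Z2: classes of arcs, almost surely and in mean
-/

open MeasureTheory Set Metric Topology Filter ProbabilityTheory
open scoped ENNReal NNReal

namespace P148

universe u

theorem TBlock.dual (Ω : Type u) [MeasurableSpace Ω] (P : Measure Ω) [IsProbabilityMeasure P]
    (S : Ω → Set Pt) (lam : ℝ≥0) (hlam : 0 < lam) (h : IsColouredPoisson P S lam) (G : ℂ ≃ₜ ℂ)
    (n : ℕ) (t : ℕ → ℝ) (ht : Marks n t) :
    ∀ᵐ ω ∂P, Dual4 t n (Fb (gap (S ω) ∘ G)) (Fw (gap (S ω) ∘ G)) ∧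
      Dual4 t n (Fw (gap (S ω) ∘ G)) (Fb (gap (S ω) ∘ G)) := by
  unfold Dual4
  refine Eventually.and ?_ ?_
  · simp only [ae_all_iff]
    intro i j k l hij hjk hkl hl hlt
    exact nb Ω P S lam hlam h G (t i) (t j) (t k) (t l) (ht.mono _ _ hij (by omega))
      (ht.mono _ _ hjk (by omega)) (ht.mono _ _ hkl hl) hlt
  · simp only [ae_all_iff]
    intro i j k l hij hjk hkl hl hlt
    filter_upwards [nb Ω P S lam hlam h G (t j) (t k) (t l) (t i + 2 * Real.pi)
      (ht.mono _ _ hjk (by omega)) (ht.mono _ _ hkl hl) hlt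
      (by linarith [ht.mono _ _ hij (by omega)])] with ω hω
    rw [TDet.cArc_per] at hω
    rw [hω, not_not]
    exact ⟨Conn.comm, Conn.comm⟩

theorem TBlock.measurable (G : ℂ ≃ₜ ℂ) (t : ℕ → ℝ) (n c : ℕ) :
    Measurable[voidSigma] fun T : Set Pt => (blocks (Fb (gap T ∘ G)) t n c : ℝ) := by
  classical
  have h1 : Measurable[voidSigma] fun T : Set Pt => fun i j : Fin n =>
      (Conn (Fb (gap T ∘ G)) (mArc t (2 * i + c)) (mArc t (2 * j + c)) : Prop) := by
    refine @measurable_pi_lambda _ _ _ voidSigma _ _ fun i => ?_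
    refine @measurable_pi_lambda _ _ _ voidSigma _ _ fun j => ?_
    exact (@measurableSet_setOfPred _ voidSigma _).1 (measurable_conn G _ _ _ _)
  have h2 : Measurable fun r : Fin n → Fin n → Prop => ((Nat.card (Quot r) : ℕ) : ℝ) :=
    Measurable.of_discrete
  exact h2.comp h1

theorem TBlock.le (F : Set ℂ) (t : ℕ → ℝ) (n c : ℕ) : blocks F t n c ≤ n := by
  unfold blocks
  calc Nat.card (Quot _) ≤ Nat.card (Fin n) := Nat.card_le_card_of_surjective _ Quot.mk_surjective
    _ = n := Nat.card_fin n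

/-- **Z2**. -/
theorem block (hD : DetStmt) : BlockStmt.{u} := by
  intro Ω _ P _ S lam hlam h G n t hn ht
  have hc : ∀ T : Set Pt, Continuous (gap T ∘ G) := fun T => (continuous_gap T).comp G.continuous
  have hae : ∀ᵐ ω ∂P,
      blocks (Fb (gap (S ω) ∘ G)) t n 0 + blocks (Fw (gap (S ω) ∘ G)) t n 1 = n + 1 := by
    filter_upwards [TBlock.dual Ω P S lam hlam h G n t ht] with ω hω
    exact hD n t hn ht _ _ (isCompact_Fb (hc _)) (isCompact_Fw (hc _)) inter_subset_right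
      inter_subset_right hω.1 hω.2
  refine ⟨hae, ?_⟩
  have hm : ∀ c, Measurable fun ω => (blocks (Fb (gap (S ω) ∘ G)) t n c : ℝ) := fun c =>
    (TBlock.measurable G t n c).comp h.measurable_self
  have hm' : Measurable fun ω => (blocks (Fb (gap (flip (S ω)) ∘ G)) t n 1 : ℝ) :=
    (TBlock.measurable G t n 1).comp (h.measurable_map (IsometryEquiv.refl ℂ) Equiv.boolNot)
  have hid : IdentDistrib (fun ω => (blocks (Fb (gap (flip (S ω)) ∘ G)) t n 1 : ℝ))
      (fun ω => (blocks (Fb (gap (S ω) ∘ G)) t n 1 : ℝ)) P P := by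
    refine ⟨hm'.aemeasurable, (hm 1).aemeasurable, ?_⟩
    ext A hA
    rw [Measure.map_apply hm' hA, Measure.map_apply (hm 1) hA]
    exact (inv Ω P S lam h (IsometryEquiv.refl ℂ) Equiv.boolNot
      {T | (blocks (Fb (gap T ∘ G)) t n 1 : ℝ) ∈ A} (TBlock.measurable G t n 1 hA)).2.2
  have hint : ∀ f : Ω → ℝ, Measurable f → (∀ ω, 0 ≤ f ω ∧ f ω ≤ n) → Integrable f P := by
    intro f hf hb
    refine Integrable.of_bound hf.aestronglyMeasurable n (Eventually.of_forall fun ω => ?_)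
    rw [Real.norm_eq_abs, abs_of_nonneg (hb ω).1]
    exact (hb ω).2
  rw [← hid.integral_eq, ← integral_add]
  · have : (fun ω => (blocks (Fb (gap (S ω) ∘ G)) t n 0 : ℝ) +
        (blocks (Fb (gap (flip (S ω)) ∘ G)) t n 1 : ℝ)) =ᵐ[P] fun _ => (n + 1 : ℝ) := by
      filter_upwards [hae] with ω hω
      rw [Fb_flip]
      exact_mod_cast hω
    rw [integral_congr_ae this]
    simp
  · exact hint _ (hm 0) fun ω => ⟨Nat.cast_nonneg _, Nat.cast_le.2 (TBlock.le _ _ _ _)⟩
  · exact hint _ hm' fun ω => ⟨Nat.cast_nonneg _, Nat.cast_le.2 (TBlock.le _ _ _ _)⟩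

end P148
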