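import Vale.Agent.P148.Props4

/-!
# P148, row Z1: classes of arcs
-/

open Set Metric Topology Filter
open scoped ENNReal NNReal

namespace P148

namespace TDet

variable {t : ℕ → ℝ} {n : ℕ} {F F' : Set ℂ}

theorem cArc_mono {s s' r r' : ℝ} (h1 : s' ≤ s) (h2 : r ≤ r') :
    cArc 0 1 s r ⊆ cArc 0 1 s' r' := image_mono (Icc_subset_Icc h1 h2)

theorem cArc_per (s r : ℝ) : cArc 0 1 (s + 2 * Real.pi) (r + 2 * Real.pi) = cArc 0 1 s r := by
  have key : ∀ u : ℝ, Complex.exp ((u + 2 * Real.pi : ℝ) * Complex.I) =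
      Complex.exp (u * Complex.I) := by
    intro u
    have : ((u + 2 * Real.pi : ℝ) : ℂ) * Complex.I = u * Complex.I + 2 * Real.pi * Complex.I := by
      push_cast
      ring
    rw [this, Complex.exp_periodic (u * Complex.I)]
  unfold cArc
  ext z
  constructor
  · rintro ⟨u, hu, rfl⟩
    refine ⟨u - 2 * Real.pi, ⟨by linarith [hu.1], by linarith [hu.2]⟩, ?_⟩
    have := key (u - 2 * Real.pi)
    rw [sub_add_cancel] at this
    simp only [this]
  · rintro ⟨u, hu, rfl⟩
    refine ⟨u + 2 * Real.pi, ⟨by linarith [hu.1], by linarith [hu.2]⟩, ?_⟩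
    simp only [key u]

theorem mono' (ht : Marks n t) {i j : ℕ} (h : i ≤ j) (hj : j ≤ 2 * n) : t i ≤ t j := by
  rcases h.eq_or_lt with rfl | h
  · exact le_rfl
  · exact (ht.mono i j h hj).le

/-- A point of a union of consecutive arcs is in one of them. -/
theorem cover (t : ℕ → ℝ) {a b : ℕ} (hab : a < b) {z : ℂ} (hz : z ∈ cArc 0 1 (t a) (t b)) :
    ∃ r, a ≤ r ∧ r < b ∧ z ∈ mArc t r := by
  obtain ⟨u, hu, rfl⟩ := hz
  have hab' : a + 1 ≤ b := hab
  clear hab
  induction b, hab' using Nat.le_induction with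
  | base => exact ⟨a, le_rfl, Nat.lt_succ_self a, u, hu, rfl⟩
  | succ b hb ih =>
    by_cases h : u ≤ t b
    · obtain ⟨r, h1, h2, h3⟩ := ih ⟨hu.1, h⟩
      exact ⟨r, h1, h2.trans (Nat.lt_succ_self b), h3⟩
    · exact ⟨b, Nat.le_of_lt hb, Nat.lt_succ_self b, u, ⟨(not_le.1 h).le, hu.2⟩, rfl⟩

/-- The colour of an arc. -/
def col (F F' : Set ℂ) (i : ℕ) : Set ℂ := if i % 2 = 0 then F else F'

theorem col_congr {i j : ℕ} (h : i % 2 = j % 2) : col F F' i = col F F' j := by
  unfold col
  rw [h]

theorem dual_col (h1 : Dual4 t n F F') (h2 : Dual4 t n F' F) (p : ℕ) :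
    Dual4 t n (col F F' p) (col F F' (p + 1)) := by
  rcases Nat.mod_two_eq_zero_or_one p with h | h
  · have h' : (p + 1) % 2 = 1 := by omega
    unfold col
    rw [h, h']
    exact h1
  · have h' : (p + 1) % 2 = 0 := by omega
    unfold col
    rw [h, h']
    exact h2

/-- Some arc is connected, in its colour, with the next arc of the same colour. -/
theorem exists_adj (hn : 2 ≤ n) (ht : Marks n t) (h1 : Dual4 t n F F') (h2 : Dual4 t n F' F) :
    ∃ p, p + 2 < 2 * n ∧ Conn (col F F' p) (mArc t p) (mArc t (p + 2)) := by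
  by_contra hno
  push Not at hno
  have rest : ∀ p, p + 3 ≤ 2 * n → t (p + 3) < t p + 2 * Real.pi →
      Conn (col F F' (p + 1)) (mArc t (p + 1)) (cArc 0 1 (t (p + 3)) (t p + 2 * Real.pi)) := by
    intro p hp hlt
    by_contra hc
    exact hno p (by omega) ((dual_col h1 h2 p p (p + 1) (p + 2) (p + 3) (by omega) (by omega)
      (by omega) hp hlt).2 hc)
  have key : ∀ d, ∀ p, 1 ≤ p → p + (d + 2) < 2 * n →
      ¬ Conn (col F F' p) (mArc t p) (mArc t (p + (d + 2))) := by
    intro d
    induction d using Nat.strong_induction_on with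
    | _ d ih =>
      intro p hp hq hc
      rcases Nat.eq_zero_or_pos d with rfl | hd
      · exact hno p (by omega) hc
      have hlt : ∀ m, m ≤ 2 * n → t m < t p + 2 * Real.pi := by
        intro m hm
        have e1 := mono' ht hm le_rfl
        have e2 := ht.mono 0 p (by omega) (by omega)
        rw [ht.per] at e1
        linarith
      obtain ⟨K, k1, k2, k3, ⟨z, hzK, u, hu, rfl⟩⟩ := rest p (by omega) (hlt _ (by omega))
      by_cases h : u ≤ t (p + (d + 2) + 1)
      · obtain ⟨r, r1, r2, r3⟩ := cover t (a := p + 3) (b := p + (d + 2) + 1) (by omega)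
          ⟨u, ⟨hu.1, h⟩, rfl⟩
        have h3 := ih (r - (p + 3)) (by omega) (p + 1) (by omega) (by omega)
        rw [show p + 1 + (r - (p + 3) + 2) = r by omega] at h3
        exact h3 ⟨K, k1, k2, k3, ⟨_, hzK, r3⟩⟩
      · refine (dual_col h1 h2 p p (p + 1) (p + (d + 2)) (p + (d + 2) + 1) (by omega) (by omega)
          (by omega) (by omega) (hlt _ (by omega))).1 hc ?_
        refine ⟨K, k1, k2, k3.mono (inter_subset_inter_right _ ?_),
          ⟨_, hzK, ⟨u, ⟨(not_le.1 h).le, hu.2⟩, rfl⟩⟩⟩
        exact cArc_mono le_rfl (mono' ht (by omega) (by omega))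
  obtain ⟨K, k1, k2, k3, ⟨z, hzK, hz⟩⟩ := rest 0 (by omega) (by
    have := ht.mono 3 (2 * n) (by omega) le_rfl
    rw [ht.per] at this
    exact this)
  rw [← ht.per] at hz
  obtain ⟨r, r1, r2, r3⟩ := cover t (by omega) hz
  have h3 := key (r - 3) 1 le_rfl (by omega)
  rw [show 1 + (r - 3 + 2) = r by omega] at h3
  exact h3 ⟨K, k1, k2, k3, ⟨z, hzK, r3⟩⟩

/-- The relation on all arcs. -/
def rel (F F' : Set ℂ) (t : ℕ → ℝ) (n : ℕ) (i j : Fin (2 * n)) : Prop :=
  (i : ℕ) % 2 = (j : ℕ) % 2 ∧ Conn (col F F' i) (mArc t i) (mArc t j)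

/-- Removing the marks `p + 1` and `p + 2`. -/
def sg (p i : ℕ) : ℕ := if i ≤ p then i else i + 2

def pj (p i : ℕ) : ℕ := if i ≤ p then i else i - 2

theorem sg_lt {p i j : ℕ} (h : i < j) : sg p i < sg p j := by
  unfold sg
  split_ifs <;> omega

theorem marks_sg {m p : ℕ} (hp : p < 2 * m) (ht : Marks (m + 1) t) :
    Marks m (fun i => t (sg p i)) where
  mono := by
    intro i j hij hj
    refine ht.mono _ _ (sg_lt hij) ?_
    unfold sg
    split_ifs <;> omega
  per := by
    have e1 : sg p (2 * m) = 2 * (m + 1) := by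
      unfold sg
      rw [if_neg (by omega)]
      omega
    have e2 : sg p 0 = 0 := by
      unfold sg
      rw [if_pos (by omega)]
    change t (sg p (2 * m)) = t (sg p 0) + 2 * Real.pi
    rw [e1, e2]
    exact ht.per

theorem dual_sg {m p : ℕ} (hp : p < 2 * m) (h : Dual4 t (m + 1) F F') :
    Dual4 (fun i => t (sg p i)) m F F' := by
  intro i j k l hij hjk hkl hl hlt
  refine h (sg p i) (sg p j) (sg p k) (sg p l) (sg_lt hij) (sg_lt hjk) (sg_lt hkl) ?_ hlt
  unfold sg
  split_ifs <;> omega

theorem conn_symm {X A B : Set ℂ} (h : Conn X A B) : Conn X B A := by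
  obtain ⟨K, h1, h2, h3, h4⟩ := h
  exact ⟨K, h1, h2, h4, h3⟩

theorem conn_mono {X A B A' B' : Set ℂ} (h : Conn X A B) (hA : A ⊆ A') (hB : B ⊆ B') :
    Conn X A' B' := by
  obtain ⟨K, h1, h2, h3, h4⟩ := h
  exact ⟨K, h1, h2, h3.mono (inter_subset_inter_right _ hA), h4.mono (inter_subset_inter_right _ hB)⟩

theorem card_step (hM : MeetStmt) (hF : IsCompact F) (hF' : IsCompact F')
    (hFb : F ⊆ closedBall 0 1) (hFb' : F' ⊆ closedBall 0 1) {m p : ℕ} (hm : 1 ≤ m)
    (hp : p < 2 * m) (ht : Marks (m + 1) t) (h1 : Dual4 t (m + 1) F F')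
    (h2 : Dual4 t (m + 1) F' F) (hc : Conn (col F F' p) (mArc t p) (mArc t (p + 2))) :
    Nat.card (Quot (rel F F' t (m + 1))) =
      Nat.card (Quot (rel F F' (fun i => t (sg p i)) m)) + 1 := by
  have hlt3 : t (p + 3) < t p + 2 * Real.pi := by
    have e1 := mono' ht (i := p + 3) (j := 2 * (m + 1)) (by omega) le_rfl
    have e2 := mono' ht (i := 0) (j := p) (by omega) (by omega)
    rw [ht.per] at e1
    rcases Nat.eq_zero_or_pos p with rfl | h0
    · have := ht.mono (0 + 3) (2 * (m + 1)) (by omega) le_rfl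
      rw [ht.per] at this
      linarith
    · have := ht.mono 0 p h0 (by omega)
      linarith
  -- the other arcs are in the rest
  have hrest : ∀ j, j < 2 * (m + 1) → (j + 1 ≤ p ∨ p + 3 ≤ j) →
      mArc t j ⊆ cArc 0 1 (t (p + 3)) (t p + 2 * Real.pi) := by
    intro j hj hj'
    rcases hj' with h | h
    · unfold mArc
      rw [← cArc_per]
      refine cArc_mono ?_ ?_
      · have e1 := mono' ht (i := p + 3) (j := 2 * (m + 1)) (by omega) le_rfl
        rw [ht.per] at e1
        have e2 := mono' ht (i := 0) (j := j) (by omega) (by omega)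
        linarith
      · have := mono' ht h (by omega)
        linarith
    · refine cArc_mono (mono' ht h (by omega)) ?_
      have e1 := mono' ht (i := j + 1) (j := 2 * (m + 1)) (by omega) le_rfl
      rw [ht.per] at e1
      have e2 := mono' ht (i := 0) (j := p) (by omega) (by omega)
      linarith
  -- the middle arc is isolated
  have iso : ∀ j, j < 2 * (m + 1) → j % 2 = (p + 1) % 2 →
      Conn (col F F' (p + 1)) (mArc t (p + 1)) (mArc t j) → j = p + 1 := by
    intro j hj hpar hcj
    by_contra hne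
    refine (dual_col h1 h2 p p (p + 1) (p + 2) (p + 3) (by omega) (by omega) (by omega) (by omega)
      hlt3).1 hc ?_
    exact conn_mono hcj le_rfl (hrest j hj (by omega))
  -- the arcs of the new marks
  have harc : ∀ j, j ≠ p → mArc (fun i => t (sg p i)) j = mArc t (sg p j) := by
    intro j hj
    unfold mArc
    have : sg p (j + 1) = sg p j + 1 := by
      unfold sg
      split_ifs <;> omega
    simp only [this]
  have harcp : mArc (fun i => t (sg p i)) p = cArc 0 1 (t p) (t (p + 3)) := by
    unfold mArc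
    have e1 : sg p p = p := by unfold sg; rw [if_pos le_rfl]
    have e2 : sg p (p + 1) = p + 3 := by unfold sg; rw [if_neg (by omega)]
    simp only [e1, e2]
  have hsub : ∀ i, i < 2 * (m + 1) → i ≠ p + 1 →
      mArc t i ⊆ mArc (fun i => t (sg p i)) (pj p i) := by
    intro i hi hne
    refine cArc_mono (mono' ht ?_ ?_) (mono' ht ?_ ?_)
    · unfold sg pj
      split_ifs <;> omega
    · omega
    · unfold sg pj
      split_ifs <;> omega
    · unfold sg pj
      split_ifs <;> omega
  have hpar : ∀ i, i ≠ p + 1 → pj p i % 2 = i % 2 := by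
    intro i hi
    unfold pj
    split_ifs <;> omega
  have hsgpar : ∀ i, sg p i % 2 = i % 2 := by
    intro i
    unfold sg
    split_ifs <;> omega
  have hpjlt : ∀ i, i < 2 * (m + 1) → pj p i < 2 * m := by
    intro i hi
    unfold pj
    split_ifs <;> omega
  have hsglt : ∀ i, i < 2 * m → sg p i < 2 * (m + 1) := by
    intro i hi
    unfold sg
    split_ifs <;> omega
  have hcolsub : ∀ i, col F F' i ⊆ closedBall 0 1 := by
    intro i
    unfold col
    split_ifs
    · exact hFb
    · exact hFb'
  have hcolcpt : ∀ i, IsCompact (col F F' i) := by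
    intro i
    unfold col
    split_ifs
    · exact hF
    · exact hF'
  have hp1 : p < 2 * (m + 1) := by omega
  have hp2 : p + 1 < 2 * (m + 1) := by omega
  have hp3 : p + 2 < 2 * (m + 1) := by omega
  have hpp : (Quot.mk (rel F F' t (m + 1)) ⟨p, hp1⟩) = Quot.mk _ ⟨p + 2, hp3⟩ :=
    Quot.sound ⟨by simp, hc⟩
  -- the forward map
  let f : Fin (2 * (m + 1)) → Option (Quot (rel F F' (fun i => t (sg p i)) m)) := fun i =>
    if (i : ℕ) = p + 1 then none else some (Quot.mk _ ⟨pj p i, hpjlt i i.2⟩)
  have hf : ∀ i j, rel F F' t (m + 1) i j → f i = f j := by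
    rintro i j ⟨h3, h4⟩
    by_cases hi : (i : ℕ) = p + 1
    · have hj : (j : ℕ) = p + 1 := iso j j.2 (by omega) (by rw [hi] at h4; exact h4)
      simp only [f, hi, hj, if_true]
    · by_cases hj : (j : ℕ) = p + 1
      · exfalso
        refine hi (iso i i.2 (by omega) ?_)
        rw [hj] at h4 h3
        rw [← col_congr h3]
        exact conn_symm h4
      · simp only [f, hi, hj, if_false]
        congr 1
        refine Quot.sound ⟨?_, ?_⟩
        · change pj p i % 2 = pj p j % 2
          rw [hpar i hi, hpar j hj, h3]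
        · change Conn (col F F' (pj p i)) _ _
          rw [col_congr (hpar i hi)]
          exact conn_mono h4 (hsub i i.2 hi) (hsub j j.2 hj)
  -- connections with the merged arc
  have hmerge : ∀ j (hj : j < 2 * m), j ≠ p → j % 2 = p % 2 →
      Conn (col F F' p) (mArc (fun i => t (sg p i)) p) (mArc (fun i => t (sg p i)) j) →
      (Quot.mk (rel F F' t (m + 1)) ⟨p, hp1⟩) = Quot.mk _ ⟨sg p j, hsglt j hj⟩ := by
    intro j hj hne hjp hcon
    rw [harc j hne, harcp] at hcon
    have hjr : sg p j + 1 ≤ p ∨ p + 3 ≤ sg p j := by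
      unfold sg
      split_ifs <;> omega
    obtain ⟨K, k1, k2, ⟨z, hzK, hz⟩, k4⟩ := hcon
    obtain ⟨r, r1, r2, r3⟩ := cover t (by omega) hz
    have hr : r = p ∨ r = p + 1 ∨ r = p + 2 := by omega
    rcases hr with rfl | rfl | rfl
    · refine Quot.sound ⟨?_, ?_⟩
      · change r % 2 = sg r j % 2
        rw [hsgpar, hjp]
      · exact ⟨K, k1, k2, ⟨z, hzK, r3⟩, k4⟩
    · obtain ⟨L, l1, l2, l3, l4, l5⟩ := Conn.cpt (hcolcpt p) hc
      obtain ⟨K', k1', k2', k3', k4', k5'⟩ := Conn.cpt (A := mArc t (p + 1)) (hcolcpt p)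
        ⟨K, k1, k2, ⟨z, hzK, r3⟩, k4⟩
      have hne := hM (t p) (t (p + 1)) (t (p + 2)) (t (p + 3)) (ht.mono _ _ (by omega) (by omega))
        (ht.mono _ _ (by omega) (by omega)) (ht.mono _ _ (by omega) (by omega)) hlt3 L K' l2 k2'
        (l1.trans (hcolsub p)) (k1'.trans (hcolsub p)) l3 k3' l4 l5 k4'
        (k5'.mono (inter_subset_inter_right _ (hrest _ (hsglt j hj) hjr)))
      refine Quot.sound ⟨?_, ?_⟩
      · change p % 2 = sg p j % 2
        rw [hsgpar, hjp]
      · exact ⟨L ∪ K', union_subset l1 k1', IsConnected.union hne l3 k3',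
          l4.mono (inter_subset_inter_left _ subset_union_left),
          k5'.mono (inter_subset_inter_left _ subset_union_right)⟩
    · rw [hpp]
      refine Quot.sound ⟨?_, ?_⟩
      · change (p + 2) % 2 = sg p j % 2
        rw [hsgpar, hjp]
        omega
      · change Conn (col F F' (p + 2)) _ _
        rw [col_congr (show (p + 2) % 2 = p % 2 by omega)]
        exact ⟨K, k1, k2, ⟨z, hzK, r3⟩, k4⟩
  have hg : ∀ i j : Fin (2 * m), rel F F' (fun i => t (sg p i)) m i j →
      (Quot.mk (rel F F' t (m + 1)) ⟨sg p i, hsglt i i.2⟩) = Quot.mk _ ⟨sg p j, hsglt j j.2⟩ := by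
    rintro i j ⟨h3, h4⟩
    have hsp : sg p p = p := by unfold sg; rw [if_pos le_rfl]
    by_cases hi : (i : ℕ) = p
    · by_cases hj : (j : ℕ) = p
      · have : i = j := Fin.ext (by rw [hi, hj])
        subst this
        rfl
      · have h5 := hmerge j j.2 hj (by omega) (by rw [hi] at h4; exact h4)
        rw [← h5]
        congr 1
        exact Fin.ext (by change sg p i = p; rw [hi, hsp])
    · by_cases hj : (j : ℕ) = p
      · have h5 := hmerge i i.2 hi (by omega) (by
          rw [hj] at h4 h3
          rw [← col_congr h3]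
          exact conn_symm h4)
        rw [← h5]
        congr 1
        exact Fin.ext (by change p = sg p j; rw [hj, hsp])
      · refine Quot.sound ⟨?_, ?_⟩
        · change sg p i % 2 = sg p j % 2
          rw [hsgpar, hsgpar, h3]
        · change Conn (col F F' (sg p i)) _ _
          rw [harc i hi, harc j hj] at h4
          rw [col_congr (hsgpar i)]
          exact h4
  let e : Quot (rel F F' t (m + 1)) ≃ Option (Quot (rel F F' (fun i => t (sg p i)) m)) :=
    { toFun := Quot.lift f hf
      invFun := fun o => o.elim (Quot.mk _ ⟨p + 1, hp2⟩)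
        (Quot.lift (fun j => Quot.mk _ ⟨sg p j, hsglt j j.2⟩) hg)
      left_inv := by
        rintro ⟨i⟩
        change Option.elim (f i) _ _ = _
        by_cases hi : (i : ℕ) = p + 1
        · simp only [f, hi, if_true, Option.elim_none]
          congr 1
          exact Fin.ext hi.symm
        · simp only [f, hi, if_false, Option.elim_some]
          by_cases hi2 : (i : ℕ) = p + 2
          · have e1 : (⟨sg p (pj p i), hsglt _ (hpjlt i i.2)⟩ : Fin (2 * (m + 1))) = ⟨p, hp1⟩ := by
              refine Fin.ext ?_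
              change sg p (pj p i) = p
              rw [hi2]
              unfold sg pj
              split_ifs <;> omega
            rw [e1, hpp]
            congr 1
            exact Fin.ext hi2.symm
          · congr 1
            refine Fin.ext ?_
            change sg p (pj p i) = i
            unfold sg pj
            split_ifs <;> omega
      right_inv := by
        rintro (_ | ⟨⟨j⟩⟩)
        · change f ⟨p + 1, hp2⟩ = none
          simp only [f, if_true]
        · change f ⟨sg p j, hsglt j j.2⟩ = some (Quot.mk _ j)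
          have hne : sg p j ≠ p + 1 := by
            unfold sg
            split_ifs <;> omega
          simp only [f, hne, if_false]
          congr 2
          refine Fin.ext ?_
          change pj p (sg p j) = j
          unfold sg pj
          split_ifs <;> omega }
  rw [Nat.card_congr e, Finite.card_option]

theorem card_rel (hM : MeetStmt) (hF : IsCompact F) (hF' : IsCompact F')
    (hFb : F ⊆ closedBall 0 1) (hFb' : F' ⊆ closedBall 0 1) (m : ℕ) :
    ∀ t : ℕ → ℝ, Marks (m + 1) t → Dual4 t (m + 1) F F' → Dual4 t (m + 1) F' F →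
      Nat.card (Quot (rel F F' t (m + 1))) = m + 2 := by
  induction m with
  | zero =>
    intro t ht h1 h2
    have h3 : ∀ i j : Fin (2 * (0 + 1)), rel F F' t (0 + 1) i j → i = j := by
      rintro i j ⟨h, -⟩
      refine Fin.ext ?_
      have := i.2
      have := j.2
      omega
    let e : Quot (rel F F' t (0 + 1)) ≃ Fin (2 * (0 + 1)) :=
      { toFun := Quot.lift id h3
        invFun := Quot.mk _
        left_inv := by rintro ⟨i⟩; rfl
        right_inv := fun i => rfl }
    rw [Nat.card_congr e, Nat.card_fin]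
  | succ m ih =>
    intro t ht h1 h2
    obtain ⟨p, hp, hc⟩ := exists_adj (by omega) ht h1 h2
    rw [card_step hM hF hF' hFb hFb' (by omega) (by omega) ht h1 h2 hc,
      ih _ (marks_sg (by omega) ht) (dual_sg (by omega) h1) (dual_sg (by omega) h2)]

theorem card_split (F F' : Set ℂ) (t : ℕ → ℝ) (n : ℕ) :
    Nat.card (Quot (rel F F' t n)) = blocks F t n 0 + blocks F' t n 1 := by
  unfold blocks
  set r0 : Fin n → Fin n → Prop := fun i j => Conn F (mArc t (2 * i + 0)) (mArc t (2 * j + 0))
  set r1 : Fin n → Fin n → Prop := fun i j => Conn F' (mArc t (2 * i + 1)) (mArc t (2 * j + 1))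
  have hlt : ∀ i : Fin (2 * n), (i : ℕ) / 2 < n := fun i => by have := i.2; omega
  let f : Fin (2 * n) → Quot r0 ⊕ Quot r1 := fun i =>
    if (i : ℕ) % 2 = 0 then Sum.inl (Quot.mk _ ⟨(i : ℕ) / 2, hlt i⟩)
    else Sum.inr (Quot.mk _ ⟨(i : ℕ) / 2, hlt i⟩)
  have hf : ∀ i j, rel F F' t n i j → f i = f j := by
    rintro i j ⟨h1, h2⟩
    by_cases hi : (i : ℕ) % 2 = 0
    · have hj : (j : ℕ) % 2 = 0 := by omega
      simp only [f, hi, hj, if_true]
      congr 1
      refine Quot.sound ?_
      change Conn F (mArc t (2 * ((i : ℕ) / 2) + 0)) (mArc t (2 * ((j : ℕ) / 2) + 0))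
      rw [show 2 * ((i : ℕ) / 2) + 0 = i by omega, show 2 * ((j : ℕ) / 2) + 0 = j by omega]
      unfold col at h2
      rw [if_pos hi] at h2
      exact h2
    · have hj : ¬ (j : ℕ) % 2 = 0 := by omega
      simp only [f, hi, hj, if_false]
      congr 1
      refine Quot.sound ?_
      change Conn F' (mArc t (2 * ((i : ℕ) / 2) + 1)) (mArc t (2 * ((j : ℕ) / 2) + 1))
      rw [show 2 * ((i : ℕ) / 2) + 1 = i by omega, show 2 * ((j : ℕ) / 2) + 1 = j by omega]
      unfold col at h2
      rw [if_neg hi] at h2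
      exact h2
  let g0 : Quot r0 → Quot (rel F F' t n) :=
    Quot.lift (fun k => Quot.mk _ ⟨2 * (k : ℕ), by have := k.2; omega⟩) (by
      intro i j hij
      refine Quot.sound ⟨by simp, ?_⟩
      change Conn (col F F' (2 * (i : ℕ))) _ _
      unfold col
      rw [if_pos (by omega)]
      exact hij)
  let g1 : Quot r1 → Quot (rel F F' t n) :=
    Quot.lift (fun k => Quot.mk _ ⟨2 * (k : ℕ) + 1, by have := k.2; omega⟩) (by
      intro i j hij
      refine Quot.sound ⟨by simp only; omega, ?_⟩
      change Conn (col F F' (2 * (i : ℕ) + 1)) _ _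
      unfold col
      rw [if_neg (by omega)]
      exact hij)
  let e : Quot (rel F F' t n) ≃ Quot r0 ⊕ Quot r1 :=
    { toFun := Quot.lift f hf
      invFun := Sum.elim g0 g1
      left_inv := by
        rintro ⟨i⟩
        change Sum.elim g0 g1 (f i) = _
        by_cases hi : (i : ℕ) % 2 = 0
        · simp only [f, hi, if_true, Sum.elim_inl]
          change Quot.mk _ _ = _
          congr 1
          exact Fin.ext (by change 2 * ((i : ℕ) / 2) = i; omega)
        · simp only [f, hi, if_false, Sum.elim_inr]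
          change Quot.mk _ _ = _
          congr 1
          exact Fin.ext (by change 2 * ((i : ℕ) / 2) + 1 = i; omega)
      right_inv := by
        rintro (⟨⟨k⟩⟩ | ⟨⟨k⟩⟩)
        · change f ⟨2 * (k : ℕ), _⟩ = Sum.inl (Quot.mk _ k)
          have h0 : 2 * (k : ℕ) % 2 = 0 := by omega
          simp only [f, h0, if_true]
          congr 2
          exact Fin.ext (by change 2 * (k : ℕ) / 2 = k; omega)
        · change f ⟨2 * (k : ℕ) + 1, _⟩ = Sum.inr (Quot.mk _ k)
          have h0 : ¬ (2 * (k : ℕ) + 1) % 2 = 0 := by omega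
          simp only [f, h0, if_false]
          congr 2
          exact Fin.ext (by change (2 * (k : ℕ) + 1) / 2 = k; omega) }
  rw [Nat.card_congr e, Nat.card_sum]

end TDet

/-- **Z1**: the number of black classes of the even arcs plus the number of white classes of the
odd arcs is `n + 1`. -/
theorem det (hM : MeetStmt) : DetStmt := by
  intro n t hn ht F F' hF hF' hFb hFb' h1 h2
  obtain ⟨m, rfl⟩ : ∃ m, n = m + 1 := ⟨n - 1, by omega⟩
  rw [← TDet.card_split, TDet.card_rel hM hF hF' hFb hFb' m t ht h1 h2]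

end P148
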