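import Vale.Agent.P148.Props4

/-!
# P148: `2n` arcs, the conditional form (row Q)
-/

open MeasureTheory Set Metric Topology Filter ProbabilityTheory
open scoped ENNReal NNReal

namespace P148

universe u

/-- Given the positions of the points, the conditional mean number of black classes of the even
arcs plus the conditional mean number of black classes of the odd arcs is `n + 1`. -/
def QuenStmt : Prop :=
  ∀ (Ω : Type u) [MeasurableSpace Ω] (P : Measure Ω) [IsProbabilityMeasure P] (S : Ω → Set Pt)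
    (lam : ℝ≥0), 0 < lam → IsColouredPoisson P S lam → ∀ (G : ℂ ≃ₜ ℂ) (n : ℕ) (t : ℕ → ℝ),
    1 ≤ n → Marks n t →
    ∀ᵐ ω ∂P, (P[fun ω => (blocks (Fb (gap (S ω) ∘ G)) t n 0 : ℝ) | posSigma S]) ω +
      (P[fun ω => (blocks (Fb (gap (S ω) ∘ G)) t n 1 : ℝ) | posSigma S]) ω = n + 1

namespace TQuen

theorem blocks_le (F : Set ℂ) (t : ℕ → ℝ) (n c : ℕ) : blocks F t n c ≤ n := by
  unfold blocks
  refine (Nat.card_le_card_of_surjective _ Quot.mk_surjective).trans (le_of_eq ?_)
  rw [Nat.card_eq_fintype_card, Fintype.card_fin]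

/-- The law is invariant under the flip of the colours: integrals over events of the positions. -/
theorem setIntegral_flip {Ω : Type u} [MeasurableSpace Ω] {P : Measure Ω}
    [IsProbabilityMeasure P] {S : Ω → Set Pt} {lam : ℝ≥0} (h : IsColouredPoisson P S lam)
    {b : Set Pt → ℕ} (hb : Measurable[voidSigma] b) {A : Set Ω}
    (hA : MeasurableSet[posSigma S] A) :
    ∫ ω in A, (b (S ω) : ℝ) ∂P = ∫ ω in A, (b (flip (S ω)) : ℝ) ∂P := by
  obtain ⟨E, hE1, hE2, rfl⟩ := exists_of_posSigma hA
  let _ : MeasurableSpace (Set Pt) := voidSigma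
  have hS : Measurable S := h.measurable_self
  have hF : Measurable (fun ω => flip (S ω)) := h.measurable_map (IsometryEquiv.refl ℂ)
    Equiv.boolNot
  have hlaw : Measure.map (fun ω => flip (S ω)) P = Measure.map S P := by
    ext B hB
    rw [Measure.map_apply hF hB, Measure.map_apply hS hB]
    exact (inv Ω P S lam h (IsometryEquiv.refl ℂ) Equiv.boolNot B hB).2.2
  have hg : Measurable (E.indicator fun T => (b T : ℝ)) :=
    Measurable.indicator (measurable_from_top.comp hb) hE1
  have hSE : MeasurableSet {ω | S ω ∈ E} := hS hE1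
  have e1 : ∫ ω in {ω | S ω ∈ E}, (b (S ω) : ℝ) ∂P =
      ∫ ω, E.indicator (fun T => (b T : ℝ)) (S ω) ∂P := by
    rw [← integral_indicator hSE]
    rfl
  have e2 : ∫ ω in {ω | S ω ∈ E}, (b (flip (S ω)) : ℝ) ∂P =
      ∫ ω, E.indicator (fun T => (b T : ℝ)) (flip (S ω)) ∂P := by
    rw [← integral_indicator hSE]
    refine integral_congr_ae (Eventually.of_forall fun ω => ?_)
    by_cases hω : S ω ∈ E
    · have h1 : flip (S ω) ∈ E := (hE2 (S ω)).2 hω
      show ({ω | S ω ∈ E}.indicator (fun ω => (b (flip (S ω)) : ℝ)) ω) =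
        E.indicator (fun T => (b T : ℝ)) (flip (S ω))
      rw [indicator_of_mem (show ω ∈ {ω | S ω ∈ E} from hω), indicator_of_mem h1]
    · have h1 : flip (S ω) ∉ E := fun h' => hω ((hE2 (S ω)).1 h')
      show ({ω | S ω ∈ E}.indicator (fun ω => (b (flip (S ω)) : ℝ)) ω) =
        E.indicator (fun T => (b T : ℝ)) (flip (S ω))
      rw [indicator_of_notMem (show ω ∉ {ω | S ω ∈ E} from hω), indicator_of_notMem h1]
  rw [e1, e2, ← integral_map (μ := P) (φ := S) hS.aemeasurable hg.aestronglyMeasurable,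
    ← integral_map (μ := P) (φ := fun ω => flip (S ω)) hF.aemeasurable hg.aestronglyMeasurable,
    hlaw]

end TQuen

open TQuen

theorem quen_of (hm : ∀ (G : ℂ ≃ₜ ℂ) (t : ℕ → ℝ) (n c : ℕ),
    Measurable[voidSigma] fun T => blocks (Fb (gap T ∘ G)) t n c) (hB : BlockStmt.{u}) :
    QuenStmt.{u} := by
  intro Ω _ P _ S lam hlam h G n t hn hM
  obtain ⟨hae, -⟩ := hB Ω P S lam hlam h G n t hn hM
  have hmeas : ∀ c, Measurable fun ω => (blocks (Fb (gap (S ω) ∘ G)) t n c : ℝ) := by
    intro c
    let _ : MeasurableSpace (Set Pt) := voidSigma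
    exact (measurable_from_top (f := fun k : ℕ => (k : ℝ))).comp
      ((hm G t n c).comp h.measurable_self)
  have hint : ∀ c, Integrable (fun ω => (blocks (Fb (gap (S ω) ∘ G)) t n c : ℝ)) P := by
    intro c
    refine Integrable.of_bound (hmeas c).aestronglyMeasurable (n : ℝ)
      (Eventually.of_forall fun ω => ?_)
    rw [Real.norm_of_nonneg (Nat.cast_nonneg _)]
    exact_mod_cast blocks_le _ _ _ _
  have hle := posSigma_le h
  have h1 := condExp_add (hint 0) (hint 1) (posSigma S)
  have h2 : (fun _ : Ω => (n + 1 : ℝ)) =ᵐ[P]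
      P[(fun ω => (blocks (Fb (gap (S ω) ∘ G)) t n 0 : ℝ)) +
        (fun ω => (blocks (Fb (gap (S ω) ∘ G)) t n 1 : ℝ)) | posSigma S] := by
    refine ae_eq_condExp_of_forall_setIntegral_eq hle ((hint 0).add (hint 1))
      (fun _ _ _ => (integrable_const _).integrableOn) ?_ aestronglyMeasurable_const
    intro A hA _
    have hA' := hle A hA
    have e1 : ∫ ω in A, (blocks (Fb (gap (S ω) ∘ G)) t n 1 : ℝ) ∂P =
        ∫ ω in A, (blocks (Fw (gap (S ω) ∘ G)) t n 1 : ℝ) ∂P := by
      rw [setIntegral_flip h (b := fun T => blocks (Fb (gap T ∘ G)) t n 1) (hm G t n 1) hA]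
      refine integral_congr_ae (Eventually.of_forall fun ω => ?_)
      show (blocks (Fb (gap (flip (S ω)) ∘ G)) t n 1 : ℝ) = _
      rw [Fb_flip]
    have hmw : Measurable fun ω => (blocks (Fw (gap (S ω) ∘ G)) t n 1 : ℝ) := by
      let _ : MeasurableSpace (Set Pt) := voidSigma
      have h3 : Measurable fun ω => (blocks (Fb (gap (flip (S ω)) ∘ G)) t n 1 : ℝ) :=
        (measurable_from_top (f := fun k : ℕ => (k : ℝ))).comp
          ((hm G t n 1).comp (h.measurable_map (IsometryEquiv.refl ℂ) Equiv.boolNot))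
      have e : (fun ω => (blocks (Fb (gap (flip (S ω)) ∘ G)) t n 1 : ℝ)) =
          fun ω => (blocks (Fw (gap (S ω) ∘ G)) t n 1 : ℝ) := by
        funext ω
        rw [Fb_flip]
      rw [e] at h3
      exact h3
    have hiw : Integrable (fun ω => (blocks (Fw (gap (S ω) ∘ G)) t n 1 : ℝ)) P := by
      refine Integrable.of_bound hmw.aestronglyMeasurable (n : ℝ)
        (Eventually.of_forall fun ω => ?_)
      rw [Real.norm_of_nonneg (Nat.cast_nonneg _)]
      exact_mod_cast blocks_le _ _ _ _
    simp only [Pi.add_apply]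
    rw [integral_add (hint 0).integrableOn (hint 1).integrableOn, e1,
      ← integral_add (hint 0).integrableOn hiw.integrableOn]
    refine integral_congr_ae (ae_restrict_of_ae (hae.mono fun ω hω => ?_))
    show (n + 1 : ℝ) = (blocks (Fb (gap (S ω) ∘ G)) t n 0 : ℝ) +
      (blocks (Fw (gap (S ω) ∘ G)) t n 1 : ℝ)
    rw [← Nat.cast_add, hω]
    push_cast
    rfl
  filter_upwards [h1, h2] with ω h1 h2
  rw [← Pi.add_apply, ← h1, ← h2]

end P148
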