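import Vale.Agent.P148.TEvenA
import Vale.Agent.P148.Props5
import Vale.Agent.P148.TQuen

/-!
# P148: the theorem on `2n` arcs, assembly
-/

open MeasureTheory Set Metric Topology Filter ProbabilityTheory
open scoped ENNReal NNReal

namespace P148

universe u

/-- The pattern of the `n` arcs `c, c + 2, ..., c + 2 (n - 1)`: the equivalence relation generated
by `Cross`. -/
def Gon.pattern {n : ℕ} (J : Gon n) (c : ℕ) (R : Set ℂ) : Fin n → Fin n → Prop :=
  Relation.EqvGen fun i j : Fin n => J.Cross (2 * i + c) (2 * j + c) R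

theorem Gon.pattern_eq {n : ℕ} (J : Gon n) (T : Set Pt) (c : ℕ) :
    J.pattern c {z | gap T z ≤ 0} = pat (Fb (gap T ∘ J.H)) J.t n c := by
  unfold Gon.pattern
  have : (fun i j : Fin n => J.Cross (2 * i + c) (2 * j + c) {z | gap T z ≤ 0}) =
      fun i j : Fin n => Conn (Fb (gap T ∘ J.H)) (mArc J.t (2 * i + c)) (mArc J.t (2 * j + c)) := by
    funext i j
    exact propext (J.cross_iff T _ _)
  rw [this]
  rfl

section prob

variable {Ω : Type u} [MeasurableSpace Ω] {P : Measure Ω} [IsProbabilityMeasure P]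
  {S : Ω → Set Pt} {lam : ℝ≥0}

theorem ae_pattern (hlam : 0 < lam) (h : IsColouredPoisson P S lam) {n : ℕ} (J : Gon n) :
    ∀ᵐ ω ∂P, ∀ c, J.pattern c (blackRegion (S ω)) = pat (Fb (gap (S ω) ∘ J.H)) J.t n c ∧
      J.pattern c (whiteRegion (S ω)) = pat (Fw (gap (S ω) ∘ J.H)) J.t n c := by
  filter_upwards [ae_region hlam h] with ω hω
  intro c
  rw [hω.1, hω.2, J.pattern_eq, J.pattern_eq, Fb_flip]
  exact ⟨rfl, rfl⟩

theorem even_krew (hK : KrewStmt.{u}) (hlam : 0 < lam) (h : IsColouredPoisson P S lam) {n : ℕ}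
    (hn : 1 ≤ n) (J : Gon n) :
    (∀ᵐ ω ∂P, J.pattern 1 (whiteRegion (S ω)) = krew (J.pattern 0 (blackRegion (S ω)))) ∧
    ∀ A : Set (Fin n → Fin n → Prop),
      NullMeasurableSet {ω | J.pattern 1 (blackRegion (S ω)) ∈ A} P ∧
      NullMeasurableSet {ω | krew (J.pattern 0 (blackRegion (S ω))) ∈ A} P ∧
      P {ω | J.pattern 1 (blackRegion (S ω)) ∈ A} =
        P {ω | krew (J.pattern 0 (blackRegion (S ω))) ∈ A} ∧
      P⟦{ω | J.pattern 1 (blackRegion (S ω)) ∈ A} | posSigma S⟧ =ᵐ[P]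
        P⟦{ω | krew (J.pattern 0 (blackRegion (S ω))) ∈ A} | posSigma S⟧ := by
  obtain ⟨k1, k2⟩ := hK Ω P S lam hlam h J.H n J.t hn J.marks
  have hp := ae_pattern hlam h J
  constructor
  · filter_upwards [hp, k1] with ω h1 h2
    rw [(h1 1).2, (h1 0).1]
    exact h2
  · intro A
    obtain ⟨m1, m2, m3, m4⟩ := k2 A
    have e1 : {ω | J.pattern 1 (blackRegion (S ω)) ∈ A} =ᵐ[P]
        {ω | pat (Fb (gap (S ω) ∘ J.H)) J.t n 1 ∈ A} := by
      filter_upwards [hp] with ω h1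
      refine propext ?_
      change J.pattern 1 (blackRegion (S ω)) ∈ A ↔ _
      rw [(h1 1).1]
      exact Iff.rfl
    have e2 : {ω | krew (J.pattern 0 (blackRegion (S ω))) ∈ A} =ᵐ[P]
        {ω | krew (pat (Fb (gap (S ω) ∘ J.H)) J.t n 0) ∈ A} := by
      filter_upwards [hp] with ω h1
      refine propext ?_
      change krew (J.pattern 0 (blackRegion (S ω))) ∈ A ↔ _
      rw [(h1 0).1]
      exact Iff.rfl
    refine ⟨m1.nullMeasurableSet.congr e1.symm, m2.nullMeasurableSet.congr e2.symm, ?_, ?_⟩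
    · rw [measure_congr e1, measure_congr e2, m3]
    · have c1 := condExp_congr_ae (m := posSigma S)
        (indicator_ae_eq_of_ae_eq_set (f := fun _ => (1 : ℝ)) e1)
      have c2 := condExp_congr_ae (m := posSigma S)
        (indicator_ae_eq_of_ae_eq_set (f := fun _ => (1 : ℝ)) e2)
      exact c1.trans (m4.trans c2.symm)

theorem even_count (hm : ∀ (G : ℂ ≃ₜ ℂ) (t : ℕ → ℝ) (n c : ℕ),
      Measurable[voidSigma] fun T => blocks (Fb (gap T ∘ G)) t n c)
    (hB : BlockStmt.{u}) (hQ : QuenStmt.{u}) (hlam : 0 < lam)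
    (h : IsColouredPoisson P S lam) {n : ℕ} (hn : 1 ≤ n) (J : Gon n) :
    (∀ᵐ ω ∂P, J.classes 0 (blackRegion (S ω)) + J.classes 1 (whiteRegion (S ω)) = n + 1) ∧
    (∀ c, AEStronglyMeasurable (fun ω => (J.classes c (blackRegion (S ω)) : ℝ)) P) ∧
    ∫ ω, (J.classes 0 (blackRegion (S ω)) : ℝ) ∂P +
      ∫ ω, (J.classes 1 (blackRegion (S ω)) : ℝ) ∂P = n + 1 ∧
    ∀ᵐ ω ∂P, (P[fun ω => (J.classes 0 (blackRegion (S ω)) : ℝ) | posSigma S]) ω +
      (P[fun ω => (J.classes 1 (blackRegion (S ω)) : ℝ) | posSigma S]) ω = n + 1 := by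
  obtain ⟨b1, b2⟩ := hB Ω P S lam hlam h J.H n J.t hn J.marks
  have b3 := hQ Ω P S lam hlam h J.H n J.t hn J.marks
  have hc := ae_classes hlam h J
  have hf : ∀ c, (fun ω => (J.classes c (blackRegion (S ω)) : ℝ)) =ᵐ[P]
      fun ω => (blocks (Fb (gap (S ω) ∘ J.H)) J.t n c : ℝ) := by
    intro c
    filter_upwards [hc] with ω hω
    rw [(hω c).1]
  refine ⟨?_, ?_, ?_, ?_⟩
  · filter_upwards [hc, b1] with ω h1 h2
    rw [(h1 0).1, (h1 1).2]
    exact h2
  · intro c
    have h1 : Measurable fun ω => (blocks (Fb (gap (S ω) ∘ J.H)) J.t n c : ℝ) := by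
      have h2 : Measurable fun ω => blocks (Fb (gap (S ω) ∘ J.H)) J.t n c := by
        let _ : MeasurableSpace (Set Pt) := voidSigma
        have hS : Measurable S := h.measurable_self
        exact (hm J.H J.t n c).comp hS
      exact measurable_from_top.comp h2
    exact h1.aestronglyMeasurable.congr (hf c).symm
  · rw [integral_congr_ae (hf 0), integral_congr_ae (hf 1)]
    exact b2
  · filter_upwards [condExp_congr_ae (m := posSigma S) (hf 0),
      condExp_congr_ae (m := posSigma S) (hf 1), b3] with ω a0 a1 a2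
    rw [a0, a1]
    exact a2

theorem even_six (h3 : SixStmt.{u}) (hlam : 0 < lam) (h : IsColouredPoisson P S lam)
    (J : Gon 3) :
    (P {ω | J.Cross 0 2 (blackRegion (S ω))}).toReal +
      (P {ω | J.Cross 2 4 (blackRegion (S ω))}).toReal +
      (P {ω | J.Cross 4 0 (blackRegion (S ω))}).toReal +
      (P {ω | J.Cross 1 3 (blackRegion (S ω))}).toReal +
      (P {ω | J.Cross 3 5 (blackRegion (S ω))}).toReal +
      (P {ω | J.Cross 5 1 (blackRegion (S ω))}).toReal =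
    2 + (P {ω | J.Cross 0 2 (blackRegion (S ω)) ∧ J.Cross 2 4 (blackRegion (S ω)) ∧
        J.Cross 4 0 (blackRegion (S ω))}).toReal +
      (P {ω | J.Cross 1 3 (blackRegion (S ω)) ∧ J.Cross 3 5 (blackRegion (S ω)) ∧
        J.Cross 5 1 (blackRegion (S ω))}).toReal := by
  have h1 := h3 Ω P S lam hlam h J.H J.t J.marks
  have e := fun i j => ae_cross hlam h J i j
  have e3 : ∀ a b c d f g : ℕ, {ω | J.Cross a b (blackRegion (S ω)) ∧
      J.Cross c d (blackRegion (S ω)) ∧ J.Cross f g (blackRegion (S ω))} =ᵐ[P]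
      {ω | S ω ∈ arcEv J.H J.t a b ∩ arcEv J.H J.t c d ∩ arcEv J.H J.t f g} := by
    intro a b c d f g
    filter_upwards [e a b, e c d, e f g] with ω h1 h2 h3
    have h1' : J.Cross a b (blackRegion (S ω)) ↔ S ω ∈ arcEv J.H J.t a b := Iff.of_eq h1
    have h2' : J.Cross c d (blackRegion (S ω)) ↔ S ω ∈ arcEv J.H J.t c d := Iff.of_eq h2
    have h3' : J.Cross f g (blackRegion (S ω)) ↔ S ω ∈ arcEv J.H J.t f g := Iff.of_eq h3
    refine propext ?_
    change _ ∧ _ ∧ _ ↔ (_ ∧ _) ∧ _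
    rw [h1', h2', h3', and_assoc]
  rw [measure_congr (e 0 2), measure_congr (e 2 4), measure_congr (e 4 0),
    measure_congr (e 1 3), measure_congr (e 3 5), measure_congr (e 5 1),
    measure_congr (e3 0 2 2 4 4 0), measure_congr (e3 1 3 3 5 5 1)]
  exact h1

theorem even_regular (h4 : RegularStmt.{u}) (hlam : 0 < lam) (h : IsColouredPoisson P S lam)
    {n : ℕ} (hn : 1 ≤ n) (J : Gon n) (z₀ : ℂ) (R θ : ℝ) (hR : 0 < R)
    (hH : ∀ z, J.H z = z₀ + R * z) (ht : ∀ i, J.t i = θ + i * (Real.pi / n)) :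
    ∫ ω, (J.classes 0 (blackRegion (S ω)) : ℝ) ∂P = (n + 1) / 2 := by
  have h1 := h4 Ω P S lam hlam h J.H z₀ R θ hR hH n hn
  have hc := ae_classes hlam h J
  have hf : (fun ω => (J.classes 0 (blackRegion (S ω)) : ℝ)) =ᵐ[P]
      fun ω => (blocks (Fb (gap (S ω) ∘ J.H)) J.t n 0 : ℝ) := by
    filter_upwards [hc] with ω hω
    rw [(hω 0).1]
  have ht' : J.t = fun i : ℕ => θ + i * (Real.pi / n) := funext ht
  rw [integral_congr_ae hf, ht']
  exact h1

end prob

end P148
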