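import Vale.Agent.P148.Props4
import Vale.Agent.P148.DFkg

/-!
# P148: Jordan domains with `2n` marked points, definitions and translation to the disc model
-/

open MeasureTheory Set Metric Topology Filter ProbabilityTheory
open scoped ENNReal NNReal

namespace P148

universe u

/-- A Jordan domain with `2n` marked boundary points in counterclockwise order: `H` is a
homeomorphism of the plane, the domain is the image of the open unit disc, and the marked points
are the images of the points of the unit circle at the angles `t 0 < ... < t (2n - 1)`. -/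
structure Gon (n : ℕ) where
  H : ℂ ≃ₜ ℂ
  t : ℕ → ℝ
  marks : Marks n t

namespace Gon

variable {n : ℕ}

/-- The Jordan domain. -/
def D (J : Gon n) : Set ℂ := J.H '' ball 0 1

/-- The closed boundary arc between the marked points `i` and `i + 1` (`i < 2n`; the marked point
`2n` is the marked point `0`). -/
noncomputable def arc (J : Gon n) (i : ℕ) : Set ℂ := J.H '' mArc J.t i

/-- `R ∩ closure D` contains a connected set meeting the arcs `i` and `j`. -/
def Cross (J : Gon n) (i j : ℕ) (R : Set ℂ) : Prop :=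
  ∃ K ⊆ R ∩ closure J.D, IsConnected K ∧ (K ∩ J.arc i).Nonempty ∧ (K ∩ J.arc j).Nonempty

/-- The number of classes of the `n` arcs `c, c + 2, ..., c + 2 (n - 1)` under the equivalence
relation generated by `Cross`. -/
noncomputable def classes (J : Gon n) (c : ℕ) (R : Set ℂ) : ℕ :=
  Nat.card (Quot fun i j : Fin n => J.Cross (2 * i + c) (2 * j + c) R)

theorem closure_D (J : Gon n) : closure J.D = J.H '' closedBall 0 1 := by
  unfold D
  rw [← J.H.image_closure, closure_ball (0 : ℂ) one_ne_zero]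

theorem cross_iff (J : Gon n) (T : Set Pt) (i j : ℕ) :
    J.Cross i j {z | gap T z ≤ 0} ↔ Conn (Fb (gap T ∘ J.H)) (mArc J.t i) (mArc J.t j) := by
  unfold Cross Conn
  rw [closure_D]
  constructor
  · rintro ⟨K, h1, h2, h3, h4⟩
    refine ⟨J.H ⁻¹' K, ?_, ?_, ?_, ?_⟩
    · intro z hz
      obtain ⟨a, b⟩ := h1 hz
      refine ⟨a, ?_⟩
      rwa [J.H.injective.mem_set_image] at b
    · exact (J.H.isConnected_preimage).2 h2
    · obtain ⟨z, hz, y, hy, rfl⟩ := h3
      exact ⟨y, hz, hy⟩
    · obtain ⟨z, hz, y, hy, rfl⟩ := h4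
      exact ⟨y, hz, hy⟩
  · rintro ⟨K, h1, h2, h3, h4⟩
    refine ⟨J.H '' K, ?_, (J.H.isConnected_image).2 h2, ?_, ?_⟩
    · rintro _ ⟨z, hz, rfl⟩
      exact ⟨(h1 hz).1, mem_image_of_mem _ (h1 hz).2⟩
    · obtain ⟨z, a, b⟩ := h3
      exact ⟨J.H z, mem_image_of_mem _ a, mem_image_of_mem _ b⟩
    · obtain ⟨z, a, b⟩ := h4
      exact ⟨J.H z, mem_image_of_mem _ a, mem_image_of_mem _ b⟩

theorem classes_eq (J : Gon n) (T : Set Pt) (c : ℕ) :
    J.classes c {z | gap T z ≤ 0} = blocks (Fb (gap T ∘ J.H)) J.t n c := by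
  unfold classes blocks
  have : (fun i j : Fin n => J.Cross (2 * i + c) (2 * j + c) {z | gap T z ≤ 0}) =
      fun i j : Fin n => Conn (Fb (gap T ∘ J.H)) (mArc J.t (2 * i + c)) (mArc J.t (2 * j + c)) := by
    funext i j
    exact propext (J.cross_iff T _ _)
  rw [this]

end Gon

section prob

variable {Ω : Type u} [MeasurableSpace Ω] {P : Measure Ω} [IsProbabilityMeasure P]
  {S : Ω → Set Pt} {lam : ℝ≥0}

theorem ae_region (hlam : 0 < lam) (h : IsColouredPoisson P S lam) :
    ∀ᵐ ω ∂P, blackRegion (S ω) = {z | gap (S ω) z ≤ 0} ∧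
      whiteRegion (S ω) = {z | gap (flip (S ω)) z ≤ 0} := by
  filter_upwards [ae_good2 hlam h] with ω hω
  exact ⟨region (S ω) hω, by rw [whiteRegion_eq, region (flip (S ω)) hω.flip]⟩

/-- Almost surely the classes of the domain are the classes of the disc model. -/
theorem ae_classes (hlam : 0 < lam) (h : IsColouredPoisson P S lam) {n : ℕ} (J : Gon n) :
    ∀ᵐ ω ∂P, ∀ c, J.classes c (blackRegion (S ω)) = blocks (Fb (gap (S ω) ∘ J.H)) J.t n c ∧
      J.classes c (whiteRegion (S ω)) = blocks (Fw (gap (S ω) ∘ J.H)) J.t n c := by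
  filter_upwards [ae_region hlam h] with ω hω
  intro c
  rw [hω.1, hω.2, J.classes_eq, J.classes_eq, Fb_flip]
  exact ⟨rfl, rfl⟩

theorem ae_cross (hlam : 0 < lam) (h : IsColouredPoisson P S lam) {n : ℕ} (J : Gon n) (i j : ℕ) :
    {ω | J.Cross i j (blackRegion (S ω))} =ᵐ[P] {ω | S ω ∈ arcEv J.H J.t i j} := by
  filter_upwards [ae_region hlam h] with ω hω
  refine propext ?_
  change J.Cross i j (blackRegion (S ω)) ↔ _
  rw [hω.1]
  exact J.cross_iff (S ω) i j

end prob

end P148
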