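import Vale.Agent.P148.Props4
import Vale.Agent.P148.DHex
import Vale.Agent.P148.DSymm

/-!
# P148, row H: six equal arcs of a disc
-/

open MeasureTheory Set Metric Topology Filter ProbabilityTheory
open scoped ENNReal NNReal

namespace P148

universe u

/-- The angles of `2n` equal arcs. -/
noncomputable def rt (θ : ℝ) (n : ℕ) : ℕ → ℝ := fun i => θ + i * (Real.pi / n)

/-- The three even (`c = 0`) or odd (`c = 1`) arcs of six arcs are pairwise connected. -/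
def tripleEv (G : ℂ ≃ₜ ℂ) (t : ℕ → ℝ) (c : ℕ) : Set (Set Pt) :=
  arcEv G t c (c + 2) ∩ arcEv G t (c + 2) (c + 4) ∩ arcEv G t (c + 4) c

/-- Six equal arcs `A_0, …, A_5` of a disc: the probability `p` of a connection between `A_i` and
`A_(i + 2)` does not depend on `i`, and `3 p = 1 + P(the three even arcs are pairwise connected)`,
`p³ ≤ P(the three even arcs are pairwise connected)`, hence `2 cos (4 π / 9) ≤ p`. -/
def HexagonStmt : Prop :=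
  ∀ (Ω : Type u) [MeasurableSpace Ω] (P : Measure Ω) [IsProbabilityMeasure P] (S : Ω → Set Pt)
    (lam : ℝ≥0), 0 < lam → IsColouredPoisson P S lam → ∀ (G : ℂ ≃ₜ ℂ) (z₀ : ℂ) (R : ℝ),
    0 < R → IsDiscMap G z₀ R → ∃ p : ℝ, 2 * Real.cos (4 * Real.pi / 9) ≤ p ∧ ∀ θ : ℝ,
      (∀ i : ℕ, (P {ω | S ω ∈ arcEv G (rt θ 3) i (i + 2)}).toReal = p) ∧
      (∀ c : ℕ, 3 * p = 1 + (P {ω | S ω ∈ tripleEv G (rt θ 3) c}).toReal) ∧
      ∀ c : ℕ, p ^ 3 ≤ (P {ω | S ω ∈ tripleEv G (rt θ 3) c}).toReal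

namespace THex

theorem image_ball {G : ℂ ≃ₜ ℂ} {z₀ : ℂ} {R : ℝ} (hR : 0 < R) (hG : IsDiscMap G z₀ R) :
    G '' closedBall 0 1 = closedBall z₀ R := by
  ext z
  constructor
  · rintro ⟨w, hw, rfl⟩
    rw [mem_closedBall_zero_iff] at hw
    rw [mem_closedBall, hG w, dist_eq_norm, add_sub_cancel_left, norm_mul, Complex.norm_real,
      Real.norm_eq_abs, abs_of_pos hR]
    calc R * ‖w‖ ≤ R * 1 := mul_le_mul_of_nonneg_left hw hR.le
      _ = R := mul_one R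
  · intro hz
    refine ⟨(z - z₀) / R, ?_, ?_⟩
    · rw [mem_closedBall, dist_eq_norm] at hz
      rw [mem_closedBall_zero_iff, norm_div, Complex.norm_real, Real.norm_eq_abs, abs_of_pos hR,
        div_le_one hR]
      exact hz
    · have hR' : (R : ℂ) ≠ 0 := by exact_mod_cast hR.ne'
      rw [hG]
      field_simp
      ring

theorem image_arc {G : ℂ ≃ₜ ℂ} {z₀ : ℂ} {R : ℝ} (hG : IsDiscMap G z₀ R) (s t : ℝ) :
    G '' cArc 0 1 s t = cArc z₀ R s t := by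
  unfold cArc
  rw [image_image]
  refine image_congr fun a _ => ?_
  rw [hG]
  push_cast
  ring

theorem arcEv_eq {G : ℂ ≃ₜ ℂ} {z₀ : ℂ} {R : ℝ} (hR : 0 < R) (hG : IsDiscMap G z₀ R)
    (t : ℕ → ℝ) (i j : ℕ) :
    arcEv G t i j = discX z₀ R (t i) (t (i + 1)) (t j) (t (j + 1)) := by
  ext T
  change Conn (Fb (gap T ∘ G)) (cArc 0 1 (t i) (t (i + 1))) (cArc 0 1 (t j) (t (j + 1))) ↔ _
  rw [← conn_image G, image_Fb, image_ball hR hG, image_arc hG, image_arc hG]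
  exact Iff.rfl

/-- the rotation of crossing events -/
theorem discX_rot {z₀ : ℂ} (ψ : ℝ) : ∃ σ : ℂ ≃ᵢ ℂ, ∀ (R : ℝ) (s t u v : ℝ) (T : Set Pt),
    Prod.map σ (Equiv.refl Bool) '' T ∈ discX z₀ R (s + ψ) (t + ψ) (u + ψ) (v + ψ) ↔
      T ∈ discX z₀ R s t u v := by
  obtain ⟨σ, h0, hσ⟩ := exists_rot z₀ ψ
  refine ⟨σ, fun R s t u v T => ?_⟩
  have him : ∀ a b : ℝ, (fun x : ℝ => x + ψ) '' Icc a b = Icc (a + ψ) (b + ψ) :=
    fun a b => by rw [image_add_const_Icc]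
  have := crossEv_isometry σ (closedBall z₀ R) (cArc z₀ R s t) (cArc z₀ R u v) T
  rw [fixes_ball h0 R, image_cArc_of σ (fun x => x + ψ) (fun a => hσ R a) (him s t),
    image_cArc_of σ (fun x => x + ψ) (fun a => hσ R a) (him u v)] at this
  exact this

theorem rt_succ (θ : ℝ) (n i : ℕ) : rt θ n (i + 1) = rt θ n i + Real.pi / n := by
  unfold rt
  push_cast
  ring

theorem rt_add (θ : ℝ) (n i k : ℕ) : rt θ n (i + k) = rt θ n i + k * (Real.pi / n) := by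
  unfold rt
  push_cast
  ring

theorem marks (θ : ℝ) : Marks 3 (rt θ 3) := by
  have hpi := Real.pi_pos
  refine ⟨fun i j hij _ => ?_, ?_⟩
  · unfold rt
    have : (i : ℝ) < j := by exact_mod_cast hij
    have h3 : (0 : ℝ) < Real.pi / (3 : ℕ) := by positivity
    nlinarith
  · unfold rt
    push_cast
    ring

section

variable {z₀ : ℂ} {R : ℝ}

/-- the connection event of the arcs of length `π/3` at the angles `x` and `y` -/
def cn (z₀ : ℂ) (R x y : ℝ) : Set (Set Pt) :=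
  discX z₀ R x (x + Real.pi / 3) y (y + Real.pi / 3)

theorem cn_symm (z₀ : ℂ) (R x y : ℝ) : cn z₀ R x y = cn z₀ R y x := by
  ext T
  constructor
  · rintro ⟨K, h1, h2, h3, h4⟩
    exact ⟨K, h1, h2, h4, h3⟩
  · rintro ⟨K, h1, h2, h3, h4⟩
    exact ⟨K, h1, h2, h4, h3⟩

theorem cn_per (z₀ : ℂ) (R x y : ℝ) : cn z₀ R x (y + 2 * Real.pi) = cn z₀ R x y := by
  unfold cn discX
  rw [show y + 2 * Real.pi + Real.pi / 3 = (y + Real.pi / 3) + 2 * Real.pi by ring,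
    DHex.cArc_period]

theorem cn_rot (ψ : ℝ) : ∃ σ : ℂ ≃ᵢ ℂ, ∀ (R x y : ℝ) (T : Set Pt),
    Prod.map σ (Equiv.refl Bool) '' T ∈ cn z₀ R (x + ψ) (y + ψ) ↔ T ∈ cn z₀ R x y := by
  obtain ⟨σ, hσ⟩ := discX_rot (z₀ := z₀) ψ
  refine ⟨σ, fun R x y T => ?_⟩
  have := hσ R x (x + Real.pi / 3) y (y + Real.pi / 3) T
  unfold cn
  rw [show x + ψ + Real.pi / 3 = x + Real.pi / 3 + ψ by ring,
    show y + ψ + Real.pi / 3 = y + Real.pi / 3 + ψ by ring]
  exact this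

theorem measurable_cn (hR : 0 < R) (x y : ℝ) : MeasurableSet[voidSigma] (cn z₀ R x y) :=
  measurable_discX hR _ _ _ _

theorem appr_cn (hA : ApprStmt) (hR : 0 < R) (x y : ℝ) : Appr (cn z₀ R x y) :=
  hA _ _ _ (isCompact_closedBall _ _) (isCompact_cArc _ _ _ _) (isCompact_cArc _ _ _ _)
    (cArc_subset hR) (cArc_subset hR)

/-- the event that the three arcs at the angles `x, x + 2π/3, x + 4π/3` are pairwise connected -/
def tr (z₀ : ℂ) (R x : ℝ) : Set (Set Pt) :=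
  cn z₀ R x (x + 2 * Real.pi / 3) ∩
    cn z₀ R (x + 2 * Real.pi / 3) (x + 4 * Real.pi / 3) ∩ cn z₀ R (x + 4 * Real.pi / 3) x

theorem measurable_tr (hR : 0 < R) (x : ℝ) : MeasurableSet[voidSigma] (tr z₀ R x) :=
  ((measurable_cn hR _ _).inter (measurable_cn hR _ _)).inter (measurable_cn hR _ _)

theorem tr_rot (ψ : ℝ) : ∃ σ : ℂ ≃ᵢ ℂ, ∀ (R x : ℝ) (T : Set Pt),
    Prod.map σ (Equiv.refl Bool) '' T ∈ tr z₀ R (x + ψ) ↔ T ∈ tr z₀ R x := by
  obtain ⟨σ, hσ⟩ := cn_rot (z₀ := z₀) ψ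
  refine ⟨σ, fun R x T => ?_⟩
  have e1 : x + ψ + 2 * Real.pi / 3 = x + 2 * Real.pi / 3 + ψ := by ring
  have e2 : x + ψ + 4 * Real.pi / 3 = x + 4 * Real.pi / 3 + ψ := by ring
  unfold tr
  rw [e1, e2]
  exact and_congr (and_congr (hσ _ _ _ _) (hσ _ _ _ _)) (hσ _ _ _ _)

end

section

variable {Ω : Type u} [MeasurableSpace Ω] {P : Measure Ω} [IsProbabilityMeasure P]
  {S : Ω → Set Pt} {lam : ℝ≥0}

theorem prob_tr (h : IsColouredPoisson P S lam) {z₀ : ℂ} {R : ℝ} (hR : 0 < R) (x y : ℝ) :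
    P {ω | S ω ∈ tr z₀ R x} = P {ω | S ω ∈ tr z₀ R y} := by
  obtain ⟨σ, hσ⟩ := tr_rot (z₀ := z₀) (x - y)
  obtain ⟨-, -, he⟩ := inv Ω P S lam h σ (Equiv.refl Bool) _ (measurable_tr (z₀ := z₀) hR x)
  rw [← he]
  congr 1
  ext ω
  have := hσ R y (S ω)
  rw [add_sub_cancel] at this
  exact this

theorem prob_cn (h : IsColouredPoisson P S lam) {z₀ : ℂ} {R : ℝ} (hR : 0 < R) (x y d : ℝ) :
    P {ω | S ω ∈ cn z₀ R x (x + d)} = P {ω | S ω ∈ cn z₀ R y (y + d)} := by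
  obtain ⟨σ, hσ⟩ := cn_rot (z₀ := z₀) (x - y)
  obtain ⟨-, -, he⟩ := inv Ω P S lam h σ (Equiv.refl Bool) _
    (measurable_cn (z₀ := z₀) hR x (x + d))
  rw [← he]
  congr 1
  ext ω
  have := hσ R y (y + d) (S ω)
  rw [add_sub_cancel, show y + d + (x - y) = x + d by ring] at this
  exact this

theorem fkg_tr (hF : FKGStmt.{u}) (hA : ApprStmt) (hlam : 0 < lam)
    (h : IsColouredPoisson P S lam) {z₀ : ℂ} {R : ℝ} (hR : 0 < R) (x : ℝ) :
    P {ω | S ω ∈ cn z₀ R x (x + 2 * Real.pi / 3)} *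
      P {ω | S ω ∈ cn z₀ R (x + 2 * Real.pi / 3) (x + 4 * Real.pi / 3)} *
      P {ω | S ω ∈ cn z₀ R (x + 4 * Real.pi / 3) x} ≤ P {ω | S ω ∈ tr z₀ R x} := by
  set E₁ := cn z₀ R x (x + 2 * Real.pi / 3)
  set E₂ := cn z₀ R (x + 2 * Real.pi / 3) (x + 4 * Real.pi / 3)
  set E₃ := cn z₀ R (x + 4 * Real.pi / 3) x
  have m1 : MeasurableSet[voidSigma] E₁ := measurable_cn hR _ _
  have m2 : MeasurableSet[voidSigma] E₂ := measurable_cn hR _ _
  have m3 : MeasurableSet[voidSigma] E₃ := measurable_cn hR _ _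
  have a1 : Appr E₁ := appr_cn hA hR _ _
  have a2 : Appr E₂ := appr_cn hA hR _ _
  have a3 : Appr E₃ := appr_cn hA hR _ _
  have h12 := hF Ω P S lam hlam h E₁ E₂ m1 m2 a1 a2
  have a12 : Appr (E₁ ∩ E₂) := by
    obtain ⟨F, hF1, hF2⟩ := a1
    obtain ⟨F', hF1', hF2'⟩ := a2
    refine ⟨fun k => F k ∩ F' k,
      fun k T T' h1 h2 h3 => ⟨hF1 k T T' h1 h2 h3.1, hF1' k T T' h1 h2 h3.2⟩, fun T hT => ?_⟩
    constructor
    · rintro ⟨h1, h2⟩
      filter_upwards [(hF2 T hT).1 h1, (hF2' T hT).1 h2] with k hk hk' using ⟨hk, hk'⟩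
    · intro h1
      by_cases h2 : T ∈ E₁
      · have h3 : T ∉ E₂ := fun h3 => h1 ⟨h2, h3⟩
        filter_upwards [(hF2' T hT).2 h3] with k hk using fun h => hk h.2
      · filter_upwards [(hF2 T hT).2 h2] with k hk using fun h => hk h.1
  have h123 := hF Ω P S lam hlam h (E₁ ∩ E₂) E₃ (m1.inter m2) m3 a12 a3
  exact (mul_le_mul_left h12 _).trans h123

end

/-- the smaller root -/
theorem root_le {p : ℝ} (h0 : 0 ≤ p) (h1 : p ≤ 1) (hp : p ^ 3 - 3 * p + 1 ≤ 0) :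
    2 * Real.cos (4 * Real.pi / 9) ≤ p := by
  set x := Real.cos (4 * Real.pi / 9) with hx
  have hpi := Real.pi_pos
  have h3 : 4 * x ^ 3 - 3 * x = -(1 / 2) := by
    rw [hx, ← Real.cos_three_mul, show 3 * (4 * Real.pi / 9) = Real.pi / 3 + Real.pi by ring,
      Real.cos_add_pi, Real.cos_pi_div_three]
  have hx0 : 0 ≤ x := Real.cos_nonneg_of_mem_Icc ⟨by linarith, by linarith⟩
  have hx1 : x ≤ 1 / 2 := by
    rw [hx, ← Real.cos_pi_div_three]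
    exact Real.cos_le_cos_of_nonneg_of_le_pi (by positivity) (by linarith) (by linarith)
  by_contra hne
  push Not at hne
  have h4 : (2 * x - p) * (3 - ((2 * x) ^ 2 + 2 * x * p + p ^ 2)) ≤ 0 := by nlinarith
  have h5 : (2 * x) ^ 2 + 2 * x * p + p ^ 2 < 3 := by nlinarith
  nlinarith [mul_pos (sub_pos.2 hne) (sub_pos.2 h5)]

end THex

open THex in
/-- **(H)** -/
theorem hexagon (hS : SixStmt.{u}) (hF : FKGStmt.{u}) (hA : ApprStmt) : HexagonStmt.{u} := by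
  intro Ω _ P _ S lam hlam h G z₀ R hR hG
  have hev : ∀ θ i j, arcEv G (rt θ 3) i j = cn z₀ R (rt θ 3 i) (rt θ 3 j) := by
    intro θ i j
    rw [arcEv_eq hR hG, rt_succ, rt_succ]
    push_cast
    rfl
  have h2 : ∀ θ i, arcEv G (rt θ 3) i (i + 2) =
      cn z₀ R (rt θ 3 i) (rt θ 3 i + 2 * Real.pi / 3) := by
    intro θ i
    rw [hev, rt_add θ 3 i 2]
    congr 1
    push_cast
    ring
  have h2' : ∀ θ i, arcEv G (rt θ 3) (i + 4) i =
      cn z₀ R (rt θ 3 i + 4 * Real.pi / 3) (rt θ 3 i + 4 * Real.pi / 3 + 2 * Real.pi / 3) := by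
    intro θ i
    rw [hev, rt_add θ 3 i 4, ← cn_per]
    congr 1 <;> · push_cast; ring
  have hp : ∀ x y : ℝ, (P {ω | S ω ∈ cn z₀ R x (x + 2 * Real.pi / 3)}).toReal =
      (P {ω | S ω ∈ cn z₀ R y (y + 2 * Real.pi / 3)}).toReal := fun x y => by
    rw [prob_cn h hR x y]
  have htr : ∀ θ c, tripleEv G (rt θ 3) c = tr z₀ R (rt θ 3 c) := by
    intro θ c
    unfold tripleEv tr
    rw [hev, hev, hev, rt_add θ 3 c 2, rt_add θ 3 c 4]
    have e1 : rt θ 3 c + ((2 : ℕ) : ℝ) * (Real.pi / ((3 : ℕ) : ℝ)) =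
        rt θ 3 c + 2 * Real.pi / 3 := by push_cast; ring
    have e2 : rt θ 3 c + ((4 : ℕ) : ℝ) * (Real.pi / ((3 : ℕ) : ℝ)) =
        rt θ 3 c + 4 * Real.pi / 3 := by push_cast; ring
    rw [e1, e2]
  set p := (P {ω | S ω ∈ cn z₀ R 0 (0 + 2 * Real.pi / 3)}).toReal with hpdef
  have hp' : ∀ x : ℝ, (P {ω | S ω ∈ cn z₀ R x (x + 2 * Real.pi / 3)}).toReal = p :=
    fun x => hp x 0
  set q := (P {ω | S ω ∈ tr z₀ R 0}).toReal with hqdef
  have hq : ∀ x : ℝ, (P {ω | S ω ∈ tr z₀ R x}).toReal = q := fun x => by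
    rw [prob_tr h hR x 0]
  have hsix := hS Ω P S lam hlam h G (rt 0 3) (marks 0)
  have hodd : arcEv G (rt 0 3) 1 3 ∩ arcEv G (rt 0 3) 3 5 ∩ arcEv G (rt 0 3) 5 1 =
    tripleEv G (rt 0 3) 1 := rfl
  have heven : arcEv G (rt 0 3) 0 2 ∩ arcEv G (rt 0 3) 2 4 ∩ arcEv G (rt 0 3) 4 0 =
    tripleEv G (rt 0 3) 0 := rfl
  rw [hodd, heven, htr, htr, hq, hq, h2 0 0, h2 0 2, h2' 0 0, h2 0 1, h2 0 3, h2' 0 1,
    hp', hp', hp', hp', hp', hp'] at hsix
  have h3p : 3 * p = 1 + q := by linarith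
  have hcube : p ^ 3 ≤ q := by
    have h4 := fkg_tr hF hA hlam h (z₀ := z₀) hR 0
    have h5 := ENNReal.toReal_mono (measure_ne_top P _) h4
    rw [ENNReal.toReal_mul, ENNReal.toReal_mul] at h5
    have e1 : cn z₀ R (0 + 2 * Real.pi / 3) (0 + 4 * Real.pi / 3) =
        cn z₀ R (0 + 2 * Real.pi / 3) (0 + 2 * Real.pi / 3 + 2 * Real.pi / 3) := by
      congr 1
      ring
    have e2 : cn z₀ R (0 + 4 * Real.pi / 3) 0 =
        cn z₀ R (0 + 4 * Real.pi / 3) (0 + 4 * Real.pi / 3 + 2 * Real.pi / 3) := by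
      rw [← cn_per]
      congr 1
      ring
    rw [e1, e2, hp', hp' (0 + 2 * Real.pi / 3), hp' (0 + 4 * Real.pi / 3)] at h5
    calc p ^ 3 = p * p * p := by ring
      _ ≤ q := h5
  have hp0 : 0 ≤ p := ENNReal.toReal_nonneg
  have hp1 : p ≤ 1 := by
    have := ENNReal.toReal_mono ENNReal.one_ne_top
      (prob_le_one (μ := P) (s := {ω | S ω ∈ cn z₀ R 0 (0 + 2 * Real.pi / 3)}))
    rwa [ENNReal.toReal_one] at this
  refine ⟨p, root_le hp0 hp1 (by linarith), fun θ => ⟨fun i => ?_, fun c => ?_, fun c => ?_⟩⟩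
  · rw [h2, hp']
  · rw [htr, hq]
    exact h3p
  · rw [htr, hq]
    exact hcube

end P148
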