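import Vale.Agent.P148.TEven
import Vale.Agent.P148.THex

/-!
# P148: the theorem on `2n` arcs, the hexagon
-/

open MeasureTheory Set Metric Topology Filter ProbabilityTheory
open scoped ENNReal NNReal

namespace P148

universe u

section prob

variable {Ω : Type u} [MeasurableSpace Ω] {P : Measure Ω} [IsProbabilityMeasure P]
  {S : Ω → Set Pt} {lam : ℝ≥0}

theorem even_hexagon (hH : HexagonStmt.{u}) (hlam : 0 < lam) (h : IsColouredPoisson P S lam)
    (J : Gon 3) (z₀ : ℂ) (R θ : ℝ) (hR : 0 < R)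
    (hG : ∀ z, J.H z = z₀ + R * z) (ht : ∀ i, J.t i = θ + i * (Real.pi / 3)) :
    ∃ p : ℝ, 2 * Real.cos (4 * Real.pi / 9) ≤ p ∧
      (∀ i, (P {ω | J.Cross i (i + 2) (blackRegion (S ω))}).toReal = p) ∧
      3 * p = 1 + (P {ω | J.Cross 0 2 (blackRegion (S ω)) ∧ J.Cross 2 4 (blackRegion (S ω)) ∧
        J.Cross 4 0 (blackRegion (S ω))}).toReal ∧
      p ^ 3 ≤ (P {ω | J.Cross 0 2 (blackRegion (S ω)) ∧ J.Cross 2 4 (blackRegion (S ω)) ∧
        J.Cross 4 0 (blackRegion (S ω))}).toReal := by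
  obtain ⟨p, hp, hall⟩ := hH Ω P S lam hlam h J.H z₀ R hR hG
  obtain ⟨h1, h2, h3⟩ := hall θ
  have ht' : J.t = rt θ 3 := by
    funext i
    rw [ht i]
    simp [rt]
  have e := fun i j => ae_cross hlam h J i j
  have e3 : {ω | J.Cross 0 2 (blackRegion (S ω)) ∧ J.Cross 2 4 (blackRegion (S ω)) ∧
      J.Cross 4 0 (blackRegion (S ω))} =ᵐ[P] {ω | S ω ∈ tripleEv J.H (rt θ 3) 0} := by
    filter_upwards [e 0 2, e 2 4, e 4 0] with ω h1 h2 h3
    have h1' : J.Cross 0 2 (blackRegion (S ω)) ↔ S ω ∈ arcEv J.H J.t 0 2 := Iff.of_eq h1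
    have h2' : J.Cross 2 4 (blackRegion (S ω)) ↔ S ω ∈ arcEv J.H J.t 2 4 := Iff.of_eq h2
    have h3' : J.Cross 4 0 (blackRegion (S ω)) ↔ S ω ∈ arcEv J.H J.t 4 0 := Iff.of_eq h3
    refine propext ?_
    change _ ∧ _ ∧ _ ↔ (_ ∧ _) ∧ _
    rw [h1', h2', h3', and_assoc, ht']
  refine ⟨p, hp, ?_, ?_, ?_⟩
  · intro i
    rw [measure_congr (e i (i + 2)), ht']
    exact h1 i
  · rw [measure_congr e3]
    exact h2 0
  · rw [measure_congr e3]
    exact h3 0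

end prob

end P148
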