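import Vale.Agent.P148.TEvenA
import Vale.Agent.P148.THex

/-!
# P148: regular hexagons, in terms of the black region
-/

open MeasureTheory Set Metric Topology Filter ProbabilityTheory
open scoped ENNReal NNReal

namespace P148

universe u

namespace TEvenX

/-- the disc as the image of the unit disc -/
noncomputable def dm (z₀ : ℂ) (R : ℝ) (hR : 0 < R) : ℂ ≃ₜ ℂ :=
  (Homeomorph.mulLeft₀ (R : ℂ) (by exact_mod_cast hR.ne')).trans (Homeomorph.addLeft z₀)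

theorem dm_apply (z₀ : ℂ) {R : ℝ} (hR : 0 < R) : IsDiscMap (dm z₀ R hR) z₀ R := fun _ => rfl

/-- the standard hexagon -/
noncomputable def hx (z₀ : ℂ) (R : ℝ) (hR : 0 < R) (θ : ℝ) : Gon 3 where
  H := dm z₀ R hR
  t := rt θ 3
  marks := THex.marks θ

theorem hx_arc (z₀ : ℂ) {R : ℝ} (hR : 0 < R) (θ : ℝ) (i : ℕ) :
    (hx z₀ R hR θ).arc i =
      cArc z₀ R (θ + i * (Real.pi / 3)) (θ + (i + 1) * (Real.pi / 3)) := by
  have h1 := THex.image_arc (dm_apply z₀ hR) (rt θ 3 i) (rt θ 3 (i + 1))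
  have e1 : rt θ 3 i = θ + i * (Real.pi / 3) := by
    unfold rt
    push_cast
    ring
  have e2 : rt θ 3 (i + 1) = θ + (i + 1) * (Real.pi / 3) := by
    unfold rt
    push_cast
    ring
  rw [e1, e2] at h1
  rw [← h1]
  unfold Gon.arc mArc
  change _ '' cArc 0 1 (rt θ 3 i) (rt θ 3 (i + 1)) = _
  rw [e1, e2]
  rfl

theorem hx_closure (z₀ : ℂ) {R : ℝ} (hR : 0 < R) (θ : ℝ) :
    closure (hx z₀ R hR θ).D = closedBall z₀ R := by
  rw [Gon.closure_D]
  exact THex.image_ball hR (dm_apply z₀ hR)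

theorem hx_arc6 (z₀ : ℂ) {R : ℝ} (hR : 0 < R) (θ : ℝ) (i : ℕ) :
    (hx z₀ R hR θ).arc (i + 6) = (hx z₀ R hR θ).arc i := by
  rw [hx_arc, hx_arc, ← DHex.cArc_period z₀ R (θ + i * (Real.pi / 3))]
  congr 1 <;> · push_cast; ring

end TEvenX

open TEvenX

/-- A disc with six marked points which form a regular hexagon. -/
def Gon.IsHexagon (J : Gon 3) (z₀ : ℂ) (R θ : ℝ) : Prop :=
  J.D = ball z₀ R ∧ ∀ i < 6, J.arc i =
    cArc z₀ R (θ + i * (Real.pi / 3)) (θ + (i + 1) * (Real.pi / 3))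

theorem Gon.IsHexagon.cross {J : Gon 3} {z₀ : ℂ} {R θ : ℝ} (h : J.IsHexagon z₀ R θ) (hR : 0 < R)
    {i j : ℕ} (hi : i < 6) (hj : j < 6) (A : Set ℂ) :
    J.Cross i j A ↔ (hx z₀ R hR θ).Cross i j A := by
  unfold Gon.Cross
  rw [h.2 i hi, h.2 j hj, hx_arc, hx_arc, hx_closure, h.1, closure_ball z₀ hR.ne']

section prob

variable {Ω : Type u} [MeasurableSpace Ω] {P : Measure Ω} [IsProbabilityMeasure P]
  {S : Ω → Set Pt} {lam : ℝ≥0}

/-- **Regular hexagons.** -/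
theorem even_hex (hH : HexagonStmt.{u}) (hlam : 0 < lam) (h : IsColouredPoisson P S lam)
    (z₀ : ℂ) {R : ℝ} (hR : 0 < R) :
    ∃ p : ℝ, 2 * Real.cos (4 * Real.pi / 9) ≤ p ∧ ∀ (θ : ℝ) (J : Gon 3), J.IsHexagon z₀ R θ →
      (∀ i < 6, (P {ω | J.Cross i ((i + 2) % 6) (blackRegion (S ω))}).toReal = p) ∧
      ∀ c < 2, 3 * p = 1 + (P {ω | J.Cross c (c + 2) (blackRegion (S ω)) ∧
          J.Cross (c + 2) (c + 4) (blackRegion (S ω)) ∧
          J.Cross (c + 4) c (blackRegion (S ω))}).toReal ∧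
        p ^ 3 ≤ (P {ω | J.Cross c (c + 2) (blackRegion (S ω)) ∧
          J.Cross (c + 2) (c + 4) (blackRegion (S ω)) ∧
          J.Cross (c + 4) c (blackRegion (S ω))}).toReal := by
  obtain ⟨p, hp, hall⟩ := hH Ω P S lam hlam h (dm z₀ R hR) z₀ R hR (dm_apply z₀ hR)
  refine ⟨p, hp, fun θ J hJ => ?_⟩
  obtain ⟨h1, h2, h3⟩ := hall θ
  have hx1 : ∀ i j : ℕ, {ω | (hx z₀ R hR θ).Cross i j (blackRegion (S ω))} =ᵐ[P]
      {ω | S ω ∈ arcEv (dm z₀ R hR) (rt θ 3) i j} := fun i j => ae_cross hlam h (hx z₀ R hR θ) i j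
  refine ⟨fun i hi => ?_, fun c hc => ?_⟩
  · have hm : (i + 2) % 6 < 6 := Nat.mod_lt _ (by norm_num)
    have e1 : {ω | J.Cross i ((i + 2) % 6) (blackRegion (S ω))} =
        {ω | (hx z₀ R hR θ).Cross i (i + 2) (blackRegion (S ω))} := by
      ext ω
      change J.Cross _ _ _ ↔ (hx z₀ R hR θ).Cross _ _ _
      rw [hJ.cross hR hi hm]
      have e2 : (hx z₀ R hR θ).arc ((i + 2) % 6) = (hx z₀ R hR θ).arc (i + 2) := by
        rcases lt_or_ge (i + 2) 6 with h6 | h6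
        · rw [Nat.mod_eq_of_lt h6]
        · obtain ⟨k, hk⟩ := Nat.exists_eq_add_of_le h6
          have e3 : (i + 2) % 6 = k := by omega
          rw [e3, hk, Nat.add_comm 6 k, hx_arc6]
      unfold Gon.Cross
      rw [e2]
    rw [e1, measure_congr (hx1 i (i + 2))]
    exact h1 i
  · have e1 : {ω | J.Cross c (c + 2) (blackRegion (S ω)) ∧
        J.Cross (c + 2) (c + 4) (blackRegion (S ω)) ∧ J.Cross (c + 4) c (blackRegion (S ω))} =ᵐ[P]
        {ω | S ω ∈ tripleEv (dm z₀ R hR) (rt θ 3) c} := by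
      filter_upwards [hx1 c (c + 2), hx1 (c + 2) (c + 4), hx1 (c + 4) c] with ω a1 a2 a3
      have b1 : (hx z₀ R hR θ).Cross c (c + 2) (blackRegion (S ω)) ↔
        S ω ∈ arcEv (dm z₀ R hR) (rt θ 3) c (c + 2) := Iff.of_eq a1
      have b2 : (hx z₀ R hR θ).Cross (c + 2) (c + 4) (blackRegion (S ω)) ↔
        S ω ∈ arcEv (dm z₀ R hR) (rt θ 3) (c + 2) (c + 4) := Iff.of_eq a2
      have b3 : (hx z₀ R hR θ).Cross (c + 4) c (blackRegion (S ω)) ↔
        S ω ∈ arcEv (dm z₀ R hR) (rt θ 3) (c + 4) c := Iff.of_eq a3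
      refine propext ?_
      change _ ∧ _ ∧ _ ↔ (_ ∧ _) ∧ _
      rw [hJ.cross hR (by omega) (by omega), hJ.cross hR (by omega) (by omega),
        hJ.cross hR (by omega) (by omega), b1, b2, b3, and_assoc]
    rw [measure_congr e1]
    exact ⟨h2 c, h3 c⟩

end prob

end P148
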