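import Vale.Agent.P148.Props3

/-!
# P148, row Y5b: the two colours do not both meet the three arcs
-/

open Set Metric Topology Filter
open scoped ENNReal NNReal

namespace P148

namespace TExcl

theorem mem_cArc {s t u : ℝ} (h : u ∈ Icc s t) : pt u ∈ cArc 0 1 s t :=
  ⟨u, h, by simp [pt]⟩

theorem of_mem_cArc {s t : ℝ} {z : ℂ} (h : z ∈ cArc 0 1 s t) : ∃ u ∈ Icc s t, z = pt u := by
  obtain ⟨u, hu, rfl⟩ := h
  exact ⟨u, hu, by simp [pt]⟩

theorem norm_pt (u : ℝ) : ‖pt u‖ = 1 := by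
  unfold pt
  rw [Complex.norm_exp_ofReal_mul_I]

theorem pt_mem_sphere (u : ℝ) : pt u ∈ sphere (0 : ℂ) 1 := by
  rw [mem_sphere_zero_iff_norm, norm_pt]

theorem pt_ne_zero (u : ℝ) : pt u ≠ 0 := by
  rw [← norm_ne_zero_iff, norm_pt]
  exact one_ne_zero

/-- Angles in an interval of length less than `2π` are determined by the point. -/
theorem pt_inj {u v : ℝ} (h : pt u = pt v) (h1 : u < v) (h2 : v < u + 2 * Real.pi) : False := by
  unfold pt at h
  obtain ⟨n, hn⟩ := Complex.exp_eq_exp_iff_exists_int.1 h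
  have hI : (Complex.I : ℂ) ≠ 0 := Complex.I_ne_zero
  have h3 : (u : ℂ) = v + n * (2 * Real.pi) := by
    apply mul_right_cancel₀ hI
    rw [hn]
    ring
  have h4 : u = v + n * (2 * Real.pi) := by exact_mod_cast h3
  have hpi := Real.pi_pos
  have h5 : (n : ℝ) < 0 := by
    by_contra hc
    push Not at hc
    have : 0 ≤ (n : ℝ) * (2 * Real.pi) := by positivity
    linarith
  have h6 : (-1 : ℝ) < n := by
    by_contra hc
    push Not at hc
    nlinarith
  have h7 : n < 0 := by exact_mod_cast h5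
  have h8 : (-1 : ℤ) < n := by exact_mod_cast h6
  omega

/-- Points of the circle near `pt u` have angles near `u`. -/
theorem near_angle (u : ℝ) {ε : ℝ} (hε : 0 < ε) : ∃ δ > 0, ∀ e ∈ sphere (0 : ℂ) 1,
    dist e (pt u) < δ → ∃ u', |u' - u| < ε ∧ e = pt u' := by
  have hc : ContinuousAt Complex.arg 1 := by
    apply Complex.continuousAt_arg
    rw [Complex.mem_slitPlane_iff]
    left
    norm_num
  rw [Metric.continuousAt_iff] at hc
  obtain ⟨δ, hδ, hd⟩ := hc ε hε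
  refine ⟨δ, hδ, fun e he hed => ?_⟩
  have he1 : ‖e‖ = 1 := mem_sphere_zero_iff_norm.1 he
  have h1 : dist (e / pt u) 1 < δ := by
    have : dist (e / pt u) 1 = dist e (pt u) := by
      rw [dist_eq_norm, dist_eq_norm]
      have h2 : e / pt u - 1 = (e - pt u) / pt u := by
        field_simp [pt_ne_zero u]
      rw [h2, norm_div, norm_pt, div_one]
    rw [this]
    exact hed
  have h3 := hd h1
  rw [Complex.arg_one, Real.dist_eq, sub_zero] at h3
  refine ⟨u + Complex.arg (e / pt u), by rwa [add_sub_cancel_left], ?_⟩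
  have h4 : pt (u + Complex.arg (e / pt u)) =
      pt u * Complex.exp (Complex.arg (e / pt u) * Complex.I) := by
    unfold pt
    rw [← Complex.exp_add]
    congr 1
    push_cast
    ring
  have h5 : ‖e / pt u‖ = 1 := by rw [norm_div, norm_pt, he1, div_one]
  have h6 := Complex.norm_mul_exp_arg_mul_I (e / pt u)
  rw [h5, Complex.ofReal_one, one_mul] at h6
  rw [h4, h6, mul_div_cancel₀ _ (pt_ne_zero u)]

end TExcl

open TExcl

/-- **Y5b**: the two colours do not both meet the three arcs. -/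
theorem excl (hE : ExtStmt) : ExclStmt := by
  intro g τ₀ τ₁ τ₂ h01 h12 h20 hg hT hC g0 g1 g2 H
  rintro ⟨⟨K, hKF, hK, hKA, hKB, hKC⟩, ⟨L, hLF, hL, hLA, hLB, hLC⟩⟩
  -- contacts coincide
  have claim : ∀ K' ⊆ Fb g, IsConnected K' → (K' ∩ cArc 0 1 τ₁ τ₂).Nonempty →
      (K' ∩ cArc 0 1 τ₂ (τ₀ + 2 * Real.pi)).Nonempty → ∀ u v : ℝ, u ∈ Icc τ₀ τ₁ →
      v ∈ Icc τ₀ τ₁ → pt u ∈ K' → pt v ∈ L → u = v := by
    intro K' hF hK' hB hC' u v hu hv hpu hpv
    by_contra huv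
    rcases lt_or_gt_of_ne huv with h | h
    · obtain ⟨q, hq1, hq2⟩ := exists_rat_btwn h
      exact (H q (hu.1.trans_lt hq1) (hq2.trans_le hv.2)).1
        ⟨⟨K', hF, hK', ⟨pt u, hpu, mem_cArc ⟨hu.1, hq1.le⟩⟩, hB⟩,
          ⟨L, hLF, hL, ⟨pt v, hpv, mem_cArc ⟨hq2.le, hv.2⟩⟩, hLC⟩⟩
    · obtain ⟨q, hq1, hq2⟩ := exists_rat_btwn h
      exact (H q (hv.1.trans_lt hq1) (hq2.trans_le hu.2)).2
        ⟨⟨K', hF, hK', ⟨pt u, hpu, mem_cArc ⟨hq2.le, hu.2⟩⟩, hC'⟩,
          ⟨L, hLF, hL, ⟨pt v, hpv, mem_cArc ⟨hv.1, hq1.le⟩⟩, hLB⟩⟩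
  obtain ⟨a, haK, haA⟩ := hKA
  obtain ⟨w, hwL, hwA⟩ := hLA
  obtain ⟨u, hu, rfl⟩ := of_mem_cArc haA
  obtain ⟨v, hv, rfl⟩ := of_mem_cArc hwA
  have huv := claim K hKF hK hKB hKC u v hu hv haK hwL
  subst huv
  have hgu : g (pt u) = 0 := le_antisymm (hKF haK).1 (hLF hwL).1
  have hu0 : τ₀ < u := lt_of_le_of_ne hu.1 fun h => g0 (by rw [h]; exact hgu)
  have hu1 : u < τ₁ := lt_of_le_of_ne hu.2 fun h => g1 (by rw [← h]; exact hgu)
  -- another point of `K`
  obtain ⟨k, hkK, hkB⟩ := id hKB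
  have hk : k ≠ pt u := by
    rintro rfl
    obtain ⟨v, hv, hvu⟩ := of_mem_cArc hkB
    exact pt_inj hvu (by linarith [hv.1]) (by linarith [hv.2])
  obtain ⟨δ, hδ, hd⟩ := near_angle u (ε := min (u - τ₀) (τ₁ - u))
    (lt_min (by linarith) (by linarith))
  obtain ⟨K', hF', hKK', hK', e, heK', hes, hed, hep⟩ :=
    hE g hg hT hC K hKF hK (pt u) haK (pt_mem_sphere u) hgu ⟨k, hkK, hk⟩ δ hδ
  obtain ⟨u', hu', rfl⟩ := hd e hes hed
  have h1 := (abs_lt.1 (hu'.trans_le (min_le_left _ _))).1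
  have h2 := (abs_lt.1 (hu'.trans_le (min_le_right _ _))).2
  have hmono : ∀ {A : Set ℂ}, (K ∩ A).Nonempty → (K' ∩ A).Nonempty := fun h =>
    h.mono (inter_subset_inter_left _ hKK')
  have := claim K' hF' hK' (hmono hKB) (hmono hKC) u' u ⟨by linarith, by linarith⟩ hu heK' hwL
  exact hep (by rw [this])

end P148
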