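import Vale.Agent.P148.Props3

/-!
# P148, row Y5a: a second contact with the circle
-/

open Set Metric Topology unitInterval

namespace P148

/-- First exit from the open unit disc. -/
theorem first_exit {U : Set ℂ} {y q : ℂ} (hy : ‖y‖ < 1) (hq : 1 ≤ ‖q‖) (h : JoinedIn U y q) :
    ∃ A ⊆ U ∩ closedBall (0 : ℂ) 1, IsConnected A ∧ y ∈ A ∧ ∃ e ∈ A, e ∈ sphere (0 : ℂ) 1 := by
  obtain ⟨γ, hγ⟩ := h
  set T : Set I := {t | 1 ≤ ‖γ t‖} with hT
  have hTc : IsClosed T := isClosed_le continuous_const (γ.continuous.norm)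
  have hTn : T.Nonempty := ⟨1, by simp only [hT, mem_ofPred_eq, γ.target]; exact hq⟩
  obtain ⟨t, htT, htmin⟩ := hTc.isCompact.exists_isLeast hTn
  have hlt : ∀ s : I, s < t → ‖γ s‖ < 1 := by
    intro s hs
    by_contra hn
    exact absurd (htmin (show s ∈ T from not_lt.1 hn)) (not_le.2 hs)
  have h0t : (0 : I) < t := by
    rcases eq_or_lt_of_le (show (0 : I) ≤ t from t.2.1) with h | h
    · exfalso
      have h1 : 1 ≤ ‖γ t‖ := htT
      rw [← h, γ.source] at h1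
      linarith
    · exact h
  have hle : ‖γ t‖ ≤ 1 := by
    have hcl : t ∈ closure (Iio t) := by
      rw [closure_Iio' (a := t) ⟨0, h0t⟩]
      exact mem_Iic.2 le_rfl
    have hclosed : IsClosed {s : I | ‖γ s‖ ≤ 1} := isClosed_le γ.continuous.norm continuous_const
    exact closure_minimal (fun s hs => (hlt s hs).le) hclosed hcl
  refine ⟨γ '' Iic t, ?_, ?_, ⟨0, h0t.le, γ.source⟩, γ t, mem_image_of_mem _ (mem_Iic.2 le_rfl), ?_⟩
  · rintro _ ⟨s, hs, rfl⟩
    refine ⟨hγ s, ?_⟩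
    rw [mem_closedBall_zero_iff]
    rcases eq_or_lt_of_le (show s ≤ t from hs) with h | h
    · rw [h]; exact hle
    · exact (hlt s h).le
  · refine IsConnected.image ⟨⟨t, mem_Iic.2 le_rfl⟩, ?_⟩ _ γ.continuous.continuousOn
    exact ordConnected_Iic.isPreconnected
  · rw [mem_sphere_zero_iff_norm]
    exact le_antisymm hle htT

/-- Near every point of `closure {g < 0}` inside the open disc. -/
theorem touch {g : ℂ → ℝ} (hT : Tame g) {k : ℂ} (hk : g k = 0) {V : Set ℂ} (hV : IsOpen V)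
    (hkV : k ∈ V) : ∃ A ⊆ V ∩ {z | g z ≤ 0}, IsConnected A ∧ k ∈ A ∧ ∃ y ∈ A, g y < 0 := by
  obtain ⟨δ, hδ, hδV⟩ := Metric.isOpen_iff.1 hV k hkV
  obtain ⟨N, hN, hkN, hNb, hNc, -, hcl, -⟩ := hT k hk δ hδ
  have hkcl : k ∈ closure (N ∩ {z | g z < 0}) := by
    rw [_root_.mem_closure_iff]
    intro o ho hko
    obtain ⟨y, ⟨hy1, hy2⟩, hy3⟩ := _root_.mem_closure_iff.1 hcl (o ∩ N) (ho.inter hN) ⟨hko, hkN⟩
    exact ⟨y, hy1, hy2, hy3⟩
  obtain ⟨y, -, hy⟩ := _root_.mem_closure_iff.1 hkcl univ isOpen_univ (mem_univ _)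
  refine ⟨insert k (N ∩ {z | g z < 0}), ?_, ⟨⟨k, mem_insert _ _⟩, ?_⟩, mem_insert _ _, y,
    mem_insert_of_mem _ hy, hy.2⟩
  · intro z hz
    rcases hz with rfl | hz
    · exact ⟨hkV, hk.le⟩
    · exact ⟨hδV (hNb hz.1), show g z ≤ 0 from (show g z < 0 from hz.2).le⟩
  · exact hNc.subset_closure (subset_insert _ _) (insert_subset hkcl subset_closure)

/-- **A second contact with the circle.** -/
theorem ext : ExtStmt := by
  intro g hg hT hB K hKs hK p hpK hps hp0 ⟨k₀, hk0, hk0p⟩ δ hδ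
  obtain ⟨N, hN, hpN, hNb, hNc, -, -, -⟩ := hT p hp0 δ hδ
  -- another point of `K` in `N`
  obtain ⟨k, hkK, hkN, hkp⟩ : ∃ k ∈ K, k ∈ N ∧ k ≠ p := by
    by_contra hno
    push Not at hno
    have h1 := isPreconnected_iff_subset_of_disjoint.1 hK.2 N {p}ᶜ hN isOpen_compl_singleton
      (fun z hz => by
        by_cases h : z = p
        · rw [h]; exact Or.inl hpN
        · exact Or.inr h)
      (by
        rw [← subset_empty_iff]
        rintro z ⟨hz, hzN, hzp⟩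
        exact hzp (hno z hz hzN))
    rcases h1 with h1 | h1
    · exact hk0p (hno k₀ hk0 (h1 hk0))
    · exact h1 hpK rfl
  have hkd : dist k p < δ := hNb hkN
  have hkn : ‖k‖ ≤ 1 := by
    have := (hKs hkK).2
    rwa [mem_closedBall_zero_iff] at this
  rcases eq_or_lt_of_le hkn with hk1 | hk1
  · exact ⟨K, hKs, Subset.rfl, hK, k, hkK, by rwa [mem_sphere_zero_iff_norm], hkd, hkp⟩
  -- a small connected set at `k` which reaches `{g < 0}`
  obtain ⟨A, hA, hAc, hkA, y, hyA, hy⟩ : ∃ A ⊆ (N ∩ ball (0 : ℂ) 1) ∩ {z | g z ≤ 0},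
      IsConnected A ∧ k ∈ A ∧ ∃ y ∈ A, g y < 0 := by
    have hkg : g k ≤ 0 := (hKs hkK).1
    have hkb : k ∈ N ∩ ball (0 : ℂ) 1 := ⟨hkN, by rwa [mem_ball_zero_iff]⟩
    rcases eq_or_lt_of_le hkg with h | h
    · exact touch hT h (hN.inter isOpen_ball) hkb
    · exact ⟨{k}, by rw [singleton_subset_iff]; exact ⟨hkb, h.le⟩, isConnected_singleton,
        mem_singleton _, k, mem_singleton _, h⟩
  -- a circle point
  obtain ⟨η, hη, hηN⟩ := Metric.isOpen_iff.1 hN p hpN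
  obtain ⟨⟨q, hqs, hqd, hq⟩, -⟩ := hB p hps hp0 η hη
  have hqN : q ∈ N := hηN hqd
  have hyN : y ∈ N := (hA hyA).1.1
  have hyn : ‖y‖ < 1 := by
    have := (hA hyA).1.2
    rwa [mem_ball_zero_iff] at this
  have hUo : IsOpen (N ∩ {z | g z < 0}) := hN.inter (isOpen_lt hg continuous_const)
  have hUc : IsConnected (N ∩ {z | g z < 0}) := ⟨⟨y, hyN, hy⟩, hNc⟩
  have hj := (hUo.isConnected_iff_isPathConnected.1 hUc).joinedIn y ⟨hyN, hy⟩ q ⟨hqN, hq⟩
  obtain ⟨B, hB1, hBc, hyB, e, heB, hes⟩ := first_exit hyn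
    (by rw [mem_sphere_zero_iff_norm] at hqs; exact hqs.ge) hj
  have heN := (hB1 heB).1
  refine ⟨K ∪ (A ∪ B), ?_, subset_union_left, ?_, e, Or.inr (Or.inr heB), hes, hNb heN.1, ?_⟩
  · refine union_subset hKs (union_subset ?_ ?_)
    · intro z hz
      have := hA hz
      exact ⟨this.2, ball_subset_closedBall this.1.2⟩
    · intro z hz
      have := hB1 hz
      exact ⟨show g z ≤ 0 from (show g z < 0 from this.1.2).le, this.2⟩
  · refine IsConnected.union ⟨k, hkK, Or.inl hkA⟩ hK ?_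
    exact IsConnected.union ⟨y, hyA, hyB⟩ hAc hBc
  · rintro rfl
    have := heN.2
    simp only [mem_ofPred_eq] at this
    linarith

end P148
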