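import Vale.Agent.P148.TWatts

/-!
# P148: the three arc theorem for Jordan domains and Jordan quads
-/

open MeasureTheory Set Metric Topology Filter ProbabilityTheory
open scoped ENNReal NNReal

namespace P148

universe u

/-- The arcs of the disc model. -/
noncomputable def mArc (i : Fin 4) : Set ℂ :=
  match i with
  | 0 => cArc 0 1 (-(3 * Real.pi / 4)) (-(Real.pi / 4))
  | 1 => cArc 0 1 (-(Real.pi / 4)) (Real.pi / 4)
  | 2 => cArc 0 1 (Real.pi / 4) (3 * Real.pi / 4)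
  | 3 => cArc 0 1 (3 * Real.pi / 4) (5 * Real.pi / 4)

theorem arc_eq (Q : Quad) (i : Fin 4) : Q.arc i = Q.G '' mArc i := by
  obtain ⟨-, h0, h1, h2, h3⟩ := model Q
  fin_cases i
  · exact h0
  · exact h1
  · exact h2
  · exact h3

theorem touch_iff (Q : Quad) (R : Set ℂ) (l : List (Set ℂ)) :
    Q.Touch (l.map (fun A => Q.G '' A)) R ↔
      ∃ K ⊆ (Q.G ⁻¹' R) ∩ closedBall 0 1, IsConnected K ∧ ∀ A ∈ l, (K ∩ A).Nonempty := by
  unfold Quad.Touch
  rw [← (model Q).1]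
  constructor
  · rintro ⟨K, hK, hc, ha⟩
    refine ⟨Q.G ⁻¹' K, ?_, ?_, ?_⟩
    · intro z hz
      have := hK hz
      refine ⟨this.1, ?_⟩
      obtain ⟨y, hy, hyz⟩ := this.2
      rwa [← Q.G.injective hyz]
    · have : Q.G ⁻¹' K = Q.G.symm '' K := by rw [Homeomorph.image_symm]
      rw [this]
      exact hc.image _ Q.G.symm.continuous.continuousOn
    · intro A hA
      obtain ⟨z, hz1, ⟨y, hy, rfl⟩⟩ := ha (Q.G '' A) (List.mem_map.2 ⟨A, hA, rfl⟩)
      exact ⟨y, hz1, hy⟩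
  · rintro ⟨K, hK, hc, ha⟩
    refine ⟨Q.G '' K, ?_, hc.image _ Q.G.continuous.continuousOn, ?_⟩
    · rintro z ⟨y, hy, rfl⟩
      exact ⟨(hK hy).1, mem_image_of_mem _ (hK hy).2⟩
    · intro B hB
      obtain ⟨A, hA, rfl⟩ := List.mem_map.1 hB
      obtain ⟨y, hy1, hy2⟩ := ha A hA
      exact ⟨Q.G y, mem_image_of_mem _ hy1, mem_image_of_mem _ hy2⟩

theorem touch3 (Q : Quad) (T : Set Pt) (A B C : Set ℂ) :
    Q.Touch [Q.G '' A, Q.G '' B, Q.G '' C] {z | gap T z ≤ 0} ↔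
      Conn3 (Fb (gap T ∘ Q.G)) A B C := by
  have := touch_iff Q {z | gap T z ≤ 0} [A, B, C]
  simp only [List.map_cons, List.map_nil] at this
  rw [this]
  unfold Conn3
  simp only [List.mem_cons, List.not_mem_nil, or_false, forall_eq_or_imp, forall_eq]
  exact Iff.rfl

theorem touch4 (Q : Quad) (T : Set Pt) (A B C E : Set ℂ) :
    Q.Touch [Q.G '' A, Q.G '' B, Q.G '' C, Q.G '' E] {z | gap T z ≤ 0} ↔
      ∃ K ⊆ Fb (gap T ∘ Q.G), IsConnected K ∧ (K ∩ A).Nonempty ∧ (K ∩ B).Nonempty ∧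
        (K ∩ C).Nonempty ∧ (K ∩ E).Nonempty := by
  have := touch_iff Q {z | gap T z ≤ 0} [A, B, C, E]
  simp only [List.map_cons, List.map_nil] at this
  rw [this]
  simp only [List.mem_cons, List.not_mem_nil, or_false, forall_eq_or_imp, forall_eq]
  exact Iff.rfl

theorem cross2 (Q : Quad) (T : Set Pt) (i j : Fin 4) :
    Q.Cross i j {z | gap T z ≤ 0} ↔ Conn (Fb (gap T ∘ Q.G)) (mArc i) (mArc j) := by
  have := touch_iff Q {z | gap T z ≤ 0} [mArc i, mArc j]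
  simp only [List.map_cons, List.map_nil, ← arc_eq] at this
  unfold Conn
  unfold Quad.Touch at this
  simp only [List.mem_cons, List.not_mem_nil, or_false, forall_eq_or_imp, forall_eq] at this
  exact this

/-- Permutations of the arcs. -/
theorem Conn3.rot {F A B C : Set ℂ} : Conn3 F A B C ↔ Conn3 F B C A := by
  constructor
  · rintro ⟨K, h1, h2, h3, h4, h5⟩
    exact ⟨K, h1, h2, h4, h5, h3⟩
  · rintro ⟨K, h1, h2, h3, h4, h5⟩
    exact ⟨K, h1, h2, h5, h3, h4⟩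

/-- The events of the disc model. -/
def PE (G : ℂ ≃ₜ ℂ) (i j k : Fin 4) : Set (Set Pt) :=
  {T | Conn3 (Fb (gap T ∘ G)) (mArc i) (mArc j) (mArc k)}

/-- The crossing events of the disc model. -/
def CE (G : ℂ ≃ₜ ℂ) (i j : Fin 4) : Set (Set Pt) :=
  {T | Conn (Fb (gap T ∘ G)) (mArc i) (mArc j)}

theorem PE_rot (G : ℂ ≃ₜ ℂ) (i j k : Fin 4) : PE G i j k = PE G j k i := by
  ext T
  exact Conn3.rot

theorem CE_comm (G : ℂ ≃ₜ ℂ) (i j : Fin 4) : CE G i j = CE G j i := by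
  ext T
  exact ⟨Conn.comm, Conn.comm⟩

theorem top_eq : (5 * Real.pi / 4 : ℝ) = -(3 * Real.pi / 4) + 2 * Real.pi := by ring

theorem mArc3 : mArc 3 = cArc 0 1 (3 * Real.pi / 4) (-(3 * Real.pi / 4) + 2 * Real.pi) := by
  rw [← top_eq]; rfl

theorem mArc0' : mArc 0 = cArc 0 1 (-(3 * Real.pi / 4) + 2 * Real.pi)
    (-(Real.pi / 4) + 2 * Real.pi) := by
  rw [cArc_add_two_pi]; rfl

theorem mArc1' : mArc 1 = cArc 0 1 (-(Real.pi / 4) + 2 * Real.pi)
    (Real.pi / 4 + 2 * Real.pi) := by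
  rw [cArc_add_two_pi]; rfl

/-- The three marked points are the first three corners. -/
theorem tri0 (Q : Quad) (T : Set Pt) :
    Q.Touch [Q.arc 0, Q.arc 1, Q.arc 2 ∪ Q.arc 3] {z | gap T z ≤ 0} ↔
      T ∈ triEv Q.G (-(3 * Real.pi / 4)) (-(Real.pi / 4)) (Real.pi / 4) := by
  have hpi := Real.pi_pos
  have h1 : Q.arc 2 ∪ Q.arc 3 =
      Q.G '' cArc 0 1 (Real.pi / 4) (-(3 * Real.pi / 4) + 2 * Real.pi) := by
    rw [arc_eq, arc_eq, ← image_union, mArc3]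
    congr 1
    refine (union_subset (cArc_mono le_rfl (by linarith)) (cArc_mono (by linarith) le_rfl)).antisymm
      (cArc_union 0 1 _ _ _)
  rw [h1, arc_eq, arc_eq, touch3]
  exact Iff.rfl

section prob

variable {Ω : Type u} [MeasurableSpace Ω] {P : Measure Ω} [IsProbabilityMeasure P]
  {S : Ω → Set Pt} {lam : ℝ≥0}

/-- The measurability and the identities for the events of the disc model. -/
theorem model_all (hT : TriStmt.{u}) (hM : MeetStmt) (hlam : 0 < lam)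
    (h : IsColouredPoisson P S lam) (G : ℂ ≃ₜ ℂ) :
    (MeasurableSet {ω | S ω ∈ PE G 0 1 2} ∧ MeasurableSet {ω | S ω ∈ PE G 1 2 3} ∧
      MeasurableSet {ω | S ω ∈ PE G 2 3 0} ∧ MeasurableSet {ω | S ω ∈ PE G 3 0 1}) ∧
    (P {ω | S ω ∈ PE G 0 1 2} = P {ω | S ω ∈ PE G 2 3 0} ∧
      P {ω | S ω ∈ PE G 1 2 3} = P {ω | S ω ∈ PE G 3 0 1} ∧
      P {ω | S ω ∈ PE G 0 1 2} + P {ω | S ω ∈ PE G 1 2 3} =
        1 / 2 + P {ω | S ω ∈ CE G 0 2 ∩ CE G 1 3}) ∧
    ∀ᵐ ω ∂P,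
      (P[{ω | S ω ∈ PE G 0 1 2}.indicator (fun _ => (1 : ℝ)) | posSigma S]) ω =
        (P[{ω | S ω ∈ PE G 2 3 0}.indicator (fun _ => (1 : ℝ)) | posSigma S]) ω ∧
      (P[{ω | S ω ∈ PE G 1 2 3}.indicator (fun _ => (1 : ℝ)) | posSigma S]) ω =
        (P[{ω | S ω ∈ PE G 3 0 1}.indicator (fun _ => (1 : ℝ)) | posSigma S]) ω ∧
      (P[{ω | S ω ∈ PE G 0 1 2}.indicator (fun _ => (1 : ℝ)) | posSigma S]) ω +
        (P[{ω | S ω ∈ PE G 1 2 3}.indicator (fun _ => (1 : ℝ)) | posSigma S]) ω =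
        1 / 2 + (P[{ω | S ω ∈ CE G 0 2 ∩ CE G 1 3}.indicator (fun _ => (1 : ℝ)) |
          posSigma S]) ω := by
  have hpi := Real.pi_pos
  -- the events
  have p012 : podEv G (-(3 * Real.pi / 4)) (-(Real.pi / 4)) (-(Real.pi / 4)) (Real.pi / 4)
      (Real.pi / 4) (3 * Real.pi / 4) = PE G 0 1 2 := rfl
  have p013 : podEv G (-(3 * Real.pi / 4)) (-(Real.pi / 4)) (-(Real.pi / 4)) (Real.pi / 4)
      (3 * Real.pi / 4) (-(3 * Real.pi / 4) + 2 * Real.pi) = PE G 3 0 1 := by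
    rw [PE_rot]; unfold PE podEv; rw [mArc3]; rfl
  have p123 : podEv G (-(Real.pi / 4)) (Real.pi / 4) (Real.pi / 4) (3 * Real.pi / 4)
      (3 * Real.pi / 4) (-(3 * Real.pi / 4) + 2 * Real.pi) = PE G 1 2 3 := by
    unfold PE podEv; rw [mArc3]; rfl
  have p120 : podEv G (-(Real.pi / 4)) (Real.pi / 4) (Real.pi / 4) (3 * Real.pi / 4)
      (-(3 * Real.pi / 4) + 2 * Real.pi) (-(Real.pi / 4) + 2 * Real.pi) = PE G 0 1 2 := by
    rw [PE_rot]; unfold PE podEv; rw [mArc0']; rfl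
  have p230 : podEv G (Real.pi / 4) (3 * Real.pi / 4) (3 * Real.pi / 4)
      (-(3 * Real.pi / 4) + 2 * Real.pi) (-(3 * Real.pi / 4) + 2 * Real.pi)
      (-(Real.pi / 4) + 2 * Real.pi) = PE G 2 3 0 := by
    unfold PE podEv; rw [mArc0', mArc3]; rfl
  have p231 : podEv G (Real.pi / 4) (3 * Real.pi / 4) (3 * Real.pi / 4)
      (-(3 * Real.pi / 4) + 2 * Real.pi) (-(Real.pi / 4) + 2 * Real.pi)
      (Real.pi / 4 + 2 * Real.pi) = PE G 1 2 3 := by
    rw [PE_rot]; unfold PE podEv; rw [mArc1', mArc3]; rfl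
  have c02 : crEv G (-(3 * Real.pi / 4)) (-(Real.pi / 4)) (Real.pi / 4) (3 * Real.pi / 4) =
      CE G 0 2 := rfl
  have c13 : crEv G (-(Real.pi / 4)) (Real.pi / 4) (3 * Real.pi / 4)
      (-(3 * Real.pi / 4) + 2 * Real.pi) = CE G 1 3 := by
    unfold CE crEv; rw [mArc3]; rfl
  have c20 : crEv G (Real.pi / 4) (3 * Real.pi / 4) (-(3 * Real.pi / 4) + 2 * Real.pi)
      (-(Real.pi / 4) + 2 * Real.pi) = CE G 0 2 := by
    rw [CE_comm]; unfold CE crEv; rw [mArc0']; rfl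
  have c31 : crEv G (3 * Real.pi / 4) (-(3 * Real.pi / 4) + 2 * Real.pi)
      (-(Real.pi / 4) + 2 * Real.pi) (Real.pi / 4 + 2 * Real.pi) = CE G 1 3 := by
    rw [CE_comm]; unfold CE crEv; rw [mArc1', mArc3]
  -- the inequalities between the angles
  have i1 : -(3 * Real.pi / 4) < -(Real.pi / 4) := by linarith
  have i2 : -(Real.pi / 4) < Real.pi / 4 := by linarith
  have i3 : Real.pi / 4 < 3 * Real.pi / 4 := by linarith
  have i4 : 3 * Real.pi / 4 < -(3 * Real.pi / 4) + 2 * Real.pi := by linarith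
  have i5 : -(3 * Real.pi / 4) + 2 * Real.pi < -(Real.pi / 4) + 2 * Real.pi := by linarith
  have i6 : -(Real.pi / 4) + 2 * Real.pi < Real.pi / 4 + 2 * Real.pi := by linarith
  have m1 := measurable_pod (P := P) (S := S) hT hM hlam h G i1 i2 i3 i4
  have m2 := measurable_pod (P := P) (S := S) hT hM hlam h G i2 i3 i4 i5
  have m3 := measurable_pod (P := P) (S := S) hT hM hlam h G i3 i4 i5 i6
  have w1 := watts (P := P) (S := S) hT hM hlam h G i1 i2 i3 i4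
  have w2 := watts (P := P) (S := S) hT hM hlam h G i2 i3 i4 i5
  have w3 := watts (P := P) (S := S) hT hM hlam h G i3 i4 i5 i6
  have q1 := watts_quenched (P := P) (S := S) hT hM hlam h G i1 i2 i3 i4
  have q2 := watts_quenched (P := P) (S := S) hT hM hlam h G i2 i3 i4 i5
  have q3 := watts_quenched (P := P) (S := S) hT hM hlam h G i3 i4 i5 i6
  rw [p012, p013] at m1
  rw [p123, p120] at m2
  rw [p230, p231] at m3
  rw [p012, p013, c02, c13] at w1 q1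
  rw [p123, p120, c13, c20, inter_comm] at w2
  rw [p123, p120, c13, c20, inter_comm (CE G 1 3)] at q2
  rw [p230, p231, c20, c31] at w3 q3
  have f0 : P {ω | S ω ∈ PE G 0 1 2} ≠ ⊤ := measure_ne_top _ _
  have f1 : P {ω | S ω ∈ PE G 1 2 3} ≠ ⊤ := measure_ne_top _ _
  refine ⟨⟨m1.1, m2.1, m3.1, m1.2⟩, ⟨?_, ?_, ?_⟩, ?_⟩
  · have := w2.trans w3.symm
    rw [add_comm] at this
    exact (ENNReal.add_left_inj f1).1 this
  · have := w2.trans w1.symm
    rw [add_comm (P {ω | S ω ∈ PE G 0 1 2})] at this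
    exact (ENNReal.add_left_inj f0).1 this
  · rw [add_comm]; exact w2
  · filter_upwards [q1, q2, q3] with ω a1 a2 a3
    refine ⟨?_, ?_, ?_⟩ <;> linarith

end prob

end P148
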