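import Vale.Agent.P148.TModel

/-!
# P148, row Y6: generic conditions in the disc model
-/

open MeasureTheory Set Metric Topology Filter ProbabilityTheory
open scoped ENNReal NNReal

namespace P148

universe u

/-- Every point of the unit circle is the image of a boundary point of the square. -/
theorem exists_side_of_sphere {p : ℂ} (hp : p ∈ sphere (0 : ℂ) 1) :
    ∃ i : Fin 4, ∃ z ∈ side i, radial z = p := by
  have hn : ‖p‖ = 1 := by rwa [mem_sphere_zero_iff_norm] at hp
  have hz : radial.symm p ∈ sq := by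
    have h1 : p ∈ radial '' sq := by
      rw [radial_sq, mem_closedBall_zero_iff, hn]
    obtain ⟨z, hz, hzp⟩ := h1
    rw [← hzp, radial.symm_apply_apply]
    exact hz
  have hz' : ¬ (|(radial.symm p).re| < 1 ∧ |(radial.symm p).im| < 1) := by
    intro hlt
    have h1 : radial (radial.symm p) ∈ radial '' {z : ℂ | |z.re| < 1 ∧ |z.im| < 1} :=
      mem_image_of_mem _ hlt
    rw [radial_open, radial.apply_symm_apply, mem_ball_zero_iff, hn] at h1
    exact lt_irrefl _ h1
  set z := radial.symm p with hzdef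
  have hzp : radial z = p := radial.apply_symm_apply p
  obtain ⟨h1, h2⟩ := hz
  by_cases h3 : |z.re| < 1
  · have h4 : |z.im| = 1 := le_antisymm h2 (not_lt.1 fun h => hz' ⟨h3, h⟩)
    rcases (abs_eq zero_le_one).1 h4 with h5 | h5
    · exact ⟨2, z, ⟨h1, h5⟩, hzp⟩
    · exact ⟨0, z, ⟨h1, h5⟩, hzp⟩
  · have h4 : |z.re| = 1 := le_antisymm h1 (not_lt.1 h3)
    rcases (abs_eq zero_le_one).1 h4 with h5 | h5
    · exact ⟨1, z, ⟨h5, h2⟩, hzp⟩
    · exact ⟨3, z, ⟨h5, h2⟩, hzp⟩

theorem radial_mem_sphere {i : Fin 4} {z : ℂ} (hz : z ∈ side i) : radial z ∈ sphere (0 : ℂ) 1 := by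
  have h0 : z ≠ 0 := by
    rintro rfl
    fin_cases i <;> simp [side] at hz
  rw [radial_side i hz, mem_sphere_zero_iff_norm, norm_div, Complex.norm_real, norm_norm,
    div_self (norm_ne_zero_iff.2 h0)]

theorem circleBd_of_tameBd {g : ℂ → ℝ} (h : TameBd (g ∘ radial)) : CircleBd g := by
  intro p hp h0 δ hδ
  obtain ⟨i, z, hz, rfl⟩ := exists_side_of_sphere hp
  have hev : ∀ᶠ y in 𝓝 z, dist (radial y) (radial z) < δ :=
    (radial.continuous.continuousAt (x := z)) (ball_mem_nhds _ hδ)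
  obtain ⟨r, hr, hball⟩ := Metric.eventually_nhds_iff.1 hev
  obtain ⟨⟨q, hq, hq1, hq2⟩, ⟨q', hq', hq1', hq2'⟩⟩ := h i z hz h0 r hr
  exact ⟨⟨radial q, radial_mem_sphere hq, hball hq1, hq2⟩,
    ⟨radial q', radial_mem_sphere hq', hball hq1', hq2'⟩⟩

/-- **Y6**: generic conditions in the disc model. -/
theorem gen : GenStmt.{u} := by
  intro Ω _ P _ S lam hlam h G τ
  let Q : Quad := ⟨radial.trans G⟩
  filter_upwards [ae_goodBd' kPoint2 colours2 hlam Q h,
    ae_corner kPoint2 cornerNull (G (pt τ)) h] with ω h1 h2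
  refine ⟨tame_comp (tame (S ω) h1.toGood) G, ?_, h2 h1.toGood⟩
  refine circleBd_of_tameBd ?_
  exact h1.bd

end P148
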