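import Vale.Agent.P148.Props3

/-!
# P148: the disc model of a quad
-/

open Set Metric Topology Filter
open scoped ENNReal NNReal

namespace P148

theorem radial_sq : radial '' sq = closedBall 0 1 := by
  have h := radial.image_closure {z : ℂ | |z.re| < 1 ∧ |z.im| < 1}
  rw [closure_open_sq, radial_open, closure_ball (0 : ℂ) one_ne_zero] at h
  exact h

theorem model : ModelStmt := by
  intro Q
  have himg : ∀ A : Set ℂ, Q.G '' (radial '' A) = Q.H '' A := by
    intro A
    rw [image_image]
    refine image_congr fun z _ => ?_
    change Q.H (radial.symm (radial z)) = Q.H z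
    rw [radial.symm_apply_apply]
  refine ⟨?_, ?_, ?_, ?_, ?_⟩
  · rw [← radial_sq, himg, Q.closure_D]
  · rw [← radial_side0, himg]; rfl
  · rw [← radial_side1, himg]; rfl
  · rw [← radial_side2, himg]; rfl
  · rw [← radial_side3, himg]; rfl

end P148
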