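import Vale.Agent.P148.TTri
import Vale.Agent.P148.TModel

/-!
# P148: the three arc probability is one half, annealed and quenched
-/

open MeasureTheory Set Metric Topology Filter ProbabilityTheory
open scoped ENNReal NNReal

namespace P148

universe u

section prob

variable {Ω : Type u} [MeasurableSpace Ω] {P : Measure Ω} [IsProbabilityMeasure P]
  {S : Ω → Set Pt} {lam : ℝ≥0}

theorem tri_pos (hT : TriStmt.{u}) (hlam : 0 < lam) (h : IsColouredPoisson P S lam) (G : ℂ ≃ₜ ℂ)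
    {τ₀ τ₁ τ₂ : ℝ} (h01 : τ₀ < τ₁) (h12 : τ₁ < τ₂) (h20 : τ₂ < τ₀ + 2 * Real.pi) {A : Set Ω}
    (hA : MeasurableSet[posSigma S] A) :
    P ({ω | S ω ∈ triEv G τ₀ τ₁ τ₂} ∩ A) = P A / 2 := by
  obtain ⟨E, hE1, hE2, rfl⟩ := exists_of_posSigma hA
  obtain ⟨hm, hae⟩ := hT Ω P S lam hlam h G τ₀ τ₁ τ₂ h01 h12 h20
  have hm2 : MeasurableSet[voidSigma] (triEv G τ₀ τ₁ τ₂ ∩ E) := MeasurableSet.inter hm hE1
  obtain ⟨-, -, h3⟩ := inv Ω P S lam h (IsometryEquiv.refl ℂ) Equiv.boolNot _ hm2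
  obtain ⟨-, hm4, -⟩ := inv Ω P S lam h (IsometryEquiv.refl ℂ) Equiv.boolNot _ hm
  have e1 : P ({ω | S ω ∈ triEv G τ₀ τ₁ τ₂} ∩ {ω | S ω ∈ E}) =
      P ({ω | flip (S ω) ∈ triEv G τ₀ τ₁ τ₂} ∩ {ω | S ω ∈ E}) := by
    have a1 : P ({ω | S ω ∈ triEv G τ₀ τ₁ τ₂} ∩ {ω | S ω ∈ E}) =
        P {ω | S ω ∈ triEv G τ₀ τ₁ τ₂ ∩ E} := rfl
    rw [a1, ← h3]
    congr 1
    ext ω
    exact and_congr_right fun _ => hE2 (S ω)
  have e2 : P ({ω | S ω ∈ triEv G τ₀ τ₁ τ₂} ∩ {ω | S ω ∈ E}) =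
      P ({ω | flip (S ω) ∈ triEv G τ₀ τ₁ τ₂}ᶜ ∩ {ω | S ω ∈ E}) := by
    refine measure_congr ?_
    refine Filter.EventuallyEq.inter ?_ (ae_eq_refl _)
    filter_upwards [hae] with ω hω
    exact propext hω
  have e3 : P ({ω | flip (S ω) ∈ triEv G τ₀ τ₁ τ₂} ∩ {ω | S ω ∈ E}) +
      P ({ω | flip (S ω) ∈ triEv G τ₀ τ₁ τ₂}ᶜ ∩ {ω | S ω ∈ E}) = P {ω | S ω ∈ E} := by
    rw [inter_comm _ {ω | S ω ∈ E}, inter_comm _ {ω | S ω ∈ E}, ← sdiff_eq]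
    exact measure_inter_add_sdiff _ hm4
  rw [← e1, ← e2, ← two_mul] at e3
  rw [ENNReal.eq_div_iff (by norm_num) (by norm_num)]
  exact e3

theorem measurable_tri (hT : TriStmt.{u}) (hlam : 0 < lam) (h : IsColouredPoisson P S lam)
    (G : ℂ ≃ₜ ℂ) {τ₀ τ₁ τ₂ : ℝ} (h01 : τ₀ < τ₁) (h12 : τ₁ < τ₂) (h20 : τ₂ < τ₀ + 2 * Real.pi) :
    MeasurableSet {ω | S ω ∈ triEv G τ₀ τ₁ τ₂} :=
  (inv Ω P S lam h (IsometryEquiv.refl ℂ) (Equiv.refl Bool) _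
    (hT Ω P S lam hlam h G τ₀ τ₁ τ₂ h01 h12 h20).1).1

theorem tri_half (hT : TriStmt.{u}) (hlam : 0 < lam) (h : IsColouredPoisson P S lam) (G : ℂ ≃ₜ ℂ)
    {τ₀ τ₁ τ₂ : ℝ} (h01 : τ₀ < τ₁) (h12 : τ₁ < τ₂) (h20 : τ₂ < τ₀ + 2 * Real.pi) :
    P {ω | S ω ∈ triEv G τ₀ τ₁ τ₂} = 1 / 2 := by
  have := tri_pos hT hlam h G h01 h12 h20 (A := univ) MeasurableSet.univ
  rwa [inter_univ, measure_univ] at this

/-- Quenched form. -/
theorem tri_quenched (hT : TriStmt.{u}) (hlam : 0 < lam) (h : IsColouredPoisson P S lam)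
    (G : ℂ ≃ₜ ℂ) {τ₀ τ₁ τ₂ : ℝ} (h01 : τ₀ < τ₁) (h12 : τ₁ < τ₂) (h20 : τ₂ < τ₀ + 2 * Real.pi) :
    P[{ω | S ω ∈ triEv G τ₀ τ₁ τ₂}.indicator (fun _ => (1 : ℝ)) | posSigma S] =ᵐ[P]
      fun _ => (1 / 2 : ℝ) := by
  have hm := measurable_tri hT hlam h G h01 h12 h20
  have hi : Integrable ({ω | S ω ∈ triEv G τ₀ τ₁ τ₂}.indicator (fun _ => (1 : ℝ))) P :=
    (integrable_const 1).indicator hm
  refine (ae_eq_condExp_of_forall_setIntegral_eq (posSigma_le h) hi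
    (fun _ _ _ => (integrable_const _).integrableOn) ?_ aestronglyMeasurable_const).symm
  intro A hA _
  have hA' := posSigma_le h A hA
  have := tri_pos hT hlam h G h01 h12 h20 hA
  rw [integral_const, measureReal_restrict_apply_univ, smul_eq_mul, integral_indicator hm]
  simp only [integral_const, smul_eq_mul, mul_one, measureReal_def, Measure.restrict_apply_univ]
  rw [Measure.restrict_apply hm, this, ENNReal.toReal_div]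
  simp [div_eq_mul_inv]

end prob

end P148
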