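import Vale.Agent.P148.Props5
import Vale.Agent.P148.TBlock

/-!
# P148, row K1: the pattern of the odd arcs is the Kreweras complement of the pattern of the even arcs
-/

open MeasureTheory Set Metric Topology Filter ProbabilityTheory
open scoped ENNReal NNReal

namespace P148

universe u

namespace TKrew

open TDet Relation

variable {t : ℕ → ℝ} {n : ℕ} {F F' : Set ℂ}

theorem no_link (ht : Marks n t) (h1 : Dual4 t n F F') (h2 : Dual4 t n F' F) {p q r s : ℕ}
    (hpq : p < q) (hqr : q < r) (hrs : r < s) (hs : s < 2 * n) (hpar : p % 2 ≠ q % 2)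
    (hc : Conn (TDet.col F F' p) (mArc t p) (mArc t r)) (hd : Conn (TDet.col F F' q) (mArc t q) (mArc t s)) :
    False := by
  have e1 := ht.mono s (2 * n) hs le_rfl
  have e2 := mono' ht (i := 0) (j := p) (by omega) (by omega)
  have e3 := mono' ht (i := s + 1) (j := 2 * n) hs le_rfl
  rw [ht.per] at e1 e3
  refine (dual_col h1 h2 p p q r s hpq hqr hrs hs.le (by linarith)).1 ?_ ?_
  · exact conn_mono hc (cArc_mono le_rfl (mono' ht hpq (by omega)))
      (cArc_mono le_rfl (mono' ht hrs (by omega)))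
  · rw [col_congr (show (p + 1) % 2 = q % 2 by omega)]
    exact conn_mono hd (cArc_mono le_rfl (mono' ht hqr (by omega)))
      (cArc_mono le_rfl (by linarith))

/-- `a` is strictly between `i` and `j`. -/
def Bt (i j a : ℕ) : Prop := min i j < a ∧ a < max i j

theorem bt_swap {i j a b : ℕ} (h1 : i ≠ a) (h2 : i ≠ b) (h3 : j ≠ a) (h4 : j ≠ b)
    (h : Bt a b i ↔ Bt a b j) : Bt i j a ↔ Bt i j b := by
  unfold Bt at *
  omega

theorem bt_comm (i j a : ℕ) : Bt i j a ↔ Bt j i a := by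
  unfold Bt
  rw [min_comm, max_comm]

theorem bt_lt {i j : ℕ} (h : i < j) (a : ℕ) : Bt i j a ↔ i < a ∧ a < j := by
  unfold Bt
  rw [min_eq_left h.le, max_eq_right h.le]

theorem bt_self (i a : ℕ) : ¬ Bt i i a := by
  unfold Bt
  rw [min_self, max_self]
  omega

theorem bt_key {x y a b : ℕ} (hxy : x < y) (hab : a < b) (h1 : x ≠ a) (h2 : x ≠ b)
    (h3 : y ≠ a) (h4 : y ≠ b) (n1 : ¬ (x < a ∧ a < y ∧ y < b)) (n2 : ¬ (a < x ∧ x < b ∧ b < y)) :
    Bt a b x ↔ Bt a b y := by
  rw [bt_lt hab, bt_lt hab]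
  omega

theorem rel_bt (ht : Marks n t) (h1 : Dual4 t n F F') (h2 : Dual4 t n F' F) {x y a b : Fin (2 * n)}
    (hxy : rel F F' t n x y) (hab : rel F F' t n a b) (hpar : (a : ℕ) % 2 ≠ (x : ℕ) % 2) :
    Bt a b x ↔ Bt a b y := by
  obtain ⟨p1, c1⟩ := hxy
  obtain ⟨p2, c2⟩ := hab
  have c1' : Conn (TDet.col F F' y) (mArc t y) (mArc t x) := by
    rw [← col_congr p1]
    exact conn_symm c1
  have c2' : Conn (TDet.col F F' b) (mArc t b) (mArc t a) := by
    rw [← col_congr p2]
    exact conn_symm c2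
  have key : ∀ x y a b : Fin (2 * n), (x : ℕ) < y → (a : ℕ) < b → (a : ℕ) % 2 ≠ (x : ℕ) % 2 →
      (x : ℕ) % 2 = (y : ℕ) % 2 → (a : ℕ) % 2 = (b : ℕ) % 2 →
      Conn (TDet.col F F' x) (mArc t x) (mArc t y) →
      Conn (TDet.col F F' a) (mArc t a) (mArc t b) → (Bt a b x ↔ Bt a b y) := by
    intro x y a b hxy hab k1 k2 k3 d1 d2
    refine bt_key hxy hab (by omega) (by omega) (by omega) (by omega) ?_ ?_
    · rintro ⟨o1, o2, o3⟩
      exact no_link ht h1 h2 o1 o2 o3 b.2 (Ne.symm k1) d1 d2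
    · rintro ⟨o1, o2, o3⟩
      exact no_link ht h1 h2 o1 o2 o3 y.2 k1 d2 d1
  rcases lt_trichotomy (x : ℕ) y with hxy | hxy | hxy
  · rcases lt_trichotomy (a : ℕ) b with hab | hab | hab
    · exact key x y a b hxy hab hpar p1 p2 c1 c2
    · rw [hab]
      exact ⟨fun h => absurd h (bt_self _ _), fun h => absurd h (bt_self _ _)⟩
    · rw [bt_comm a b, bt_comm a b]
      exact key x y b a hxy hab (by omega) p1 p2.symm c1 c2'
  · rw [hxy]
  · rcases lt_trichotomy (a : ℕ) b with hab | hab | hab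
    · exact (key y x a b hxy hab (by omega) p1.symm p2 c1' c2).symm
    · rw [hab]
      exact ⟨fun h => absurd h (bt_self _ _), fun h => absurd h (bt_self _ _)⟩
    · rw [bt_comm a b, bt_comm a b]
      exact (key y x b a hxy hab (by omega) p1.symm p2.symm c1' c2').symm

theorem eqv_par {x y : Fin (2 * n)} (h : EqvGen (rel F F' t n) x y) :
    (x : ℕ) % 2 = (y : ℕ) % 2 := by
  induction h with
  | rel x y h => exact h.1
  | refl x => rfl
  | symm x y _ ih => exact ih.symm
  | trans x y z _ _ ih1 ih2 => exact ih1.trans ih2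

theorem eqv_bt (ht : Marks n t) (h1 : Dual4 t n F F') (h2 : Dual4 t n F' F)
    {a b : Fin (2 * n)} (hab : rel F F' t n a b) {x y : Fin (2 * n)}
    (h : EqvGen (rel F F' t n) x y) (hpar : (a : ℕ) % 2 ≠ (x : ℕ) % 2) :
    Bt a b x ↔ Bt a b y := by
  induction h with
  | rel x y h => exact rel_bt ht h1 h2 h hab hpar
  | refl x => rfl
  | symm x y h ih =>
    have := eqv_par h
    exact (ih (by omega)).symm
  | trans x y z h h' ih1 ih2 =>
    have := eqv_par h
    exact (ih1 hpar).trans (ih2 (by omega))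

theorem eqv_eqv (ht : Marks n t) (h1 : Dual4 t n F F') (h2 : Dual4 t n F' F)
    {x y : Fin (2 * n)} (hxy : EqvGen (rel F F' t n) x y) {a b : Fin (2 * n)}
    (h : EqvGen (rel F F' t n) a b) (hpar : (a : ℕ) % 2 ≠ (x : ℕ) % 2) :
    Bt x y a ↔ Bt x y b := by
  have p1 := eqv_par hxy
  induction h with
  | rel a b h =>
    have p2 := h.1
    exact bt_swap (by omega) (by omega) (by omega) (by omega) (eqv_bt ht h1 h2 h hxy hpar)
  | refl x => rfl
  | symm a b h ih =>
    have := eqv_par h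
    exact (ih (by omega)).symm
  | trans a b c h h' ih1 ih2 =>
    have := eqv_par h
    exact (ih1 hpar).trans (ih2 (by omega))

/-- Connections after the merging of the arcs `p`, `p + 1`, `p + 2` are connections before. -/
theorem lift_sg (hM : MeetStmt) (hF : IsCompact F) (hF' : IsCompact F')
    (hFb : F ⊆ closedBall 0 1) (hFb' : F' ⊆ closedBall 0 1) {m p : ℕ} (hm : 1 ≤ m)
    (hp : p < 2 * m) (ht : Marks (m + 1) t)
    (hc : Conn (TDet.col F F' p) (mArc t p) (mArc t (p + 2)))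
    (hsglt : ∀ i, i < 2 * m → sg p i < 2 * (m + 1)) :
    ∀ i j : Fin (2 * m), EqvGen (rel F F' (fun i => t (sg p i)) m) i j →
      EqvGen (rel F F' t (m + 1)) ⟨sg p i, hsglt i i.2⟩ ⟨sg p j, hsglt j j.2⟩ := by
  have hlt3 : t (p + 3) < t p + 2 * Real.pi := by
    have e1 := mono' ht (i := p + 3) (j := 2 * (m + 1)) (by omega) le_rfl
    have e2 := mono' ht (i := 0) (j := p) (by omega) (by omega)
    rw [ht.per] at e1
    rcases Nat.eq_zero_or_pos p with rfl | h0
    · have := ht.mono (0 + 3) (2 * (m + 1)) (by omega) le_rfl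
      rw [ht.per] at this
      linarith
    · have := ht.mono 0 p h0 (by omega)
      linarith
  have hrest : ∀ j, j < 2 * (m + 1) → (j + 1 ≤ p ∨ p + 3 ≤ j) →
      mArc t j ⊆ cArc 0 1 (t (p + 3)) (t p + 2 * Real.pi) := by
    intro j hj hj'
    rcases hj' with h | h
    · unfold mArc
      rw [← cArc_per]
      refine cArc_mono ?_ ?_
      · have e1 := mono' ht (i := p + 3) (j := 2 * (m + 1)) (by omega) le_rfl
        rw [ht.per] at e1
        have e2 := mono' ht (i := 0) (j := j) (by omega) (by omega)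
        linarith
      · have := mono' ht h (by omega)
        linarith
    · refine cArc_mono (mono' ht h (by omega)) ?_
      have e1 := mono' ht (i := j + 1) (j := 2 * (m + 1)) (by omega) le_rfl
      rw [ht.per] at e1
      have e2 := mono' ht (i := 0) (j := p) (by omega) (by omega)
      linarith
  have harc : ∀ j, j ≠ p → mArc (fun i => t (sg p i)) j = mArc t (sg p j) := by
    intro j hj
    unfold mArc
    have : sg p (j + 1) = sg p j + 1 := by
      unfold sg
      split_ifs <;> omega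
    simp only [this]
  have harcp : mArc (fun i => t (sg p i)) p = cArc 0 1 (t p) (t (p + 3)) := by
    unfold mArc
    have e1 : sg p p = p := by unfold sg; rw [if_pos le_rfl]
    have e2 : sg p (p + 1) = p + 3 := by unfold sg; rw [if_neg (by omega)]
    simp only [e1, e2]
  have hsgpar : ∀ i, sg p i % 2 = i % 2 := by
    intro i
    unfold sg
    split_ifs <;> omega
  have hcolsub : ∀ i, TDet.col F F' i ⊆ closedBall 0 1 := by
    intro i
    unfold TDet.col
    split_ifs
    · exact hFb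
    · exact hFb'
  have hcolcpt : ∀ i, IsCompact (TDet.col F F' i) := by
    intro i
    unfold TDet.col
    split_ifs
    · exact hF
    · exact hF'
  have hp1 : p < 2 * (m + 1) := by omega
  have hp3 : p + 2 < 2 * (m + 1) := by omega
  have hpp : EqvGen (rel F F' t (m + 1)) ⟨p, hp1⟩ ⟨p + 2, hp3⟩ :=
    EqvGen.rel _ _ ⟨by simp, hc⟩
  have hmerge : ∀ j (hj : j < 2 * m), j ≠ p → j % 2 = p % 2 →
      Conn (TDet.col F F' p) (mArc (fun i => t (sg p i)) p) (mArc (fun i => t (sg p i)) j) →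
      EqvGen (rel F F' t (m + 1)) ⟨p, hp1⟩ ⟨sg p j, hsglt j hj⟩ := by
    intro j hj hne hjp hcon
    rw [harc j hne, harcp] at hcon
    have hjr : sg p j + 1 ≤ p ∨ p + 3 ≤ sg p j := by
      unfold sg
      split_ifs <;> omega
    obtain ⟨K, k1, k2, ⟨z, hzK, hz⟩, k4⟩ := hcon
    obtain ⟨r, r1, r2, r3⟩ := cover t (by omega) hz
    have hr : r = p ∨ r = p + 1 ∨ r = p + 2 := by omega
    rcases hr with rfl | rfl | rfl
    · refine EqvGen.rel _ _ ⟨?_, ?_⟩
      · change r % 2 = sg r j % 2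
        rw [hsgpar, hjp]
      · exact ⟨K, k1, k2, ⟨z, hzK, r3⟩, k4⟩
    · obtain ⟨L, l1, l2, l3, l4, l5⟩ := Conn.cpt (hcolcpt p) hc
      obtain ⟨K', k1', k2', k3', k4', k5'⟩ := Conn.cpt (A := mArc t (p + 1)) (hcolcpt p)
        ⟨K, k1, k2, ⟨z, hzK, r3⟩, k4⟩
      have hne := hM (t p) (t (p + 1)) (t (p + 2)) (t (p + 3)) (ht.mono _ _ (by omega) (by omega))
        (ht.mono _ _ (by omega) (by omega)) (ht.mono _ _ (by omega) (by omega)) hlt3 L K' l2 k2'
        (l1.trans (hcolsub p)) (k1'.trans (hcolsub p)) l3 k3' l4 l5 k4'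
        (k5'.mono (inter_subset_inter_right _ (hrest _ (hsglt j hj) hjr)))
      refine EqvGen.rel _ _ ⟨?_, ?_⟩
      · change p % 2 = sg p j % 2
        rw [hsgpar, hjp]
      · exact ⟨L ∪ K', union_subset l1 k1', IsConnected.union hne l3 k3',
          l4.mono (inter_subset_inter_left _ subset_union_left),
          k5'.mono (inter_subset_inter_left _ subset_union_right)⟩
    · refine EqvGen.trans _ _ _ hpp (EqvGen.rel _ _ ⟨?_, ?_⟩)
      · change (p + 2) % 2 = sg p j % 2
        rw [hsgpar, hjp]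
        omega
      · change Conn (TDet.col F F' (p + 2)) _ _
        rw [col_congr (show (p + 2) % 2 = p % 2 by omega)]
        exact ⟨K, k1, k2, ⟨z, hzK, r3⟩, k4⟩
  have hg : ∀ i j : Fin (2 * m), rel F F' (fun i => t (sg p i)) m i j →
      EqvGen (rel F F' t (m + 1)) ⟨sg p i, hsglt i i.2⟩ ⟨sg p j, hsglt j j.2⟩ := by
    rintro i j ⟨h3, h4⟩
    have hsp : sg p p = p := by unfold sg; rw [if_pos le_rfl]
    have hep : ∀ i : Fin (2 * m), (i : ℕ) = p →
        (⟨sg p i, hsglt i i.2⟩ : Fin (2 * (m + 1))) = ⟨p, hp1⟩ := by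
      intro i hi
      exact Fin.ext (by change sg p i = p; rw [hi, hsp])
    by_cases hi : (i : ℕ) = p
    · by_cases hj : (j : ℕ) = p
      · rw [hep i hi, hep j hj]
        exact EqvGen.refl _
      · rw [hep i hi]
        exact hmerge j j.2 hj (by omega) (by rw [hi] at h4; exact h4)
    · by_cases hj : (j : ℕ) = p
      · rw [hep j hj]
        refine EqvGen.symm _ _ (hmerge i i.2 hi (by omega) ?_)
        rw [hj] at h4 h3
        rw [← col_congr h3]
        exact conn_symm h4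
      · refine EqvGen.rel _ _ ⟨?_, ?_⟩
        · change sg p i % 2 = sg p j % 2
          rw [hsgpar, hsgpar, h3]
        · change Conn (TDet.col F F' (sg p i)) _ _
          rw [harc i hi, harc j hj] at h4
          rw [col_congr (hsgpar i)]
          exact h4
  intro i j h
  induction h with
  | rel i j h => exact hg i j h
  | refl i => exact EqvGen.refl _
  | symm i j _ ih => exact EqvGen.symm _ _ ih
  | trans i j k _ _ ih1 ih2 => exact EqvGen.trans _ _ _ ih1 ih2

/-- Two inequivalent arcs of one colour are separated by a class of the other colour. -/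
theorem exists_sep (hM : MeetStmt) (hF : IsCompact F) (hF' : IsCompact F')
    (hFb : F ⊆ closedBall 0 1) (hFb' : F' ⊆ closedBall 0 1) (m : ℕ) :
    ∀ t : ℕ → ℝ, Marks (m + 1) t → Dual4 t (m + 1) F F' → Dual4 t (m + 1) F' F →
      ∀ i j : Fin (2 * (m + 1)), (i : ℕ) % 2 = (j : ℕ) % 2 → i < j →
        ¬ EqvGen (rel F F' t (m + 1)) i j → ∃ a b : Fin (2 * (m + 1)),
          (a : ℕ) % 2 ≠ (i : ℕ) % 2 ∧ i < a ∧ a < j ∧ (b < i ∨ j < b) ∧
          EqvGen (rel F F' t (m + 1)) a b := by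
  induction m with
  | zero =>
    intro t ht h1 h2 i j hpar hij
    exfalso
    have := i.2
    have := j.2
    have : (i : ℕ) < j := hij
    omega
  | succ m ih =>
    intro t ht h1 h2 i j hpar hij hn
    obtain ⟨p, hp, hc⟩ := exists_adj (by omega) ht h1 h2
    have hsglt : ∀ i, i < 2 * (m + 1) → sg p i < 2 * (m + 1 + 1) := by
      intro i hi
      unfold sg
      split_ifs <;> omega
    have hpjlt : ∀ i, i < 2 * (m + 1 + 1) → pj p i < 2 * (m + 1) := by
      intro i hi
      unfold pj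
      split_ifs <;> omega
    have hij' : (i : ℕ) < j := hij
    have hi2 := i.2
    have hj2 := j.2
    have hp1 : p < 2 * (m + 1 + 1) := by omega
    have hp3 : p + 2 < 2 * (m + 1 + 1) := by omega
    have hpp : EqvGen (rel F F' t (m + 1 + 1)) ⟨p, hp1⟩ ⟨p + 2, hp3⟩ :=
      EqvGen.rel _ _ ⟨by simp, hc⟩
    have hlift := lift_sg hM hF hF' hFb hFb' (by omega) (by omega) ht hc hsglt
    by_cases hi : (i : ℕ) = p + 1
    · refine ⟨⟨p + 2, hp3⟩, ⟨p, hp1⟩, ?_, ?_, ?_, Or.inl ?_, EqvGen.symm _ _ hpp⟩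
      · change (p + 2) % 2 ≠ _
        omega
      · change (i : ℕ) < p + 2
        omega
      · change p + 2 < (j : ℕ)
        omega
      · change p < (i : ℕ)
        omega
    by_cases hj : (j : ℕ) = p + 1
    · refine ⟨⟨p, hp1⟩, ⟨p + 2, hp3⟩, ?_, ?_, ?_, Or.inr ?_, hpp⟩
      · change p % 2 ≠ _
        omega
      · change (i : ℕ) < p
        omega
      · change p < (j : ℕ)
        omega
      · change (j : ℕ) < p + 2
        omega
    -- the general case
    have hback : ∀ k : Fin (2 * (m + 1 + 1)), (k : ℕ) ≠ p + 1 →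
        EqvGen (rel F F' t (m + 1 + 1)) ⟨sg p (pj p k), hsglt _ (hpjlt k k.2)⟩ k := by
      intro k hk
      by_cases hk2 : (k : ℕ) = p + 2
      · have e1 : (⟨sg p (pj p k), hsglt _ (hpjlt k k.2)⟩ : Fin (2 * (m + 1 + 1))) = ⟨p, hp1⟩ := by
          refine Fin.ext ?_
          change sg p (pj p k) = p
          rw [hk2]
          unfold sg pj
          split_ifs <;> omega
        have e2 : k = ⟨p + 2, hp3⟩ := Fin.ext hk2
        rw [e1]
        rw [← e2] at hpp
        exact hpp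
      · have e1 : (⟨sg p (pj p k), hsglt _ (hpjlt k k.2)⟩ : Fin (2 * (m + 1 + 1))) = k := by
          refine Fin.ext ?_
          change sg p (pj p k) = k
          unfold sg pj
          split_ifs <;> omega
        rw [e1]
        exact EqvGen.refl _
    have hn' : ¬ EqvGen (rel F F' (fun i => t (sg p i)) (m + 1)) ⟨pj p i, hpjlt i i.2⟩
        ⟨pj p j, hpjlt j j.2⟩ := by
      intro he
      exact hn (EqvGen.trans _ _ _ (EqvGen.symm _ _ (hback i hi))
        (EqvGen.trans _ _ _ (hlift _ _ he) (hback j hj)))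
    have hle : pj p i ≤ pj p j := by
      unfold pj
      split_ifs <;> omega
    have hlt : pj p i < pj p j := by
      refine lt_of_le_of_ne hle fun he => hn' ?_
      have : (⟨pj p i, hpjlt i i.2⟩ : Fin (2 * (m + 1))) = ⟨pj p j, hpjlt j j.2⟩ := Fin.ext he
      rw [this]
      exact EqvGen.refl _
    have hpar' : pj p i % 2 = pj p j % 2 := by
      unfold pj
      split_ifs <;> omega
    obtain ⟨a, b, q1, q2, q3, q4, q5⟩ := ih _ (marks_sg (by omega) ht) (dual_sg (by omega) h1)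
      (dual_sg (by omega) h2) ⟨pj p i, hpjlt i i.2⟩ ⟨pj p j, hpjlt j j.2⟩ hpar' hlt hn'
    have q1' : (a : ℕ) % 2 ≠ pj p i % 2 := q1
    have q2' : pj p i < (a : ℕ) := q2
    have q3' : (a : ℕ) < pj p j := q3
    have q4' : (b : ℕ) < pj p i ∨ pj p j < (b : ℕ) := q4
    refine ⟨⟨sg p a, hsglt a a.2⟩, ⟨sg p b, hsglt b b.2⟩, ?_, ?_, ?_, ?_, hlift _ _ q5⟩
    · change sg p a % 2 ≠ _
      unfold sg
      unfold pj at q1'
      split_ifs at q1' ⊢ <;> omega
    · change (i : ℕ) < sg p a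
      unfold sg
      unfold pj at q2'
      split_ifs at q2' ⊢ <;> omega
    · change sg p a < (j : ℕ)
      unfold sg
      unfold pj at q3'
      split_ifs at q3' ⊢ <;> omega
    · rcases q4' with q | q
      · left
        change sg p b < (i : ℕ)
        unfold sg
        unfold pj at q
        split_ifs at q ⊢ <;> omega
      · right
        change (j : ℕ) < sg p b
        unfold sg
        unfold pj at q
        split_ifs at q ⊢ <;> omega

theorem pat_of_rel {c : ℕ} {x y : Fin (2 * n)} (h : EqvGen (rel F F' t n) x y)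
    (hx : (x : ℕ) % 2 = c) (hlt : ∀ x : Fin (2 * n), (x : ℕ) / 2 < n) :
    pat (TDet.col F F' c) t n c ⟨x / 2, hlt x⟩ ⟨y / 2, hlt y⟩ := by
  induction h with
  | rel x y h =>
    obtain ⟨h3, h4⟩ := h
    refine EqvGen.rel _ _ ?_
    change Conn (TDet.col F F' c) (mArc t (2 * ((x : ℕ) / 2) + c)) (mArc t (2 * ((y : ℕ) / 2) + c))
    rw [show 2 * ((x : ℕ) / 2) + c = x by omega, show 2 * ((y : ℕ) / 2) + c = y by omega,
      col_congr (show c % 2 = (x : ℕ) % 2 by omega)]
    exact h4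
  | refl x => exact EqvGen.refl _
  | symm x y h ih =>
    have := eqv_par h
    exact EqvGen.symm _ _ (ih (by omega))
  | trans x y z h h' ih1 ih2 =>
    have := eqv_par h
    exact EqvGen.trans _ _ _ (ih1 hx) (ih2 (by omega))

theorem rel_of_pat {c : ℕ} {i j : Fin n} (h : pat (TDet.col F F' c) t n c i j)
    (hlt : ∀ i : Fin n, 2 * (i : ℕ) + c < 2 * n) :
    EqvGen (rel F F' t n) ⟨2 * i + c, hlt i⟩ ⟨2 * j + c, hlt j⟩ := by
  unfold pat at h
  induction h with
  | rel i j h =>
    refine EqvGen.rel _ _ ⟨?_, ?_⟩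
    · change (2 * (i : ℕ) + c) % 2 = (2 * (j : ℕ) + c) % 2
      omega
    · change Conn (TDet.col F F' (2 * (i : ℕ) + c)) _ _
      rw [col_congr (show (2 * (i : ℕ) + c) % 2 = c % 2 by omega)]
      exact h
  | refl i => exact EqvGen.refl _
  | symm i j _ ih => exact EqvGen.symm _ _ ih
  | trans i j k _ _ ih1 ih2 => exact EqvGen.trans _ _ _ ih1 ih2

theorem krew_lt (hM : MeetStmt) (hF : IsCompact F) (hF' : IsCompact F')
    (hFb : F ⊆ closedBall 0 1) (hFb' : F' ⊆ closedBall 0 1) (hn : 1 ≤ n) (ht : Marks n t)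
    (h1 : Dual4 t n F F') (h2 : Dual4 t n F' F) {i j : Fin n} (hij : i < j) :
    pat F' t n 1 i j ↔ ∀ a b : Fin n, i < a → a ≤ j → (b ≤ i ∨ j < b) → ¬ pat F t n 0 a b := by
  have l0 : ∀ i : Fin n, 2 * (i : ℕ) + 0 < 2 * n := fun i => by have := i.2; omega
  have l1 : ∀ i : Fin n, 2 * (i : ℕ) + 1 < 2 * n := fun i => by have := i.2; omega
  have lh : ∀ x : Fin (2 * n), (x : ℕ) / 2 < n := fun x => by have := x.2; omega
  have hij' : (i : ℕ) < j := hij
  constructor
  · intro hp a b ha hb ho hq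
    have e1 := rel_of_pat (F := F) (F' := F') (c := 1) hp l1
    have e2 := rel_of_pat (F := F) (F' := F') (c := 0) hq l0
    have hk := (eqv_eqv ht h1 h2 e1 e2 (by
      change (2 * (a : ℕ) + 0) % 2 ≠ (2 * (i : ℕ) + 1) % 2
      omega)).1
    have ha' : (i : ℕ) < a := ha
    have hb' : (a : ℕ) ≤ j := hb
    have ho' : (b : ℕ) ≤ i ∨ (j : ℕ) < b := ho
    have hk2 : 2 * (i : ℕ) + 1 < 2 * (b : ℕ) + 0 ∧ 2 * (b : ℕ) + 0 < 2 * (j : ℕ) + 1 :=
      (bt_lt (by omega) _).1 (hk ((bt_lt (show 2 * (i : ℕ) + 1 < 2 * (j : ℕ) + 1 by omega) _).2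
        (by change 2 * (i : ℕ) + 1 < 2 * (a : ℕ) + 0 ∧ 2 * (a : ℕ) + 0 < 2 * (j : ℕ) + 1; omega)))
    omega
  · intro hp
    by_contra hnp
    obtain ⟨m, rfl⟩ : ∃ m, n = m + 1 := ⟨n - 1, by omega⟩
    obtain ⟨a, b, q1, q2, q3, q4, q5⟩ := exists_sep hM hF hF' hFb hFb' m t ht h1 h2
      ⟨2 * i + 1, l1 i⟩ ⟨2 * j + 1, l1 j⟩ (by
        change (2 * (i : ℕ) + 1) % 2 = (2 * (j : ℕ) + 1) % 2
        omega) (by
        change 2 * (i : ℕ) + 1 < 2 * (j : ℕ) + 1
        omega) (by
        intro he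
        refine hnp ?_
        have := pat_of_rel (c := 1) he (by change (2 * (i : ℕ) + 1) % 2 = 1; omega) lh
        have e1 : (⟨(2 * (i : ℕ) + 1) / 2, lh ⟨2 * i + 1, l1 i⟩⟩ : Fin (m + 1)) = i :=
          Fin.ext (by change (2 * (i : ℕ) + 1) / 2 = i; omega)
        have e2 : (⟨(2 * (j : ℕ) + 1) / 2, lh ⟨2 * j + 1, l1 j⟩⟩ : Fin (m + 1)) = j :=
          Fin.ext (by change (2 * (j : ℕ) + 1) / 2 = j; omega)
        change pat (TDet.col F F' 1) t (m + 1) 1 ⟨(2 * (i : ℕ) + 1) / 2, _⟩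
          ⟨(2 * (j : ℕ) + 1) / 2, _⟩ at this
        rw [e1, e2] at this
        exact this)
    have q1' : (a : ℕ) % 2 ≠ (2 * (i : ℕ) + 1) % 2 := q1
    have q2' : 2 * (i : ℕ) + 1 < a := q2
    have q3' : (a : ℕ) < 2 * j + 1 := q3
    have q4' : (b : ℕ) < 2 * i + 1 ∨ 2 * (j : ℕ) + 1 < b := q4
    have q6 := eqv_par q5
    refine hp ⟨a / 2, lh a⟩ ⟨b / 2, lh b⟩ ?_ ?_ ?_ (pat_of_rel (c := 0) q5 (by omega) lh)
    · change (i : ℕ) < (a : ℕ) / 2
      omega
    · change (a : ℕ) / 2 ≤ (j : ℕ)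
      omega
    · rcases q4' with q | q
      · left
        change (b : ℕ) / 2 ≤ (i : ℕ)
        omega
      · right
        change (j : ℕ) < (b : ℕ) / 2
        omega

/-- The deterministic statement. -/
theorem krew_det (hM : MeetStmt) (hF : IsCompact F) (hF' : IsCompact F')
    (hFb : F ⊆ closedBall 0 1) (hFb' : F' ⊆ closedBall 0 1) (hn : 1 ≤ n) (ht : Marks n t)
    (h1 : Dual4 t n F F') (h2 : Dual4 t n F' F) : pat F' t n 1 = krew (pat F t n 0) := by
  have e : ∀ i j : Fin n, i < j → (krew (pat F t n 0) i j ↔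
      ∀ a b : Fin n, i < a → a ≤ j → (b ≤ i ∨ j < b) → ¬ pat F t n 0 a b) := by
    intro i j hij
    unfold krew
    rw [min_eq_left hij.le, max_eq_right hij.le]
    refine forall_congr' fun a => forall_congr' fun b => ?_
    constructor
    · intro h k1 k2 k3
      refine h ⟨k1, k2⟩ ?_
      rintro ⟨k4, k5⟩
      rcases k3 with k3 | k3
      · exact absurd k4 (not_lt.2 k3)
      · exact absurd k5 (not_le.2 k3)
    · intro h k1 k2
      refine h k1.1 k1.2 ?_
      by_contra hc
      push Not at hc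
      exact k2 hc
  funext i j
  apply propext
  rcases lt_trichotomy i j with hij | rfl | hij
  · rw [e i j hij]
    exact krew_lt hM hF hF' hFb hFb' hn ht h1 h2 hij
  · unfold krew
    rw [min_self, max_self]
    exact ⟨fun _ a b ha => absurd ha.1 (not_lt.2 ha.2), fun _ => EqvGen.refl _⟩
  · have hs : krew (pat F t n 0) i j ↔ krew (pat F t n 0) j i := by
      unfold krew
      rw [min_comm, max_comm]
    rw [hs, e j i hij, ← krew_lt hM hF hF' hFb hFb' hn ht h1 h2 hij]
    exact ⟨EqvGen.symm _ _, EqvGen.symm _ _⟩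

end TKrew

/-- **K1**. -/
theorem krewDet (hM : MeetStmt) : KrewDetStmt := by
  intro n t hn ht F F' hF hF' hFb hFb' h1 h2
  exact TKrew.krew_det hM hF hF' hFb hFb' hn ht h1 h2

end P148
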