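import Vale.Agent.P148.Props5
import Vale.Agent.P148.TBlock

/-!
# P148, row K2: the law of the pattern of the odd arcs
-/

open MeasureTheory Set Metric Topology Filter ProbabilityTheory
open scoped ENNReal NNReal

namespace P148

universe u

namespace TKrew2

/-- The relation of the direct connections. -/
def rel (G : ℂ ≃ₜ ℂ) (t : ℕ → ℝ) (n c : ℕ) (T : Set Pt) (i j : Fin n) : Prop :=
  Conn (Fb (gap T ∘ G)) (mArc t (2 * i + c)) (mArc t (2 * j + c))

/-- Every event of the direct connections is measurable. -/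
theorem measurable_rel (G : ℂ ≃ₜ ℂ) (t : ℕ → ℝ) (n c : ℕ) (B : Set (Fin n → Fin n → Prop)) :
    MeasurableSet[voidSigma] {T : Set Pt | rel G t n c T ∈ B} := by
  let _ : MeasurableSpace (Set Pt) := voidSigma
  have h1 : Measurable fun T : Set Pt => rel G t n c T := by
    refine measurable_pi_lambda _ fun i => measurable_pi_lambda _ fun j => ?_
    exact measurableSet_setOfPred.1 (measurable_conn G _ _ _ _)
  exact h1 (to_countable B).measurableSet

section prob

variable {Ω : Type u} [MeasurableSpace Ω] {P : Measure Ω} [IsProbabilityMeasure P]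
  {S : Ω → Set Pt} {lam : ℝ≥0}

/-- The flip of the colours, with an event of the positions. -/
theorem measure_flip_inter (h : IsColouredPoisson P S lam) {B : Set (Set Pt)}
    (hB : MeasurableSet[voidSigma] B) {A : Set Ω} (hA : MeasurableSet[posSigma S] A) :
    P ({ω | S ω ∈ B} ∩ A) = P ({ω | flip (S ω) ∈ B} ∩ A) := by
  obtain ⟨E, hE1, hE2, rfl⟩ := exists_of_posSigma hA
  have hm : MeasurableSet[voidSigma] (B ∩ E) := MeasurableSet.inter hB hE1
  obtain ⟨-, -, h3⟩ := inv Ω P S lam h (IsometryEquiv.refl ℂ) Equiv.boolNot _ hm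
  have e1 : {ω | S ω ∈ B} ∩ {ω | S ω ∈ E} = {ω | S ω ∈ B ∩ E} := rfl
  have e2 : {ω | flip (S ω) ∈ B} ∩ {ω | S ω ∈ E} =
      {ω | Prod.map (IsometryEquiv.refl ℂ) Equiv.boolNot '' S ω ∈ B ∩ E} := by
    ext ω
    exact and_congr_right fun _ => (hE2 (S ω)).symm
  rw [e1, e2, h3]

end prob

/-- Conditional probabilities of events with the same probabilities inside the conditions. -/
theorem condExp_congr_event {Ω : Type u} {m : MeasurableSpace Ω} {m0 : MeasurableSpace Ω}
    {P : Measure Ω} [IsProbabilityMeasure P] (hle : m ≤ m0)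
    {E₁ E₂ : Set Ω} (h1 : MeasurableSet E₁) (h2 : MeasurableSet E₂)
    (h : ∀ A, MeasurableSet[m] A → P (E₁ ∩ A) = P (E₂ ∩ A)) : P⟦E₁ | m⟧ =ᵐ[P] P⟦E₂ | m⟧ := by
  have i1 : Integrable (E₁.indicator (fun _ => (1 : ℝ))) P := (integrable_const 1).indicator h1
  have i2 : Integrable (E₂.indicator (fun _ => (1 : ℝ))) P := (integrable_const 1).indicator h2
  refine ae_eq_condExp_of_forall_setIntegral_eq hle i2
    (fun _ _ _ => integrable_condExp.integrableOn) ?_
    stronglyMeasurable_condExp.aestronglyMeasurable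
  intro A hA _
  rw [setIntegral_condExp hle i1 hA, integral_indicator_const _ h1, integral_indicator_const _ h2,
    measureReal_restrict_apply h1, measureReal_restrict_apply h2, measureReal_def,
    measureReal_def, h A hA]

end TKrew2

open TKrew2

/-- **K2: the Kreweras law.** -/
theorem krewLaw (hK : KrewDetStmt) : KrewStmt.{u} := by
  intro Ω _ P _ S lam hlam h G n t hn ht
  have hc : ∀ T : Set Pt, Continuous (gap T ∘ G) := fun T => (continuous_gap T).comp G.continuous
  have hae : ∀ᵐ ω ∂P,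
      pat (Fw (gap (S ω) ∘ G)) t n 1 = krew (pat (Fb (gap (S ω) ∘ G)) t n 0) := by
    filter_upwards [TBlock.dual Ω P S lam hlam h G n t ht] with ω hω
    exact hK n t hn ht _ _ (isCompact_Fb (hc _)) (isCompact_Fw (hc _)) inter_subset_right
      inter_subset_right hω.1 hω.2
  refine ⟨hae, fun A => ?_⟩
  obtain ⟨B₁, hB₁⟩ : ∃ B₁ : Set (Set Pt), B₁ = {T | pat (Fb (gap T ∘ G)) t n 1 ∈ A} := ⟨_, rfl⟩
  obtain ⟨B₀, hB₀⟩ : ∃ B₀ : Set (Set Pt), B₀ = {T | krew (pat (Fb (gap T ∘ G)) t n 0) ∈ A} :=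
    ⟨_, rfl⟩
  have m1 : MeasurableSet[voidSigma] B₁ := by
    have := measurable_rel G t n 1 {r | (fun i j => Relation.EqvGen r i j) ∈ A}
    rw [hB₁]
    exact this
  have m0 : MeasurableSet[voidSigma] B₀ := by
    have := measurable_rel G t n 0 {r | krew (fun i j => Relation.EqvGen r i j) ∈ A}
    rw [hB₀]
    exact this
  have s1 : MeasurableSet {ω | S ω ∈ B₁} := h.measurable_self m1
  have s0 : MeasurableSet {ω | S ω ∈ B₀} := h.measurable_self m0
  have e1 : {ω | pat (Fb (gap (S ω) ∘ G)) t n 1 ∈ A} = {ω | S ω ∈ B₁} := by rw [hB₁]; rfl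
  have e0 : {ω | krew (pat (Fb (gap (S ω) ∘ G)) t n 0) ∈ A} = {ω | S ω ∈ B₀} := by
    rw [hB₀]
    rfl
  have key : ∀ X, MeasurableSet[posSigma S] X → P ({ω | S ω ∈ B₁} ∩ X) =
      P ({ω | S ω ∈ B₀} ∩ X) := by
    intro X hX
    rw [measure_flip_inter h m1 hX]
    refine measure_congr (Filter.EventuallyEq.inter ?_ (ae_eq_refl _))
    filter_upwards [hae] with ω hω
    have h1 : flip (S ω) ∈ B₁ ↔ S ω ∈ B₀ := by
      rw [hB₁, hB₀, mem_ofPred_eq, mem_ofPred_eq, Fb_flip, hω]
    exact propext h1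
  refine ⟨e1 ▸ s1, e0 ▸ s0, ?_, ?_⟩
  · rw [e1, e0]
    have := key univ MeasurableSet.univ
    rwa [inter_univ, inter_univ] at this
  · rw [e1, e0]
    exact condExp_congr_event (posSigma_le h) s1 s0 key

end P148
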