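import Vale.Agent.P148.Props3
import Vale.Agent.P148.Sep

/-!
# P148: limits of crossings
-/

open MeasureTheory Set Metric Topology Filter ProbabilityTheory
open scoped ENNReal NNReal

namespace P148

/-- Y3. -/
theorem lim : LimStmt := by
  intro F A B hF hA hB hanti hconn
  by_contra hno
  have hBc : IsClosed (⋂ n, B n) := isClosed_iInter fun n => (hB n).isClosed
  obtain ⟨U, V, hU, hV, hUV, hF', hUA, hVB⟩ := sep F A (⋂ n, B n) hF hA hBc hno
  -- some `B n` misses `U`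
  have hUB : U ∩ ⋂ n, B n = ∅ := by
    rw [eq_empty_iff_forall_notMem]
    rintro x ⟨hx, hx'⟩
    exact Set.disjoint_left.1 hUV hx (hVB ⟨hF' ▸ Or.inl hx, hx'⟩)
  obtain ⟨n, hn⟩ := hU.elim_directed_family_closed B (fun n => (hB n).isClosed) hUB
    (directed_of_isDirected_le fun i j hij => hanti hij)
  obtain ⟨K, hKF, hKc, ⟨a, ha, ha'⟩, ⟨b, hb, hb'⟩⟩ := hconn n
  have hKUV : K ⊆ U ∪ V := by rw [hF']; exact hKF
  have hbV : b ∈ V := by
    rcases hKUV hb with h | h
    · exact absurd (show b ∈ U ∩ B n from ⟨h, hb'⟩) (fun hh => by rw [hn] at hh; exact hh)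
    · exact h
  have haU : a ∈ U := hUA ⟨hKF ha, ha'⟩
  obtain ⟨x, -, hx1, hx2⟩ := isPreconnected_closed_iff.1 hKc.isPreconnected U V hU.isClosed
    hV.isClosed hKUV ⟨a, ha, haU⟩ ⟨b, hb, hbV⟩
  exact Set.disjoint_left.1 hUV hx1 hx2

end P148
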