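import Vale.Agent.P148.Props3

/-!
# P148, row Y1: the dichotomy for all Jordan domains, in the disc model
-/

open MeasureTheory Set Metric Topology Filter ProbabilityTheory
open scoped ENNReal NNReal

namespace P148

universe u

theorem conn_image (G : ℂ ≃ₜ ℂ) (F A B : Set ℂ) :
    Conn (G '' F) (G '' A) (G '' B) ↔ Conn F A B := by
  have key : ∀ K : Set ℂ, (K ⊆ F ∧ IsConnected K ∧ (K ∩ A).Nonempty ∧ (K ∩ B).Nonempty) ↔
      (G '' K ⊆ G '' F ∧ IsConnected (G '' K) ∧ (G '' K ∩ G '' A).Nonempty ∧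
        (G '' K ∩ G '' B).Nonempty) := by
    intro K
    rw [image_subset_image_iff G.injective, G.isConnected_image, ← image_inter G.injective,
      image_nonempty, ← image_inter G.injective, image_nonempty]
  constructor
  · rintro ⟨K, h⟩
    refine ⟨G ⁻¹' K, (key (G ⁻¹' K)).2 ?_⟩
    rw [image_preimage_eq K G.surjective]
    exact h
  · rintro ⟨K, h⟩
    exact ⟨G '' K, (key K).1 h⟩

theorem image_Fb (G : ℂ ≃ₜ ℂ) (g : ℂ → ℝ) :
    G '' Fb (g ∘ G) = {z | g z ≤ 0} ∩ G '' closedBall 0 1 := by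
  ext z
  constructor
  · rintro ⟨w, ⟨h1, h2⟩, rfl⟩
    exact ⟨h1, mem_image_of_mem _ h2⟩
  · rintro ⟨h1, w, h2, rfl⟩
    exact ⟨w, ⟨h1, h2⟩, rfl⟩

theorem image_Fw (G : ℂ ≃ₜ ℂ) (g : ℂ → ℝ) :
    G '' Fw (g ∘ G) = {z | 0 ≤ g z} ∩ G '' closedBall 0 1 := by
  ext z
  constructor
  · rintro ⟨w, ⟨h1, h2⟩, rfl⟩
    exact ⟨h1, mem_image_of_mem _ h2⟩
  · rintro ⟨h1, w, h2, rfl⟩
    exact ⟨w, ⟨h1, h2⟩, rfl⟩

/-- **Y1**: the dichotomy in the disc model. -/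
theorem nb : NBStmt.{u} := by
  intro Ω _ P _ S lam hlam h G θ₀ θ₁ θ₂ θ₃ h01 h12 h23 h30
  obtain ⟨Q, hQ⟩ := discQuad 0 1 θ₀ θ₁ θ₂ θ₃ one_pos h01 h12 h23 h30
  let Q' : Quad := ⟨Q.H.trans G⟩
  have himg : ∀ A : Set ℂ, Q'.H '' A = G '' (Q.H '' A) := by
    intro A
    rw [image_image]
    rfl
  have hcl : closure Q'.D = G '' closedBall 0 1 := by
    have h1 : Q'.D = G '' Q.D := himg _
    rw [h1, hQ.disc, ← G.image_closure, closure_ball (0 : ℂ) one_ne_zero]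
  have a0 : Q'.arc 0 = G '' cArc 0 1 θ₀ θ₁ := by
    rw [← hQ.arc0]; exact himg _
  have a1 : Q'.arc 1 = G '' cArc 0 1 θ₁ θ₂ := by
    rw [← hQ.arc1]; exact himg _
  have a2 : Q'.arc 2 = G '' cArc 0 1 θ₂ θ₃ := by
    rw [← hQ.arc2]; exact himg _
  have a3 : Q'.arc 3 = G '' cArc 0 1 θ₃ (θ₀ + 2 * Real.pi) := by
    rw [← hQ.arc3]; exact himg _
  filter_upwards [ae_goodBd' kPoint2 colours2 hlam Q' h] with ω hω
  have hd := dichotomy (dual sep) notBoth tame Q' (S ω) hω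
  have e1 : S ω ∈ crossSet Q' 0 2 ↔
      Conn (Fb (gap (S ω) ∘ G)) (cArc 0 1 θ₀ θ₁) (cArc 0 1 θ₂ θ₃) := by
    rw [← conn_image G, image_Fb, ← hcl, ← a0, ← a2]
    exact Iff.rfl
  have e2 : flip (S ω) ∈ crossSet Q' 1 3 ↔
      Conn (Fw (gap (S ω) ∘ G)) (cArc 0 1 θ₁ θ₂) (cArc 0 1 θ₃ (θ₀ + 2 * Real.pi)) := by
    have hfl : {z | gap (flip (S ω)) z ≤ 0} = {z | 0 ≤ gap (S ω) z} := by
      ext z
      simp only [mem_ofPred_eq, gap_flip, Left.neg_nonpos_iff]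
    rw [← conn_image G, image_Fw, ← hcl, ← a1, ← a3, ← hfl]
    exact Iff.rfl
  rw [← e1, ← e2]
  exact hd

end P148
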