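import Vale.Agent.P148.TFin
import Vale.Agent.P148.DFkg
import Vale.Agent.P148.Harris
import Vale.Agent.P148.Appr

/-!
# P148: the three arc theorem, final form
-/

open MeasureTheory Set Metric Topology Filter ProbabilityTheory
open scoped ENNReal NNReal

namespace P148

universe u

section prob

variable {Ω : Type u} [MeasurableSpace Ω] {P : Measure Ω} [IsProbabilityMeasure P]
  {S : Ω → Set Pt} {lam : ℝ≥0}

theorem all_iff (hM : MeetStmt) (Q : Quad) (T : Set Pt) :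
    Q.Touch [Q.arc 0, Q.arc 1, Q.arc 2, Q.arc 3] {z | gap T z ≤ 0} ↔
      T ∈ CE Q.G 0 2 ∩ CE Q.G 1 3 := by
  have hpi := Real.pi_pos
  rw [arc_eq, arc_eq, arc_eq, arc_eq, touch4]
  constructor
  · rintro ⟨K, h1, h2, h3, h4, h5, h6⟩
    exact ⟨⟨K, h1, h2, h3, h5⟩, ⟨K, h1, h2, h4, h6⟩⟩
  · rintro ⟨h1, h2⟩
    have h2' : Conn (Fb (gap T ∘ Q.G)) (cArc 0 1 (-(Real.pi / 4)) (Real.pi / 4))
        (cArc 0 1 (3 * Real.pi / 4) (-(3 * Real.pi / 4) + 2 * Real.pi)) := by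
      rw [← mArc3]; exact h2
    obtain ⟨K, k1, k2, k3, k4, k5, k6⟩ := all_of_cross hM
      (isCompact_Fb ((continuous_gap T).comp Q.G.continuous)) inter_subset_right
      (by linarith) (by linarith) (by linarith) (by linarith) h1 h2'
    rw [← mArc3] at k6
    exact ⟨K, k1, k2, k3, k4, k5, k6⟩

theorem three_arcs (hT : TriStmt.{u}) (hM : MeetStmt) (hF : FKGStmt.{u}) (hA : ApprStmt)
    (hlam : 0 < lam) (h : IsColouredPoisson P S lam) (Q : Quad) :
    (∀ᵐ ω ∂P, Q.Touch [Q.arc 0, Q.arc 1, Q.arc 2 ∪ Q.arc 3] (blackRegion (S ω)) ↔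
      ¬ Q.Touch [Q.arc 0, Q.arc 1, Q.arc 2 ∪ Q.arc 3] (whiteRegion (S ω))) ∧
    NullMeasurableSet {ω | Q.Touch [Q.arc 0, Q.arc 1, Q.arc 2 ∪ Q.arc 3] (blackRegion (S ω))} P ∧
    P {ω | Q.Touch [Q.arc 0, Q.arc 1, Q.arc 2 ∪ Q.arc 3] (blackRegion (S ω))} = 1 / 2 ∧
    (∀ᵐ ω ∂P, (P[{ω | Q.Touch [Q.arc 0, Q.arc 1, Q.arc 2 ∪ Q.arc 3]
      (blackRegion (S ω))}.indicator (fun _ => (1 : ℝ)) | posSigma S]) ω = 1 / 2) ∧
    (∀ i : Fin 4, NullMeasurableSet {ω | Q.Touch [Q.arc i, Q.arc (i + 1), Q.arc (i + 2)]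
      (blackRegion (S ω))} P) ∧
    (∀ i : Fin 4, P {ω | Q.Touch [Q.arc i, Q.arc (i + 1), Q.arc (i + 2)] (blackRegion (S ω))} =
      P {ω | Q.Touch [Q.arc (i + 2), Q.arc (i + 3), Q.arc i] (blackRegion (S ω))}) ∧
    P {ω | Q.Touch [Q.arc 0, Q.arc 1, Q.arc 2] (blackRegion (S ω))} +
      P {ω | Q.Touch [Q.arc 1, Q.arc 2, Q.arc 3] (blackRegion (S ω))} =
        1 / 2 + P {ω | Q.Touch [Q.arc 0, Q.arc 1, Q.arc 2, Q.arc 3] (blackRegion (S ω))} ∧
    (∀ᵐ ω ∂P,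
      (P[{ω | Q.Touch [Q.arc 0, Q.arc 1, Q.arc 2] (blackRegion (S ω))}.indicator
        (fun _ => (1 : ℝ)) | posSigma S]) ω =
      (P[{ω | Q.Touch [Q.arc 2, Q.arc 3, Q.arc 0] (blackRegion (S ω))}.indicator
        (fun _ => (1 : ℝ)) | posSigma S]) ω ∧
      (P[{ω | Q.Touch [Q.arc 1, Q.arc 2, Q.arc 3] (blackRegion (S ω))}.indicator
        (fun _ => (1 : ℝ)) | posSigma S]) ω =
      (P[{ω | Q.Touch [Q.arc 3, Q.arc 0, Q.arc 1] (blackRegion (S ω))}.indicator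
        (fun _ => (1 : ℝ)) | posSigma S]) ω ∧
      (P[{ω | Q.Touch [Q.arc 0, Q.arc 1, Q.arc 2] (blackRegion (S ω))}.indicator
        (fun _ => (1 : ℝ)) | posSigma S]) ω +
      (P[{ω | Q.Touch [Q.arc 1, Q.arc 2, Q.arc 3] (blackRegion (S ω))}.indicator
        (fun _ => (1 : ℝ)) | posSigma S]) ω =
      1 / 2 + (P[{ω | Q.Touch [Q.arc 0, Q.arc 1, Q.arc 2, Q.arc 3]
        (blackRegion (S ω))}.indicator (fun _ => (1 : ℝ)) | posSigma S]) ω) ∧
    (∀ᵐ ω ∂P, Q.Touch [Q.arc 0, Q.arc 1, Q.arc 2, Q.arc 3] (blackRegion (S ω)) ↔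
      Q.Cross 0 2 (blackRegion (S ω)) ∧ Q.Cross 1 3 (blackRegion (S ω))) ∧
    P {ω | Q.Cross 0 2 (blackRegion (S ω))} * P {ω | Q.Cross 1 3 (blackRegion (S ω))} ≤
      P {ω | Q.Touch [Q.arc 0, Q.arc 1, Q.arc 2, Q.arc 3] (blackRegion (S ω))} := by
  have hpi := Real.pi_pos
  have i1 : -(3 * Real.pi / 4) < -(Real.pi / 4) := by linarith
  have i2 : -(Real.pi / 4) < Real.pi / 4 := by linarith
  have i3 : Real.pi / 4 < -(3 * Real.pi / 4) + 2 * Real.pi := by linarith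
  have hg := ae_goodBd' kPoint2 colours2 hlam Q h
  have hreg : ∀ᵐ ω ∂P, blackRegion (S ω) = {z | gap (S ω) z ≤ 0} ∧
      whiteRegion (S ω) = {z | gap (flip (S ω)) z ≤ 0} := by
    filter_upwards [hg] with ω hω
    exact ⟨region (S ω) hω.toGood, by rw [whiteRegion_eq, region (flip (S ω)) hω.toGood.flip]⟩
  obtain ⟨htm, hae⟩ := hT Ω P S lam hlam h Q.G _ _ _ i1 i2 i3
  have hmt := measurable_tri (P := P) (S := S) hT hlam h Q.G i1 i2 i3
  obtain ⟨⟨m0, m1, m2, m3⟩, ⟨w1, w2, w3⟩, hq⟩ := model_all (P := P) (S := S) hT hM hlam h Q.G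
  -- events
  have e0 : {ω | Q.Touch [Q.arc 0, Q.arc 1, Q.arc 2 ∪ Q.arc 3] (blackRegion (S ω))} =ᵐ[P]
      {ω | S ω ∈ triEv Q.G (-(3 * Real.pi / 4)) (-(Real.pi / 4)) (Real.pi / 4)} := by
    filter_upwards [hreg] with ω hω
    refine propext ?_
    change Q.Touch _ (blackRegion (S ω)) ↔ _
    rw [hω.1]
    exact tri0 Q (S ω)
  have ep : ∀ i j k : Fin 4, {ω | Q.Touch [Q.arc i, Q.arc j, Q.arc k] (blackRegion (S ω))} =ᵐ[P]
      {ω | S ω ∈ PE Q.G i j k} := by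
    intro i j k
    filter_upwards [hreg] with ω hω
    refine propext ?_
    change Q.Touch _ (blackRegion (S ω)) ↔ _
    rw [hω.1, arc_eq, arc_eq, arc_eq]
    exact touch3 Q (S ω) _ _ _
  have ea : {ω | Q.Touch [Q.arc 0, Q.arc 1, Q.arc 2, Q.arc 3] (blackRegion (S ω))} =ᵐ[P]
      {ω | S ω ∈ CE Q.G 0 2 ∩ CE Q.G 1 3} := by
    filter_upwards [hreg] with ω hω
    refine propext ?_
    change Q.Touch _ (blackRegion (S ω)) ↔ _
    rw [hω.1]
    exact all_iff hM Q (S ω)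
  have ec : ∀ i j : Fin 4, {ω | Q.Cross i j (blackRegion (S ω))} =ᵐ[P]
      {ω | S ω ∈ CE Q.G i j} := by
    intro i j
    filter_upwards [hreg] with ω hω
    refine propext ?_
    change Q.Cross i j (blackRegion (S ω)) ↔ _
    rw [hω.1]
    exact cross2 Q (S ω) i j
  have hcond : ∀ {A B : Set Ω}, A =ᵐ[P] B →
      P[A.indicator (fun _ => (1 : ℝ)) | posSigma S] =ᵐ[P]
        P[B.indicator (fun _ => (1 : ℝ)) | posSigma S] := by
    intro A B hAB
    exact condExp_congr_ae (indicator_ae_eq_of_ae_eq_set hAB)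
  have hp0 := ep 0 1 2
  have hp1 := ep 1 2 3
  have hp2 := ep 2 3 0
  have hp3 := ep 3 0 1
  refine ⟨?_, hmt.nullMeasurableSet.congr e0.symm, ?_, ?_, ?_, ?_, ?_, ?_, ?_, ?_⟩
  · filter_upwards [hreg, hae] with ω hω hω2
    rw [hω.1, hω.2, tri0, tri0]
    exact hω2
  · rw [measure_congr e0]
    exact tri_half hT hlam h Q.G i1 i2 i3
  · filter_upwards [hcond e0, tri_quenched hT hlam h Q.G i1 i2 i3] with ω a1 a2
    rw [a1, a2]
  · intro i
    fin_cases i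
    · exact m0.nullMeasurableSet.congr hp0.symm
    · exact m1.nullMeasurableSet.congr hp1.symm
    · exact m2.nullMeasurableSet.congr hp2.symm
    · exact m3.nullMeasurableSet.congr hp3.symm
  · intro i
    fin_cases i
    · change P {ω | Q.Touch [Q.arc 0, Q.arc 1, Q.arc 2] (blackRegion (S ω))} =
        P {ω | Q.Touch [Q.arc 2, Q.arc 3, Q.arc 0] (blackRegion (S ω))}
      rw [measure_congr hp0, measure_congr hp2]; exact w1
    · change P {ω | Q.Touch [Q.arc 1, Q.arc 2, Q.arc 3] (blackRegion (S ω))} =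
        P {ω | Q.Touch [Q.arc 3, Q.arc 0, Q.arc 1] (blackRegion (S ω))}
      rw [measure_congr hp1, measure_congr hp3]; exact w2
    · change P {ω | Q.Touch [Q.arc 2, Q.arc 3, Q.arc 0] (blackRegion (S ω))} =
        P {ω | Q.Touch [Q.arc 0, Q.arc 1, Q.arc 2] (blackRegion (S ω))}
      rw [measure_congr hp0, measure_congr hp2]; exact w1.symm
    · change P {ω | Q.Touch [Q.arc 3, Q.arc 0, Q.arc 1] (blackRegion (S ω))} =
        P {ω | Q.Touch [Q.arc 1, Q.arc 2, Q.arc 3] (blackRegion (S ω))}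
      rw [measure_congr hp1, measure_congr hp3]; exact w2.symm
  · rw [measure_congr hp0, measure_congr hp1, measure_congr ea]
    exact w3
  · filter_upwards [hcond hp0, hcond hp1, hcond hp2, hcond hp3, hcond ea, hq] with
      ω a0 a1 a2 a3 a4 a5
    rw [a0, a1, a2, a3, a4]
    exact a5
  · filter_upwards [hreg] with ω hω
    rw [hω.1, all_iff hM Q (S ω), cross2, cross2]
    exact Iff.rfl
  · rw [measure_congr (ec 0 2), measure_congr (ec 1 3), measure_congr ea]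
    have hX : ∀ i j : Fin 4, CE Q.G i j = crossEv (closure Q.D) (Q.arc i) (Q.arc j) := by
      intro i j
      ext T
      exact (cross2 Q T i j).symm
    have hmX : ∀ i j : Fin 4, MeasurableSet[voidSigma] (CE Q.G i j) := by
      intro i j
      rw [hX]
      exact measurable_crossSet measCross Q i j
    have hAX : ∀ i j : Fin 4, Appr (CE Q.G i j) := by
      intro i j
      rw [hX]
      exact hA _ _ _ Q.isCompact_closure_D (Q.isCompact_arc i) (Q.isCompact_arc j)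
        (Q.arc_subset i) (Q.arc_subset j)
    exact hF Ω P S lam hlam h _ _ (hmX 0 2) (hmX 1 3) (hAX 0 2) (hAX 1 3)

end prob

end P148
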