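import Vale.Agent.P148.Props4
import Vale.Agent.P148.DSymm

/-!
# P148, row Z4: `2n` equal arcs of a disc
-/

open MeasureTheory Set Metric Topology Filter ProbabilityTheory
open scoped ENNReal NNReal

namespace P148

universe u

namespace TReg

/-- The number of classes is a measurable function of the configuration. -/
theorem measurable_blocks (G : ℂ ≃ₜ ℂ) (t : ℕ → ℝ) (n c : ℕ) :
    Measurable[voidSigma] fun T : Set Pt => blocks (Fb (gap T ∘ G)) t n c := by
  have h2 : Measurable fun r : Fin n → Fin n → Prop => Nat.card (Quot r) :=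
    measurable_of_countable _
  have h1 : Measurable[voidSigma] fun T : Set Pt => fun i j : Fin n =>
      Conn (Fb (gap T ∘ G)) (mArc t (2 * i + c)) (mArc t (2 * j + c)) := by
    let _ : MeasurableSpace (Set Pt) := voidSigma
    refine measurable_pi_lambda _ fun i => measurable_pi_lambda _ fun j => ?_
    exact measurableSet_setOfPred.1 (measurable_conn G _ _ _ _)
  let _ : MeasurableSpace (Set Pt) := voidSigma
  exact h2.comp h1

/-- The marks of the regular `2n`-gon. -/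
theorem marks_regular (θ : ℝ) {n : ℕ} (hn : 1 ≤ n) :
    Marks n fun i => θ + i * (Real.pi / n) := by
  have hn' : (0 : ℝ) < n := by exact_mod_cast hn
  constructor
  · intro i j hij _
    have h1 : (i : ℝ) < j := by exact_mod_cast hij
    have h2 : 0 < Real.pi / n := div_pos Real.pi_pos hn'
    have := mul_lt_mul_of_pos_right h1 h2
    simpa using this
  · push_cast
    field_simp
    ring

/-- Rotations about the centre in the disc model. -/
theorem model_rot {G : ℂ ≃ₜ ℂ} {z₀ : ℂ} {R : ℝ} (hG : IsDiscMap G z₀ R) (ψ : ℝ) :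
    ∃ (σ ρ : ℂ ≃ᵢ ℂ), (∀ z, G (ρ z) = σ (G z)) ∧ ρ '' closedBall 0 1 = closedBall 0 1 ∧
      ∀ s t : ℝ, ρ '' cArc 0 1 s t = cArc 0 1 (s + ψ) (t + ψ) := by
  obtain ⟨σ, -, hσ⟩ := exists_rot z₀ ψ
  obtain ⟨ρ, h0, hρ⟩ := exists_rot 0 ψ
  refine ⟨σ, ρ, ?_, fixes_ball h0 1, ?_⟩
  · intro z
    have hz : z = 0 + ((‖z‖ : ℝ) : ℂ) * Complex.exp ((z.arg : ℂ) * Complex.I) := by
      rw [zero_add, Complex.norm_mul_exp_arg_mul_I]
    have e1 : G z = z₀ + ((R * ‖z‖ : ℝ) : ℂ) * Complex.exp ((z.arg : ℂ) * Complex.I) := by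
      rw [hG z]
      conv_lhs => rw [hz]
      push_cast
      ring
    have e2 : ρ z = 0 + ((‖z‖ : ℝ) : ℂ) * Complex.exp (((z.arg + ψ : ℝ) : ℂ) * Complex.I) := by
      conv_lhs => rw [hz]
      exact hρ _ _
    rw [e1, hσ, hG, e2]
    push_cast
    ring
  · intro s t
    have him : (fun x : ℝ => x + ψ) '' Icc s t = Icc (s + ψ) (t + ψ) := by
      rw [image_add_const_Icc]
    exact image_cArc_of ρ (fun x => x + ψ) (fun a => hρ 1 a) him

/-- The rotated configuration exchanges the even and the odd arcs. -/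
theorem blocks_rot {G : ℂ ≃ₜ ℂ} {σ ρ : ℂ ≃ᵢ ℂ} (h1 : ∀ z, G (ρ z) = σ (G z))
    (h2 : ρ '' closedBall 0 1 = closedBall 0 1) {t : ℕ → ℝ}
    (h3 : ∀ i, ρ '' mArc t i = mArc t (i + 1)) (T : Set Pt) (n : ℕ) :
    blocks (Fb (gap (Prod.map σ (Equiv.refl Bool) '' T) ∘ G)) t n 1 =
      blocks (Fb (gap T ∘ G)) t n 0 := by
  have hF : Fb (gap (Prod.map σ (Equiv.refl Bool) '' T) ∘ G) = ρ '' Fb (gap T ∘ G) := by
    ext z
    constructor
    · rintro ⟨a, b⟩
      rw [← h2] at b
      obtain ⟨w, hw, rfl⟩ := b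
      refine ⟨w, ⟨?_, hw⟩, rfl⟩
      rw [mem_ofPred_eq, Function.comp_apply, h1, gap_isometry] at a
      exact a
    · rintro ⟨w, ⟨a, b⟩, rfl⟩
      refine ⟨?_, h2 ▸ mem_image_of_mem _ b⟩
      rw [mem_ofPred_eq, Function.comp_apply, h1, gap_isometry]
      exact a
  unfold blocks
  congr 1
  have hr : ∀ i j : Fin n, Conn (Fb (gap (Prod.map σ (Equiv.refl Bool) '' T) ∘ G))
      (mArc t (2 * i + 1)) (mArc t (2 * j + 1)) =
      Conn (Fb (gap T ∘ G)) (mArc t (2 * i + 0)) (mArc t (2 * j + 0)) := by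
    intro i j
    rw [hF, ← h3, ← h3, Nat.add_zero, Nat.add_zero]
    exact propext (conn_image ρ.toHomeomorph _ _ _)
  simp only [hr]

end TReg

open TReg

/-- **Z4**. -/
theorem regular (h : BlockStmt.{u}) : RegularStmt.{u} := by
  intro Ω _ P _ S lam hlam hS G z₀ R θ hR hG n hn
  have hn' : (0 : ℝ) < n := by exact_mod_cast hn
  set t : ℕ → ℝ := fun i => θ + i * (Real.pi / n) with ht
  obtain ⟨-, hsum⟩ := h Ω P S lam hlam hS G n t hn (marks_regular θ hn)
  obtain ⟨σ, ρ, h1, h2, h3⟩ := model_rot hG (Real.pi / n)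
  have h3' : ∀ i, ρ '' mArc t i = mArc t (i + 1) := by
    intro i
    unfold mArc
    rw [h3]
    congr 1 <;> simp only [ht] <;> push_cast <;> ring
  have hm := measurable_blocks G t n 1
  have m1 : Measurable fun ω => blocks (Fb (gap (S ω) ∘ G)) t n 1 := fun A hA =>
    (inv Ω P S lam hS σ (Equiv.refl Bool) _ (hm hA)).1
  have m2 : Measurable fun ω =>
      blocks (Fb (gap (Prod.map σ (Equiv.refl Bool) '' S ω) ∘ G)) t n 1 := fun A hA =>
    (inv Ω P S lam hS σ (Equiv.refl Bool) _ (hm hA)).2.1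
  have hlaw : P.map (fun ω => blocks (Fb (gap (Prod.map σ (Equiv.refl Bool) '' S ω) ∘ G)) t n 1) =
      P.map fun ω => blocks (Fb (gap (S ω) ∘ G)) t n 1 := by
    ext A hA
    rw [Measure.map_apply m1 hA, Measure.map_apply m2 hA]
    exact (inv Ω P S lam hS σ (Equiv.refl Bool) _ (hm hA)).2.2
  have hint : ∫ ω, (blocks (Fb (gap (S ω) ∘ G)) t n 1 : ℝ) ∂P =
      ∫ ω, (blocks (Fb (gap (S ω) ∘ G)) t n 0 : ℝ) ∂P := by
    have a1 : ∫ ω, (blocks (Fb (gap (S ω) ∘ G)) t n 1 : ℝ) ∂P =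
        ∫ k, (k : ℝ) ∂(P.map fun ω => blocks (Fb (gap (S ω) ∘ G)) t n 1) :=
      (integral_map m1.aemeasurable (measurable_of_countable _).aestronglyMeasurable).symm
    rw [a1, ← hlaw, integral_map m2.aemeasurable
      (measurable_of_countable _).aestronglyMeasurable]
    refine integral_congr_ae (Eventually.of_forall fun ω => ?_)
    simp only [blocks_rot h1 h2 h3']
  rw [hint] at hsum
  linarith

end P148
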