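import Vale.Agent.P148.Props4

/-!
# P148, row Z3: six arcs
-/

open MeasureTheory Set Metric Topology Filter ProbabilityTheory
open scoped ENNReal NNReal

namespace P148

universe u

namespace TSix

/-- The number of classes from a complete invariant. -/
theorem card_quot {α β : Type} (r : α → α → Prop) (f : α → β) (hf : Function.Surjective f)
    (h1 : ∀ i j, r i j → f i = f j) (h2 : ∀ i j, f i = f j → Quot.mk r i = Quot.mk r j) :
    Nat.card (Quot r) = Nat.card β := by
  refine Nat.card_congr (Equiv.ofBijective (Quot.lift f h1) ⟨?_, ?_⟩)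
  · rintro ⟨i⟩ ⟨j⟩ h
    exact h2 i j h
  · intro b
    obtain ⟨a, rfl⟩ := hf b
    exact ⟨Quot.mk _ a, rfl⟩

theorem forall3 {p : Fin 3 → Fin 3 → Prop} (h00 : p 0 0) (h11 : p 1 1) (h22 : p 2 2)
    (h01 : p 0 1) (h10 : p 1 0) (h12 : p 1 2) (h21 : p 2 1) (h20 : p 2 0) (h02 : p 0 2) :
    ∀ i j, p i j := fun i j =>
  match i, j with
  | 0, 0 => h00
  | 1, 1 => h11
  | 2, 2 => h22
  | 0, 1 => h01
  | 1, 0 => h10
  | 1, 2 => h12
  | 2, 1 => h21
  | 2, 0 => h20
  | 0, 2 => h02

section

variable {r : Fin 3 → Fin 3 → Prop}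

theorem card1 (e1 : Quot.mk r 0 = Quot.mk r 1) (e2 : Quot.mk r 1 = Quot.mk r 2) :
    Nat.card (Quot r) = 1 := by
  rw [card_quot r (fun _ => (0 : Fin 1)) (by decide) (fun _ _ _ => rfl)
    (forall3 (fun _ => rfl) (fun _ => rfl) (fun _ => rfl) (fun _ => e1) (fun _ => e1.symm)
      (fun _ => e2) (fun _ => e2.symm) (fun _ => (e1.trans e2).symm) (fun _ => e1.trans e2)),
    Nat.card_eq_fintype_card, Fintype.card_fin]

theorem card2 {x y : Fin 3} (f : Fin 3 → Fin 2) (hf : Function.Surjective f)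
    (h1 : ∀ i j, r i j → f i = f j) (hf' : ∀ i j, f i = f j → i = j ∨ (i = x ∧ j = y) ∨
      (i = y ∧ j = x)) (e : Quot.mk r x = Quot.mk r y) : Nat.card (Quot r) = 2 := by
  rw [card_quot r f hf h1 ?_, Nat.card_eq_fintype_card, Fintype.card_fin]
  intro i j h
  rcases hf' i j h with rfl | ⟨rfl, rfl⟩ | ⟨rfl, rfl⟩
  · rfl
  · exact e
  · exact e.symm

open Classical in
/-- The number of classes of a symmetric relation on three elements. -/
theorem card3 (hs : ∀ i j, r i j → r j i) :
    (Nat.card (Quot r) : ℝ) = 3 - (if r 0 1 then 1 else 0) - (if r 1 2 then 1 else 0) -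
      (if r 2 0 then 1 else 0) + (if r 0 1 ∧ r 1 2 ∧ r 2 0 then 1 else 0) := by
  have s1 : r 1 0 → r 0 1 := hs 1 0
  have s2 : r 2 1 → r 1 2 := hs 2 1
  have s3 : r 0 2 → r 2 0 := hs 0 2
  have q : ∀ i j, r i j → Quot.mk r i = Quot.mk r j := fun i j h => Quot.sound h
  by_cases a : r 0 1 <;> by_cases b : r 1 2 <;> by_cases d : r 2 0
  · rw [card1 (q _ _ a) (q _ _ b)]
    simp only [a, b, d, and_self, if_true]
    norm_num
  · rw [card1 (q _ _ a) (q _ _ b)]
    simp only [a, b, d, and_false, if_true, if_false]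
    norm_num
  · rw [card1 (q _ _ a) ((q _ _ a).symm.trans (q _ _ d).symm)]
    simp only [a, b, d, false_and, and_false, if_true, if_false]
    norm_num
  · rw [card2 (x := 0) (y := 1) ![0, 0, 1] (by decide)
      (forall3 (fun _ => rfl) (fun _ => rfl) (fun _ => rfl) (fun _ => rfl) (fun _ => rfl)
        (fun h => absurd h b) (fun h => absurd (s2 h) b) (fun h => absurd h d)
        (fun h => absurd (s3 h) d)) (by decide) (q _ _ a)]
    simp only [a, b, d, false_and, and_false, if_true, if_false]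
    norm_num
  · rw [card1 ((q _ _ d).symm.trans (q _ _ b).symm) (q _ _ b)]
    simp only [a, b, d, false_and, and_false, if_true, if_false]
    norm_num
  · rw [card2 (x := 1) (y := 2) ![0, 1, 1] (by decide)
      (forall3 (fun _ => rfl) (fun _ => rfl) (fun _ => rfl) (fun h => absurd h a)
        (fun h => absurd (s1 h) a) (fun _ => rfl) (fun _ => rfl) (fun h => absurd h d)
        (fun h => absurd (s3 h) d)) (by decide) (q _ _ b)]
    simp only [a, b, d, false_and, and_false, if_true, if_false]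
    norm_num
  · rw [card2 (x := 2) (y := 0) ![0, 1, 0] (by decide)
      (forall3 (fun _ => rfl) (fun _ => rfl) (fun _ => rfl) (fun h => absurd h a)
        (fun h => absurd (s1 h) a) (fun h => absurd h b) (fun h => absurd (s2 h) b)
        (fun _ => rfl) (fun _ => rfl)) (by decide) (q _ _ d)]
    simp only [a, b, d, false_and, and_false, if_true, if_false]
    norm_num
  · rw [card_quot r (id : Fin 3 → Fin 3) Function.surjective_id
      (forall3 (fun _ => rfl) (fun _ => rfl) (fun _ => rfl) (fun h => absurd h a)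
        (fun h => absurd (s1 h) a) (fun h => absurd h b) (fun h => absurd (s2 h) b)
        (fun h => absurd h d) (fun h => absurd (s3 h) d)) (fun i j h => by rw [show i = j from h]),
      Nat.card_eq_fintype_card, Fintype.card_fin]
    simp only [a, b, d, false_and, if_false]
    norm_num

end

/-- The mean number of classes of three arcs. -/
theorem integral3 {Ω : Type u} [MeasurableSpace Ω] {P : Measure Ω} [IsProbabilityMeasure P]
    {S : Ω → Set Pt} {lam : ℝ≥0} (h : IsColouredPoisson P S lam) (G : ℂ ≃ₜ ℂ) (t : ℕ → ℝ)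
    (c : ℕ) : ∫ ω, (blocks (Fb (gap (S ω) ∘ G)) t 3 c : ℝ) ∂P =
      3 - (P {ω | S ω ∈ arcEv G t (2 * 0 + c) (2 * 1 + c)}).toReal -
      (P {ω | S ω ∈ arcEv G t (2 * 1 + c) (2 * 2 + c)}).toReal -
      (P {ω | S ω ∈ arcEv G t (2 * 2 + c) (2 * 0 + c)}).toReal +
      (P {ω | S ω ∈ arcEv G t (2 * 0 + c) (2 * 1 + c) ∩ arcEv G t (2 * 1 + c) (2 * 2 + c) ∩
        arcEv G t (2 * 2 + c) (2 * 0 + c)}).toReal := by
  classical
  have hm : ∀ i j : ℕ, MeasurableSet {ω | S ω ∈ arcEv G t i j} := fun i j =>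
    (inv Ω P S lam h (IsometryEquiv.refl ℂ) (Equiv.refl Bool) _ (measurable_conn G _ _ _ _)).1
  set A := {ω | S ω ∈ arcEv G t (2 * 0 + c) (2 * 1 + c)} with hA
  set B := {ω | S ω ∈ arcEv G t (2 * 1 + c) (2 * 2 + c)} with hB
  set D := {ω | S ω ∈ arcEv G t (2 * 2 + c) (2 * 0 + c)} with hD
  have mA : MeasurableSet A := hm _ _
  have mB : MeasurableSet B := hm _ _
  have mD : MeasurableSet D := hm _ _
  have hE : {ω | S ω ∈ arcEv G t (2 * 0 + c) (2 * 1 + c) ∩ arcEv G t (2 * 1 + c) (2 * 2 + c) ∩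
      arcEv G t (2 * 2 + c) (2 * 0 + c)} = A ∩ B ∩ D := rfl
  rw [hE]
  have hpt : ∀ ω, (blocks (Fb (gap (S ω) ∘ G)) t 3 c : ℝ) =
      3 - A.indicator (1 : Ω → ℝ) ω - B.indicator (1 : Ω → ℝ) ω - D.indicator (1 : Ω → ℝ) ω +
        (A ∩ B ∩ D).indicator (1 : Ω → ℝ) ω := by
    intro ω
    unfold blocks
    rw [card3 (fun i j hc => Conn.comm hc)]
    simp only [indicator, Pi.one_apply, mem_inter_iff, and_assoc]
    rfl
  have i1 : ∀ E : Set Ω, MeasurableSet E → Integrable (E.indicator (1 : Ω → ℝ)) P := fun E hE =>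
    (integrable_const (1 : ℝ)).indicator hE
  have iE : MeasurableSet (A ∩ B ∩ D) := (mA.inter mB).inter mD
  have hfun : (fun ω => (blocks (Fb (gap (S ω) ∘ G)) t 3 c : ℝ)) =
      ((fun _ => (3 : ℝ)) - A.indicator 1 - B.indicator 1 - D.indicator 1) +
        (A ∩ B ∩ D).indicator 1 := funext hpt
  have i0 : Integrable (fun _ : Ω => (3 : ℝ)) P := integrable_const _
  rw [hfun, integral_add' (((i0.sub (i1 A mA)).sub (i1 B mB)).sub (i1 D mD)) (i1 _ iE),
    integral_sub' ((i0.sub (i1 A mA)).sub (i1 B mB)) (i1 D mD),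
    integral_sub' (i0.sub (i1 A mA)) (i1 B mB),
    integral_sub' i0 (i1 A mA), integral_indicator_one mA,
    integral_indicator_one mB, integral_indicator_one mD, integral_indicator_one iE]
  simp [Measure.real]

end TSix

open TSix

/-- **Z3**. -/
theorem six (h : BlockStmt.{u}) : SixStmt.{u} := by
  intro Ω _ P _ S lam hlam hS G t ht
  obtain ⟨-, hsum⟩ := h Ω P S lam hlam hS G 3 t (by norm_num) ht
  rw [integral3 hS G t 0, integral3 hS G t 1] at hsum
  norm_num at hsum ⊢
  linarith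

end P148
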