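import Vale.Agent.P148.THalf

/-!
# P148: tripods and the event of Watts, in the disc model
-/

open MeasureTheory Set Metric Topology Filter ProbabilityTheory
open scoped ENNReal NNReal

namespace P148

universe u

theorem Conn3.mono {F A B C A' B' C' : Set ℂ} (h : Conn3 F A B C) (hA : A ⊆ A') (hB : B ⊆ B')
    (hC : C ⊆ C') : Conn3 F A' B' C' := by
  obtain ⟨K, h1, h2, h3, h4, h5⟩ := h
  exact ⟨K, h1, h2, h3.mono (inter_subset_inter_right _ hA),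
    h4.mono (inter_subset_inter_right _ hB), h5.mono (inter_subset_inter_right _ hC)⟩

/-- Black connections between two pairs of opposite arcs meet. -/
theorem all_of_cross (hM : MeetStmt) {F : Set ℂ} (hF : IsCompact F) (hFb : F ⊆ closedBall 0 1)
    {θ₀ θ₁ θ₂ θ₃ : ℝ} (h01 : θ₀ < θ₁) (h12 : θ₁ < θ₂) (h23 : θ₂ < θ₃)
    (h30 : θ₃ < θ₀ + 2 * Real.pi) (hK : Conn F (cArc 0 1 θ₀ θ₁) (cArc 0 1 θ₂ θ₃))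
    (hL : Conn F (cArc 0 1 θ₁ θ₂) (cArc 0 1 θ₃ (θ₀ + 2 * Real.pi))) :
    ∃ K ⊆ F, IsConnected K ∧ (K ∩ cArc 0 1 θ₀ θ₁).Nonempty ∧ (K ∩ cArc 0 1 θ₁ θ₂).Nonempty ∧
      (K ∩ cArc 0 1 θ₂ θ₃).Nonempty ∧ (K ∩ cArc 0 1 θ₃ (θ₀ + 2 * Real.pi)).Nonempty := by
  obtain ⟨K, k1, k2, k3, k4, k5⟩ := hK.cpt hF
  obtain ⟨L, l1, l2, l3, l4, l5⟩ := hL.cpt hF
  have hn := hM θ₀ θ₁ θ₂ θ₃ h01 h12 h23 h30 K L k2 l2 (k1.trans hFb) (l1.trans hFb) k3 l3 k4 k5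
    l4 l5
  exact ⟨K ∪ L, union_subset k1 l1, IsConnected.union hn k3 l3,
    k4.mono (inter_subset_inter_left _ subset_union_left),
    l4.mono (inter_subset_inter_left _ subset_union_right),
    k5.mono (inter_subset_inter_left _ subset_union_left),
    l5.mono (inter_subset_inter_left _ subset_union_right)⟩

section det

variable (hM : MeetStmt) {F : Set ℂ} (hF : IsCompact F) (hFb : F ⊆ closedBall 0 1)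
    {θ₀ θ₁ θ₂ θ₃ : ℝ} (h01 : θ₀ < θ₁) (h12 : θ₁ < θ₂) (h23 : θ₂ < θ₃)
    (h30 : θ₃ < θ₀ + 2 * Real.pi)

include hM hF hFb h01 h12 h23 h30

theorem tripod_iff : Conn3 F (cArc 0 1 θ₀ θ₁) (cArc 0 1 θ₁ θ₂) (cArc 0 1 θ₂ θ₃) ↔
    Conn3 F (cArc 0 1 θ₀ θ₁) (cArc 0 1 θ₁ θ₂) (cArc 0 1 θ₂ (θ₀ + 2 * Real.pi)) ∧
      Conn F (cArc 0 1 θ₀ θ₁) (cArc 0 1 θ₂ θ₃) := by
  constructor
  · intro h
    refine ⟨h.mono subset_rfl subset_rfl (cArc_mono le_rfl h30.le), ?_⟩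
    obtain ⟨K, h1, h2, h3, h4, h5⟩ := h
    exact ⟨K, h1, h2, h3, h5⟩
  · rintro ⟨⟨K, h1, h2, h3, h4, h5⟩, hc⟩
    rcases meets_union θ₃ h5 with h | h
    · exact ⟨K, h1, h2, h3, h4, h⟩
    · obtain ⟨L, l1, l2, l3, l4, l5, -⟩ := all_of_cross hM hF hFb h01 h12 h23 h30 hc
        ⟨K, h1, h2, h4, h⟩
      exact ⟨L, l1, l2, l3, l4, l5⟩

theorem tripod_iff' : Conn3 F (cArc 0 1 θ₀ θ₁) (cArc 0 1 θ₁ θ₂)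
      (cArc 0 1 θ₃ (θ₀ + 2 * Real.pi)) ↔
    Conn3 F (cArc 0 1 θ₀ θ₁) (cArc 0 1 θ₁ θ₂) (cArc 0 1 θ₂ (θ₀ + 2 * Real.pi)) ∧
      Conn F (cArc 0 1 θ₁ θ₂) (cArc 0 1 θ₃ (θ₀ + 2 * Real.pi)) := by
  constructor
  · intro h
    refine ⟨h.mono subset_rfl subset_rfl (cArc_mono h23.le le_rfl), ?_⟩
    obtain ⟨K, h1, h2, h3, h4, h5⟩ := h
    exact ⟨K, h1, h2, h4, h5⟩
  · rintro ⟨⟨K, h1, h2, h3, h4, h5⟩, hc⟩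
    rcases meets_union θ₃ h5 with h | h
    · obtain ⟨L, l1, l2, l3, l4, l5, l6⟩ := all_of_cross hM hF hFb h01 h12 h23 h30
        ⟨K, h1, h2, h3, h⟩ hc
      exact ⟨L, l1, l2, l3, l4, l6⟩
    · exact ⟨K, h1, h2, h3, h4, h⟩

theorem tri_or : Conn3 F (cArc 0 1 θ₀ θ₁) (cArc 0 1 θ₁ θ₂) (cArc 0 1 θ₂ (θ₀ + 2 * Real.pi)) ↔
    Conn3 F (cArc 0 1 θ₀ θ₁) (cArc 0 1 θ₁ θ₂) (cArc 0 1 θ₂ θ₃) ∨
      Conn3 F (cArc 0 1 θ₀ θ₁) (cArc 0 1 θ₁ θ₂) (cArc 0 1 θ₃ (θ₀ + 2 * Real.pi)) := by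
  constructor
  · rintro ⟨K, h1, h2, h3, h4, h5⟩
    rcases meets_union θ₃ h5 with h | h
    · exact Or.inl ⟨K, h1, h2, h3, h4, h⟩
    · exact Or.inr ⟨K, h1, h2, h3, h4, h⟩
  · rintro (h | h)
    · exact h.mono subset_rfl subset_rfl (cArc_mono le_rfl h30.le)
    · exact h.mono subset_rfl subset_rfl (cArc_mono h23.le le_rfl)

theorem tri_and : (Conn3 F (cArc 0 1 θ₀ θ₁) (cArc 0 1 θ₁ θ₂) (cArc 0 1 θ₂ θ₃) ∧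
      Conn3 F (cArc 0 1 θ₀ θ₁) (cArc 0 1 θ₁ θ₂) (cArc 0 1 θ₃ (θ₀ + 2 * Real.pi))) ↔
    Conn F (cArc 0 1 θ₀ θ₁) (cArc 0 1 θ₂ θ₃) ∧
      Conn F (cArc 0 1 θ₁ θ₂) (cArc 0 1 θ₃ (θ₀ + 2 * Real.pi)) := by
  constructor
  · rintro ⟨⟨K, h1, h2, h3, h4, h5⟩, ⟨L, l1, l2, l3, l4, l5⟩⟩
    exact ⟨⟨K, h1, h2, h3, h5⟩, ⟨L, l1, l2, l4, l5⟩⟩
  · rintro ⟨h, h'⟩
    obtain ⟨L, l1, l2, l3, l4, l5, l6⟩ := all_of_cross hM hF hFb h01 h12 h23 h30 h h'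
    exact ⟨⟨L, l1, l2, l3, l4, l5⟩, ⟨L, l1, l2, l3, l4, l6⟩⟩

end det

/-- The tripod event. -/
def podEv (G : ℂ ≃ₜ ℂ) (s t u v w x : ℝ) : Set (Set Pt) :=
  {T | Conn3 (Fb (gap T ∘ G)) (cArc 0 1 s t) (cArc 0 1 u v) (cArc 0 1 w x)}

/-- The crossing event. -/
def crEv (G : ℂ ≃ₜ ℂ) (s t u v : ℝ) : Set (Set Pt) :=
  {T | Conn (Fb (gap T ∘ G)) (cArc 0 1 s t) (cArc 0 1 u v)}

section prob

variable {Ω : Type u} [MeasurableSpace Ω] {P : Measure Ω} [IsProbabilityMeasure P]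
  {S : Ω → Set Pt} {lam : ℝ≥0}

theorem measurable_crEv (h : IsColouredPoisson P S lam) (G : ℂ ≃ₜ ℂ) (s t u v : ℝ) :
    MeasurableSet {ω | S ω ∈ crEv G s t u v} :=
  (inv Ω P S lam h (IsometryEquiv.refl ℂ) (Equiv.refl Bool) _ (measurable_conn G s t u v)).1

theorem pod_sets (hM : MeetStmt) (G : ℂ ≃ₜ ℂ) {θ₀ θ₁ θ₂ θ₃ : ℝ} (h01 : θ₀ < θ₁) (h12 : θ₁ < θ₂)
    (h23 : θ₂ < θ₃) (h30 : θ₃ < θ₀ + 2 * Real.pi) :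
    podEv G θ₀ θ₁ θ₁ θ₂ θ₂ θ₃ = triEv G θ₀ θ₁ θ₂ ∩ crEv G θ₀ θ₁ θ₂ θ₃ ∧
    podEv G θ₀ θ₁ θ₁ θ₂ θ₃ (θ₀ + 2 * Real.pi) =
      triEv G θ₀ θ₁ θ₂ ∩ crEv G θ₁ θ₂ θ₃ (θ₀ + 2 * Real.pi) ∧
    podEv G θ₀ θ₁ θ₁ θ₂ θ₂ θ₃ ∪ podEv G θ₀ θ₁ θ₁ θ₂ θ₃ (θ₀ + 2 * Real.pi) = triEv G θ₀ θ₁ θ₂ ∧
    podEv G θ₀ θ₁ θ₁ θ₂ θ₂ θ₃ ∩ podEv G θ₀ θ₁ θ₁ θ₂ θ₃ (θ₀ + 2 * Real.pi) =
      crEv G θ₀ θ₁ θ₂ θ₃ ∩ crEv G θ₁ θ₂ θ₃ (θ₀ + 2 * Real.pi) := by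
  have hc : ∀ T : Set Pt, IsCompact (Fb (gap T ∘ G)) := fun T =>
    isCompact_Fb ((continuous_gap T).comp G.continuous)
  refine ⟨?_, ?_, ?_, ?_⟩
  · ext T
    exact tripod_iff hM (hc T) inter_subset_right h01 h12 h23 h30
  · ext T
    exact tripod_iff' hM (hc T) inter_subset_right h01 h12 h23 h30
  · ext T
    exact (tri_or hM (hc T) inter_subset_right h01 h12 h23 h30).symm
  · ext T
    exact tri_and hM (hc T) inter_subset_right h01 h12 h23 h30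

theorem measurable_pod (hT : TriStmt.{u}) (hM : MeetStmt) (hlam : 0 < lam)
    (h : IsColouredPoisson P S lam) (G : ℂ ≃ₜ ℂ) {θ₀ θ₁ θ₂ θ₃ : ℝ} (h01 : θ₀ < θ₁)
    (h12 : θ₁ < θ₂) (h23 : θ₂ < θ₃) (h30 : θ₃ < θ₀ + 2 * Real.pi) :
    MeasurableSet {ω | S ω ∈ podEv G θ₀ θ₁ θ₁ θ₂ θ₂ θ₃} ∧
      MeasurableSet {ω | S ω ∈ podEv G θ₀ θ₁ θ₁ θ₂ θ₃ (θ₀ + 2 * Real.pi)} := by
  obtain ⟨e1, e2, -, -⟩ := pod_sets hM G h01 h12 h23 h30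
  have hm := measurable_tri hT hlam h G h01 h12 (h23.trans h30)
  rw [e1, e2]
  exact ⟨hm.inter (measurable_crEv h G _ _ _ _), hm.inter (measurable_crEv h G _ _ _ _)⟩

/-- The identity, annealed. -/
theorem watts (hT : TriStmt.{u}) (hM : MeetStmt) (hlam : 0 < lam)
    (h : IsColouredPoisson P S lam) (G : ℂ ≃ₜ ℂ) {θ₀ θ₁ θ₂ θ₃ : ℝ} (h01 : θ₀ < θ₁)
    (h12 : θ₁ < θ₂) (h23 : θ₂ < θ₃) (h30 : θ₃ < θ₀ + 2 * Real.pi) :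
    P {ω | S ω ∈ podEv G θ₀ θ₁ θ₁ θ₂ θ₂ θ₃} +
      P {ω | S ω ∈ podEv G θ₀ θ₁ θ₁ θ₂ θ₃ (θ₀ + 2 * Real.pi)} =
    1 / 2 + P {ω | S ω ∈ crEv G θ₀ θ₁ θ₂ θ₃ ∩ crEv G θ₁ θ₂ θ₃ (θ₀ + 2 * Real.pi)} := by
  obtain ⟨-, -, e3, e4⟩ := pod_sets hM G h01 h12 h23 h30
  rw [← e4, ← tri_half hT hlam h G h01 h12 (h23.trans h30), ← e3]
  exact (measure_union_add_inter _ (measurable_pod hT hM hlam h G h01 h12 h23 h30).2).symm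

/-- The identity, quenched. -/
theorem watts_quenched (hT : TriStmt.{u}) (hM : MeetStmt) (hlam : 0 < lam)
    (h : IsColouredPoisson P S lam) (G : ℂ ≃ₜ ℂ) {θ₀ θ₁ θ₂ θ₃ : ℝ} (h01 : θ₀ < θ₁)
    (h12 : θ₁ < θ₂) (h23 : θ₂ < θ₃) (h30 : θ₃ < θ₀ + 2 * Real.pi) :
    ∀ᵐ ω ∂P, (P[{ω | S ω ∈ podEv G θ₀ θ₁ θ₁ θ₂ θ₂ θ₃}.indicator (fun _ => (1 : ℝ)) |
        posSigma S]) ω +
      (P[{ω | S ω ∈ podEv G θ₀ θ₁ θ₁ θ₂ θ₃ (θ₀ + 2 * Real.pi)}.indicator (fun _ => (1 : ℝ)) |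
        posSigma S]) ω =
      1 / 2 + (P[{ω | S ω ∈ crEv G θ₀ θ₁ θ₂ θ₃ ∩
        crEv G θ₁ θ₂ θ₃ (θ₀ + 2 * Real.pi)}.indicator (fun _ => (1 : ℝ)) | posSigma S]) ω := by
  obtain ⟨-, -, e3, e4⟩ := pod_sets hM G h01 h12 h23 h30
  obtain ⟨m1, m2⟩ := measurable_pod (P := P) (S := S) hT hM hlam h G h01 h12 h23 h30
  have mt := measurable_tri (P := P) (S := S) hT hlam h G h01 h12 (h23.trans h30)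
  have mw : MeasurableSet {ω | S ω ∈ crEv G θ₀ θ₁ θ₂ θ₃ ∩
      crEv G θ₁ θ₂ θ₃ (θ₀ + 2 * Real.pi)} :=
    (measurable_crEv h G _ _ _ _).inter (measurable_crEv h G _ _ _ _)
  have hi : ∀ {A : Set Ω}, MeasurableSet A → Integrable (A.indicator (fun _ => (1 : ℝ))) P :=
    fun hA => (integrable_const 1).indicator hA
  have hf : {ω | S ω ∈ podEv G θ₀ θ₁ θ₁ θ₂ θ₂ θ₃}.indicator (fun _ => (1 : ℝ)) +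
      {ω | S ω ∈ podEv G θ₀ θ₁ θ₁ θ₂ θ₃ (θ₀ + 2 * Real.pi)}.indicator (fun _ => (1 : ℝ)) =
      {ω | S ω ∈ triEv G θ₀ θ₁ θ₂}.indicator (fun _ => (1 : ℝ)) +
        {ω | S ω ∈ crEv G θ₀ θ₁ θ₂ θ₃ ∩
          crEv G θ₁ θ₂ θ₃ (θ₀ + 2 * Real.pi)}.indicator (fun _ => (1 : ℝ)) := by
    rw [← e3, ← e4]
    exact (indicator_union_add_inter _ _ _).symm
  have c1 := condExp_add (hi m1) (hi m2) (posSigma S)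
  have c2 := condExp_add (hi mt) (hi mw) (posSigma S)
  rw [hf] at c1
  filter_upwards [c1, c2, tri_quenched hT hlam h G h01 h12 (h23.trans h30)] with ω d1 d2 d3
  rw [← Pi.add_apply, ← d1, d2, Pi.add_apply, d3]

end prob

end P148
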