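import Vale.Agent.P148.Props

/-!
# P148, row L1: the interface is locally a curve
-/

open MeasureTheory Set Metric Topology Filter ProbabilityTheory
open scoped ENNReal NNReal

namespace P148

/-- The nearest points of `C`. -/
def nearest (C : Set ℂ) (z : ℂ) : Set ℂ := {v | v ∈ C ∧ dist z v = infDist z C}

/-- In a locally finite set the distance is attained. -/
theorem exists_nearest {C : Set ℂ} (hC : C.Nonempty)
    (hf : ∀ r : ℝ, (C ∩ ball (0 : ℂ) r).Finite) (z : ℂ) : ∃ v ∈ C, dist z v = infDist z C := by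
  obtain ⟨v₀, hv₀⟩ := hC
  have hne : (C ∩ ball (0 : ℂ) (‖z‖ + dist z v₀ + 1)).Nonempty := by
    refine ⟨v₀, hv₀, ?_⟩
    rw [mem_ball_zero_iff]
    have : ‖v₀‖ ≤ ‖z‖ + dist z v₀ := by
      rw [dist_comm, dist_eq_norm]
      calc ‖v₀‖ = ‖z + (v₀ - z)‖ := by congr 1; ring
        _ ≤ _ := norm_add_le _ _
    linarith
  obtain ⟨v, hv, hmin⟩ := Set.exists_min_image _ (fun v => dist z v) (hf _) hne
  refine ⟨v, hv.1, le_antisymm ?_ (infDist_le_dist_of_mem hv.1)⟩
  refine (le_infDist ⟨v₀, hv₀⟩).2 fun w hw => ?_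
  by_cases hwb : w ∈ ball (0 : ℂ) (‖z‖ + dist z v₀ + 1)
  · exact hmin w ⟨hw, hwb⟩
  · rw [mem_ball_zero_iff, not_lt] at hwb
    have h1 : dist z v ≤ dist z v₀ := by
      refine hmin v₀ ⟨hv₀, ?_⟩
      rw [mem_ball_zero_iff]
      have : ‖v₀‖ ≤ ‖z‖ + dist z v₀ := by
        rw [dist_comm, dist_eq_norm]
        calc ‖v₀‖ = ‖z + (v₀ - z)‖ := by congr 1; ring
          _ ≤ _ := norm_add_le _ _
      linarith
    have h2 : ‖w‖ ≤ ‖z‖ + dist z w := by
      rw [dist_comm, dist_eq_norm]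
      calc ‖w‖ = ‖z + (w - z)‖ := by congr 1; ring
        _ ≤ _ := norm_add_le _ _
    linarith

/-- Near `z` only the nearest points count. -/
theorem exists_radius {C : Set ℂ} (hC : C.Nonempty)
    (hf : ∀ r : ℝ, (C ∩ ball (0 : ℂ) r).Finite) (z : ℂ) :
    ∃ r > 0, ∀ y ∈ ball z r, ∀ v ∈ C, ∃ w ∈ nearest C z, dist y w ≤ dist y v := by
  obtain ⟨v₀, hv₀, h₀⟩ := exists_nearest hC hf z
  set ρ := infDist z C with hρ
  have hfin : ((C ∩ ball (0 : ℂ) (‖z‖ + ρ + 2)) \ nearest C z).Finite := (hf _).subset fun v hv => hv.1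
  obtain ⟨ε, hε, hεM⟩ : ∃ ε > 0, ∀ v ∈ (C ∩ ball (0 : ℂ) (‖z‖ + ρ + 2)) \ nearest C z,
      ρ + ε ≤ dist z v := by
    by_cases hM : ((C ∩ ball (0 : ℂ) (‖z‖ + ρ + 2)) \ nearest C z).Nonempty
    · obtain ⟨v, hv, hmin⟩ := Set.exists_min_image _ (fun v => dist z v) hfin hM
      refine ⟨dist z v - ρ, ?_, fun w hw => ?_⟩
      · have h1 : ρ ≤ dist z v := infDist_le_dist_of_mem hv.1.1
        have h2 : dist z v ≠ ρ := fun h => hv.2 ⟨hv.1.1, h⟩
        exact sub_pos.2 (lt_of_le_of_ne h1 (Ne.symm h2))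
      · have : dist z v ≤ dist z w := hmin w hw
        linarith
    · exact ⟨1, one_pos, fun v hv => (hM ⟨v, hv⟩).elim⟩
  refine ⟨min ε 1 / 2, by positivity, fun y hy v hv => ?_⟩
  by_cases hvN : v ∈ nearest C z
  · exact ⟨v, hvN, le_rfl⟩
  refine ⟨v₀, ⟨hv₀, h₀⟩, ?_⟩
  rw [mem_ball] at hy
  have hfar : ρ + min ε 1 ≤ dist z v := by
    by_cases hvb : v ∈ ball (0 : ℂ) (‖z‖ + ρ + 2)
    · exact (add_le_add_right (min_le_left _ _) _).trans (hεM v ⟨⟨hv, hvb⟩, hvN⟩)
    · rw [mem_ball_zero_iff, not_lt] at hvb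
      have h2 : ‖v‖ ≤ ‖z‖ + dist z v := by
        rw [dist_comm, dist_eq_norm]
        calc ‖v‖ = ‖z + (v - z)‖ := by congr 1; ring
          _ ≤ _ := norm_add_le _ _
      have := min_le_right ε 1
      linarith
  have h1 : dist y v₀ ≤ dist y z + dist z v₀ := dist_triangle _ _ _
  have h2 : dist z v ≤ dist z y + dist y v := dist_triangle _ _ _
  rw [dist_comm z y] at h2
  linarith

/-- Comparison of the distances to two locally finite sets near a point. -/
theorem exists_radius_lt {C C' : Set ℂ} (hC : C.Nonempty)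
    (hf : ∀ r : ℝ, (C ∩ ball (0 : ℂ) r).Finite) (hC' : C'.Nonempty)
    (hf' : ∀ r : ℝ, (C' ∩ ball (0 : ℂ) r).Finite) (z : ℂ) :
    ∃ r > 0, ∀ y ∈ ball z r,
      (infDist y C < infDist y C' ↔
        ∃ v ∈ nearest C z, ∀ w ∈ nearest C' z, dist y v < dist y w) := by
  obtain ⟨r, hr, h⟩ := exists_radius hC hf z
  obtain ⟨r', hr', h'⟩ := exists_radius hC' hf' z
  refine ⟨min r r', lt_min hr hr', fun y hy => ?_⟩
  have hy1 : y ∈ ball z r := ball_subset_ball (min_le_left _ _) hy
  have hy2 : y ∈ ball z r' := ball_subset_ball (min_le_right _ _) hy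
  constructor
  · intro hlt
    obtain ⟨v, hv, hve⟩ := exists_nearest hC hf y
    obtain ⟨v', hv', hle⟩ := h y hy1 v hv
    refine ⟨v', hv', fun w hw => ?_⟩
    have : infDist y C' ≤ dist y w := infDist_le_dist_of_mem hw.1
    linarith
  · rintro ⟨v, hv, hvw⟩
    obtain ⟨w, hw, hwe⟩ := exists_nearest hC' hf' y
    obtain ⟨w', hw', hle⟩ := h' y hy2 w hw
    have h1 := hvw w' hw'
    have h2 : infDist y C ≤ dist y v := infDist_le_dist_of_mem hv.1
    linarith

theorem dist_lt_iff {z v w : ℂ} (h : dist z v = dist z w) (y : ℂ) :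
    dist y v < dist y w ↔ 0 < inner ℝ (y - z) (v - w) := by
  have e1 : dist y v ^ 2 = ‖y - z‖ ^ 2 - 2 * inner ℝ (y - z) (v - z) + dist z v ^ 2 := by
    rw [dist_eq_norm, dist_comm z v, dist_eq_norm v z, ← norm_sub_sq_real]
    congr 2; ring
  have e2 : dist y w ^ 2 = ‖y - z‖ ^ 2 - 2 * inner ℝ (y - z) (w - z) + dist z w ^ 2 := by
    rw [dist_eq_norm, dist_comm z w, dist_eq_norm w z, ← norm_sub_sq_real]
    congr 2; ring
  have e3 : inner ℝ (y - z) (v - w) = inner ℝ (y - z) (v - z) - inner ℝ (y - z) (w - z) := by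
    rw [← inner_sub_right]; congr 1; ring
  rw [← sq_lt_sq₀ dist_nonneg dist_nonneg, e1, e2, e3, h]
  constructor <;> intro h <;> linarith

theorem inner_pos {z v w : ℂ} (h : dist z v = dist z w) (hne : v ≠ w) :
    0 < inner ℝ (v - z) (v - w) := by
  rw [← dist_lt_iff h, dist_self]
  exact dist_pos.2 hne

theorem inner_pos' {z v w : ℂ} (h : dist z v = dist z w) (hne : v ≠ w) :
    0 < inner ℝ (z - w) (v - w) := by
  have := inner_pos h.symm hne.symm
  have e : inner ℝ (z - w) (v - w) = inner ℝ (w - z) (w - v) := by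
    rw [← neg_sub w z, ← neg_sub w v, inner_neg_neg]
  rwa [e]

/-- Towards `w` the point `w` is the nearest one. -/
theorem dist_lt_toward {z v w : ℂ} (h : dist z v = dist z w) (hne : v ≠ w) {t : ℝ} (ht : 0 < t) :
    dist (z + t * (v - z)) v < dist (z + t * (v - z)) w := by
  rw [dist_lt_iff h]
  have : z + t * (v - z) - z = t • (v - z) := by rw [Complex.real_smul]; ring
  rw [this, real_inner_smul_left]
  exact mul_pos ht (inner_pos h hne)

/-- Away from `w` all other points are nearer. -/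
theorem dist_lt_away {z v w : ℂ} (h : dist z v = dist z w) (hne : v ≠ w) {t : ℝ} (ht : 0 < t) :
    dist (z - t * (w - z)) v < dist (z - t * (w - z)) w := by
  rw [dist_lt_iff h]
  have : z - t * (w - z) - z = t • (z - w) := by rw [Complex.real_smul]; ring
  rw [this, real_inner_smul_left]
  exact mul_pos ht (inner_pos' h hne)

theorem convex_half {z v w : ℂ} (h : dist z v = dist z w) :
    Convex ℝ {y : ℂ | dist y v < dist y w} := by
  have : {y : ℂ | dist y v < dist y w} = {y : ℂ | 0 < inner ℝ (y - z) (v - w)} := by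
    ext y; exact dist_lt_iff h y
  rw [this]
  intro a ha b hb s t hs ht hst
  change 0 < inner ℝ (a - z) (v - w) at ha
  change 0 < inner ℝ (b - z) (v - w) at hb
  change 0 < inner ℝ (s • a + t • b - z) (v - w)
  have e : s • a + t • b - z = s • (a - z) + t • (b - z) := by
    have : z = s • z + t • z := by rw [← add_smul, hst, one_smul]
    nth_rw 1 [this]
    rw [smul_sub, smul_sub]; abel
  rw [e, inner_add_left, real_inner_smul_left, real_inner_smul_left]
  rcases hs.eq_or_lt with rfl | hs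
  · have : t = 1 := by linarith
    subst this; simpa using hb
  · have := mul_pos hs ha
    have := mul_nonneg ht hb.le
    linarith

theorem cone_one {z w : ℂ} {B : Set ℂ} (hB : ∀ b ∈ B, dist z b = dist z w) (r : ℝ) :
    IsPreconnected (ball z r ∩ {y | ∀ b ∈ B, dist y w < dist y b}) := by
  apply Convex.isPreconnected
  apply (convex_ball z r).inter
  have : {y : ℂ | ∀ b ∈ B, dist y w < dist y b} = ⋂ b ∈ B, {y : ℂ | dist y w < dist y b} := by
    ext y; simp
  rw [this]
  exact convex_iInter₂ fun b hb => convex_half (hB b hb).symm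

theorem small_pos {z w : ℂ} {r : ℝ} (hr : 0 < r) : ∃ t : ℝ, 0 < t ∧ t * ‖w - z‖ < r := by
  refine ⟨r / (‖w - z‖ + 1), by positivity, ?_⟩
  rw [div_mul_eq_mul_div, div_lt_iff₀ (by positivity)]
  nlinarith [norm_nonneg (w - z)]

theorem cone_union {z w : ℂ} {B : Set ℂ} (hB : ∀ b ∈ B, dist z b = dist z w) (hw : w ∉ B)
    {r : ℝ} (hr : 0 < r) :
    IsPreconnected (ball z r ∩ {y | ∃ b ∈ B, dist y b < dist y w}) := by
  obtain ⟨t, ht, htr⟩ := small_pos (z := z) (w := w) hr
  have e : ball z r ∩ {y | ∃ b ∈ B, dist y b < dist y w} =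
      ⋃₀ ((fun b => ball z r ∩ {y | dist y b < dist y w}) '' B) := by
    ext y; simp
  rw [e]
  refine isPreconnected_sUnion (z - t * (w - z)) _ ?_ ?_
  · rintro s ⟨b, hb, rfl⟩
    refine ⟨?_, dist_lt_away (hB b hb) (fun h => hw (h ▸ hb)) ht⟩
    rw [mem_ball, dist_eq_norm]
    have : z - t * (w - z) - z = -((t : ℂ) * (w - z)) := by ring
    rw [this, norm_neg, norm_mul, Complex.norm_real, Real.norm_of_nonneg ht.le]
    exact htr
  · rintro s ⟨b, hb, rfl⟩
    exact ((convex_ball z r).inter (convex_half (hB b hb))).isPreconnected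

theorem tendsto_add_smul (z u : ℂ) :
    Tendsto (fun t : ℝ => z + t * u) (𝓝[>] 0) (𝓝 z) := by
  have : Continuous fun t : ℝ => z + t * u := by fun_prop
  have h := this.tendsto 0
  simp only [Complex.ofReal_zero, zero_mul, add_zero] at h
  exact h.mono_left nhdsWithin_le_nhds

theorem clos_one {z w : ℂ} {B : Set ℂ} (hB : ∀ b ∈ B, dist z b = dist z w) (hw : w ∉ B) :
    z ∈ closure {y | ∀ b ∈ B, dist y w < dist y b} := by
  refine mem_closure_of_tendsto (tendsto_add_smul z (w - z)) ?_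
  filter_upwards [self_mem_nhdsWithin] with t ht b hb
  exact dist_lt_toward (hB b hb).symm (fun h => hw (h ▸ hb)) ht

theorem clos_union {z w : ℂ} {B : Set ℂ} (hne : B.Nonempty)
    (hB : ∀ b ∈ B, dist z b = dist z w) (hw : w ∉ B) :
    z ∈ closure {y | ∃ b ∈ B, dist y b < dist y w} := by
  obtain ⟨b, hb⟩ := hne
  refine mem_closure_of_tendsto (tendsto_add_smul z (b - z)) ?_
  filter_upwards [self_mem_nhdsWithin] with t ht
  exact ⟨b, hb, dist_lt_toward (hB b hb) (fun h => hw (h ▸ hb)) ht⟩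

/-- The local lemma for two disjoint colour classes, one nearest point on the side of `w`. -/
theorem tame_aux {G : ℂ → ℝ} {z w : ℂ} {B : Set ℂ} (hne : B.Nonempty)
    (hB : ∀ b ∈ B, dist z b = dist z w) (hw : w ∉ B) {r : ℝ} (hr : 0 < r)
    (h1 : ∀ y ∈ ball z r, (G y < 0 ↔ ∃ b ∈ B, dist y b < dist y w))
    (h2 : ∀ y ∈ ball z r, (0 < G y ↔ ∀ b ∈ B, dist y w < dist y b)) :
    ∀ δ > 0, ∃ N : Set ℂ, IsOpen N ∧ z ∈ N ∧ N ⊆ ball z δ ∧
      IsPreconnected (N ∩ {z | G z < 0}) ∧ IsPreconnected (N ∩ {z | 0 < G z}) ∧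
      z ∈ closure {z | G z < 0} ∧ z ∈ closure {z | 0 < G z} := by
  intro δ hδ
  have hm : 0 < min r δ := lt_min hr hδ
  have e1 : ∀ s ≤ r, ball z s ∩ {z | G z < 0} = ball z s ∩ {y | ∃ b ∈ B, dist y b < dist y w} := by
    intro s hs
    ext y
    exact and_congr_right fun hy => h1 y (ball_subset_ball hs hy)
  have e2 : ∀ s ≤ r, ball z s ∩ {z | 0 < G z} = ball z s ∩ {y | ∀ b ∈ B, dist y w < dist y b} := by
    intro s hs
    ext y
    exact and_congr_right fun hy => h2 y (ball_subset_ball hs hy)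
  refine ⟨ball z (min r δ), isOpen_ball, mem_ball_self hm, ball_subset_ball (min_le_right _ _),
    ?_, ?_, ?_, ?_⟩
  · rw [e1 _ (min_le_left _ _)]; exact cone_union hB hw hm
  · rw [e2 _ (min_le_left _ _)]; exact cone_one hB _
  · have h := clos_union hne hB hw
    rw [mem_closure_iff_nhds] at h ⊢
    intro t ht
    obtain ⟨y, hy, hy'⟩ := h (t ∩ ball z r) (inter_mem ht (ball_mem_nhds z hr))
    exact ⟨y, hy.1, (h1 y hy.2).2 hy'⟩
  · have h := clos_one hB hw
    rw [mem_closure_iff_nhds] at h ⊢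
    intro t ht
    obtain ⟨y, hy, hy'⟩ := h (t ∩ ball z r) (inter_mem ht (ball_mem_nhds z hr))
    exact ⟨y, hy.1, (h2 y hy.2).2 hy'⟩

theorem Good.finite_col {S : Set Pt} (hS : Good S) (c : Bool) (r : ℝ) :
    (col S c ∩ ball (0 : ℂ) r).Finite := by
  refine ((hS.locFin r).image Prod.fst).subset ?_
  rintro v ⟨hv, hvr⟩
  exact ⟨(v, c), ⟨hv, hvr, mem_univ _⟩, rfl⟩

theorem Good.near_nonempty {S : Set Pt} (hS : Good S) (c : Bool) (z : ℂ) :
    (nearest (col S c) z).Nonempty := by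
  obtain ⟨v, hv, h⟩ := exists_nearest (hS.colours c) (hS.finite_col c) z
  exact ⟨v, hv, h⟩

/-- The local lemma. -/
theorem Good.local {S : Set Pt} (hS : Good S) (z : ℂ) :
    ∃ r > 0, ∀ y ∈ ball z r,
      (gap S y < 0 ↔ ∃ v ∈ nearest (col S true) z, ∀ w ∈ nearest (col S false) z,
        dist y v < dist y w) ∧
      (0 < gap S y ↔ ∃ w ∈ nearest (col S false) z, ∀ v ∈ nearest (col S true) z,
        dist y w < dist y v) := by
  obtain ⟨r, hr, h⟩ := exists_radius_lt (hS.colours true) (hS.finite_col true)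
    (hS.colours false) (hS.finite_col false) z
  obtain ⟨r', hr', h'⟩ := exists_radius_lt (hS.colours false) (hS.finite_col false)
    (hS.colours true) (hS.finite_col true) z
  refine ⟨min r r', lt_min hr hr', fun y hy => ⟨?_, ?_⟩⟩
  · rw [← h y (ball_subset_ball (min_le_left _ _) hy), gap, sub_neg]
  · rw [← h' y (ball_subset_ball (min_le_right _ _) hy), gap, sub_pos]

theorem mem_pts_of_col {S : Set Pt} {c : Bool} {v : ℂ} (h : v ∈ col S c) : v ∈ pts S :=
  ⟨(v, c), h, rfl⟩

/-- The nearest points of the two colours are at the same distance. -/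
theorem near_dist {S : Set Pt} {z : ℂ} (hz : gap S z = 0) {c c' : Bool} {v w : ℂ}
    (hv : v ∈ nearest (col S c) z) (hw : w ∈ nearest (col S c') z) : dist z v = dist z w := by
  have h : infDist z (col S true) = infDist z (col S false) := sub_eq_zero.1 hz
  rw [hv.2, hw.2]
  cases c <;> cases c' <;> simp [h]

/-- The nearest points of the two colours are different. -/
theorem Good.near_ne {S : Set Pt} (hS : Good S) {z v w : ℂ}
    (hv : v ∈ nearest (col S true) z) (hw : w ∈ nearest (col S false) z) : v ≠ w := by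
  rintro rfl
  exact hS.oneColour v ⟨hv.1, hw.1⟩

/-- One of the two colours has only one nearest point. -/
theorem Good.one_near {S : Set Pt} (hS : Good S) {z : ℂ} (hz : gap S z = 0) :
    (∃ v, nearest (col S true) z = {v}) ∨ (∃ w, nearest (col S false) z = {w}) := by
  by_contra hcon
  push Not at hcon
  obtain ⟨b₁, hb₁⟩ := hS.near_nonempty true z
  obtain ⟨w₁, hw₁⟩ := hS.near_nonempty false z
  obtain ⟨b₂, hb₂, hb⟩ : ∃ b₂ ∈ nearest (col S true) z, b₂ ≠ b₁ := by
    by_contra h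
    push Not at h
    exact hcon.1 b₁ (eq_singleton_iff_unique_mem.2 ⟨hb₁, h⟩)
  obtain ⟨w₂, hw₂, hw⟩ : ∃ w₂ ∈ nearest (col S false) z, w₂ ≠ w₁ := by
    by_contra h
    push Not at h
    exact hcon.2 w₁ (eq_singleton_iff_unique_mem.2 ⟨hw₁, h⟩)
  have h11 := hS.near_ne hb₁ hw₁
  have h12 := hS.near_ne hb₁ hw₂
  have h21 := hS.near_ne hb₂ hw₁
  have h22 := hS.near_ne hb₂ hw₂
  refine hS.four ![b₁, b₂, w₁, w₂] ?_ ?_ ⟨z, ?_, ?_, ?_⟩
  · intro i j hij
    fin_cases i <;> fin_cases j <;> simp_all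
  · intro i
    fin_cases i
    exacts [mem_pts_of_col hb₁.1, mem_pts_of_col hb₂.1, mem_pts_of_col hw₁.1,
      mem_pts_of_col hw₂.1]
  · exact near_dist hz hb₁ hb₂
  · exact near_dist hz hb₁ hw₁
  · exact near_dist hz hb₁ hw₂

/-- L1. -/
theorem tame : TameStmt := by
  intro S hS z hz
  obtain ⟨r, hr, h⟩ := hS.local z
  rcases hS.one_near hz with ⟨b, hb⟩ | ⟨w, hw⟩
  · have hbm : b ∈ nearest (col S true) z := by rw [hb]; rfl
    have key := tame_aux (G := fun y => - gap S y) (z := z) (w := b)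
      (B := nearest (col S false) z) (hS.near_nonempty false z)
      (fun w hw => near_dist hz hw hbm) (fun hbw => hS.near_ne hbm hbw rfl) hr
      (fun y hy => by
        rw [neg_lt_zero, (h y hy).2, hb]
        simp) (fun y hy => by
        rw [neg_pos, (h y hy).1, hb]
        simp)
    intro δ hδ
    obtain ⟨N, h1, h2, h3, h4, h5, h6, h7⟩ := key δ hδ
    simp only [neg_lt_zero, neg_pos] at h4 h5 h6 h7
    exact ⟨N, h1, h2, h3, h5, h4, h7, h6⟩
  · have hwm : w ∈ nearest (col S false) z := by rw [hw]; rfl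
    exact tame_aux (G := gap S) (z := z) (w := w)
      (B := nearest (col S true) z) (hS.near_nonempty true z)
      (fun v hv => near_dist hz hv hwm) (fun hbw => hS.near_ne hbw hwm rfl) hr
      (fun y hy => by
        rw [(h y hy).1, hw]
        simp) (fun y hy => by
        rw [(h y hy).2, hw]
        simp)

end P148
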