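import Vale.Agent.P148.Props2
import Vale.Agent.P148.CardyHalf

/-!
# P148: Cardy's function at one third
-/

open MeasureTheory Set intervalIntegral

namespace P148

namespace Third

lemma rpow_third_cube {x : ℝ} (hx : 0 ≤ x) : (x ^ ((2 : ℝ) / 3)) ^ 3 = x ^ 2 := by
  rw [← Real.rpow_natCast, ← Real.rpow_mul hx, ← Real.rpow_natCast]
  norm_num

lemma neg_eq_inv {x : ℝ} (hx : 0 ≤ x) : x ^ (-(2 / 3) : ℝ) = (x ^ ((2 : ℝ) / 3))⁻¹ :=
  Real.rpow_neg hx _

/-- `x ^ (-2/3) ≤ y` as soon as `1 ≤ x² y³`. -/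
lemma rpow_le {x y : ℝ} (hx : 0 < x) (hy : 0 ≤ y) (h : 1 ≤ x ^ 2 * y ^ 3) :
    x ^ (-(2 / 3) : ℝ) ≤ y := by
  rw [neg_eq_inv hx.le]
  have hp : 0 < x ^ ((2 : ℝ) / 3) := Real.rpow_pos_of_pos hx _
  rw [inv_le_iff_one_le_mul₀ hp]
  have h2 : (1 : ℝ) ^ 3 ≤ (y * x ^ ((2 : ℝ) / 3)) ^ 3 := by
    rw [mul_pow, rpow_third_cube hx.le]
    linarith
  exact (pow_le_pow_iff_left₀ zero_le_one (mul_nonneg hy hp.le) (by norm_num)).1 h2

/-- `y ≤ x ^ (-2/3)` as soon as `x² y³ ≤ 1`. -/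
lemma le_rpow {x y : ℝ} (hx : 0 < x) (hy : 0 ≤ y) (h : x ^ 2 * y ^ 3 ≤ 1) :
    y ≤ x ^ (-(2 / 3) : ℝ) := by
  rw [neg_eq_inv hx.le]
  have hp : 0 < x ^ ((2 : ℝ) / 3) := Real.rpow_pos_of_pos hx _
  rw [← one_div, le_div_iff₀ hp]
  have h2 : (y * x ^ ((2 : ℝ) / 3)) ^ 3 ≤ (1 : ℝ) ^ 3 := by
    rw [mul_pow, rpow_third_cube hx.le]
    linarith
  exact (pow_le_pow_iff_left₀ (mul_nonneg hy hp.le) zero_le_one (by norm_num)).1 h2

/-- The integrand. -/
noncomputable def f (u : ℝ) : ℝ := (u * (1 - u)) ^ (-(2 / 3) : ℝ)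

lemma f_le {u y : ℝ} (h0 : 0 < u) (h1 : u < 1) (hy : 0 ≤ y)
    (h : 1 ≤ (u * (1 - u)) ^ 2 * y ^ 3) : f u ≤ y :=
  rpow_le (mul_pos h0 (by linarith)) hy h

lemma le_f {u y : ℝ} (h0 : 0 < u) (h1 : u < 1) (hy : 0 ≤ y)
    (h : (u * (1 - u)) ^ 2 * y ^ 3 ≤ 1) : y ≤ f u :=
  le_rpow (mul_pos h0 (by linarith)) hy h

lemma f_eq {u : ℝ} (h0 : 0 ≤ u) (h1 : u ≤ 1) :
    f u = u ^ (-(2 / 3) : ℝ) * (1 - u) ^ (-(2 / 3) : ℝ) :=
  Real.mul_rpow h0 (by linarith)

lemma rpow_mul_self {u : ℝ} (h0 : 0 < u) : u ^ (-(2 / 3) : ℝ) * u = u ^ ((1 : ℝ) / 3) := by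
  nth_rewrite 2 [← Real.rpow_one u]
  rw [← Real.rpow_add h0]
  norm_num

lemma lower {u : ℝ} (h0 : 0 < u) (h1 : u ≤ 1 / 2) :
    u ^ (-(2 / 3) : ℝ) + 2 / 3 * u ^ ((1 : ℝ) / 3) ≤ f u := by
  have e : u ^ (-(2 / 3) : ℝ) + 2 / 3 * u ^ ((1 : ℝ) / 3) =
      u ^ (-(2 / 3) : ℝ) * (1 + 2 / 3 * u) := by
    rw [← rpow_mul_self h0]; ring
  rw [e, f_eq h0.le (by linarith)]
  refine mul_le_mul_of_nonneg_left ?_ (Real.rpow_nonneg h0.le _)
  refine le_rpow (by linarith) (by linarith) ?_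
  nlinarith [mul_pos h0 h0, mul_pos (mul_pos h0 h0) h0, sq_nonneg (u * u), sq_nonneg u]

lemma upper {u : ℝ} (h0 : 0 < u) (h1 : u ≤ 1 / 2) :
    f u ≤ u ^ (-(2 / 3) : ℝ) + 47 / 40 * u ^ ((1 : ℝ) / 3) := by
  have e : u ^ (-(2 / 3) : ℝ) + 47 / 40 * u ^ ((1 : ℝ) / 3) =
      u ^ (-(2 / 3) : ℝ) * (1 + 47 / 40 * u) := by
    rw [← rpow_mul_self h0]; ring
  rw [e, f_eq h0.le (by linarith)]
  refine mul_le_mul_of_nonneg_left ?_ (Real.rpow_nonneg h0.le _)
  refine rpow_le (by linarith) (by linarith) ?_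
  have h2 : 0 ≤ u * (1 / 2 - u) := mul_nonneg h0.le (by linarith)
  nlinarith [mul_nonneg h2 h0.le, mul_nonneg h2 (mul_nonneg h0.le h0.le),
    mul_nonneg h2 (mul_nonneg (mul_nonneg h0.le h0.le) h0.le)]

lemma int_f : IntervalIntegrable f volume 0 (1 / 2) := cardyHalf_int

lemma int_p (r : ℝ) (hr : -1 < r) (a b : ℝ) :
    IntervalIntegrable (fun u : ℝ => u ^ r) volume a b := intervalIntegrable_rpow' hr

/-- The cube root of one half. -/
noncomputable def t : ℝ := (1 / 2 : ℝ) ^ ((1 : ℝ) / 3)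

lemma t_cube : t ^ 3 = 1 / 2 := by
  rw [t, ← Real.rpow_natCast, ← Real.rpow_mul (by norm_num)]
  norm_num

lemma t_pos : 0 < t := Real.rpow_pos_of_pos (by norm_num) _

lemma t_lo : (0.7937 : ℝ) ≤ t := by
  by_contra h
  push Not at h
  have h1 : t ^ 3 < (0.7937 : ℝ) ^ 3 := pow_lt_pow_left₀ h t_pos.le (by norm_num)
  rw [t_cube] at h1
  norm_num at h1

lemma t_hi : t ≤ (0.7938 : ℝ) := by
  by_contra h
  push Not at h
  have h1 : (0.7938 : ℝ) ^ 3 < t ^ 3 := pow_lt_pow_left₀ h (by norm_num) (by norm_num)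
  rw [t_cube] at h1
  norm_num at h1

lemma int1 : ∫ u in (0 : ℝ)..(1 / 2), u ^ (-(2 / 3) : ℝ) = 3 * t := by
  rw [integral_rpow (Or.inl (by norm_num)), Real.zero_rpow (by norm_num), t]
  norm_num
  ring

lemma int2 : ∫ u in (0 : ℝ)..(1 / 2), u ^ ((1 : ℝ) / 3) = 3 / 8 * t := by
  rw [integral_rpow (Or.inl (by norm_num)), Real.zero_rpow (by norm_num)]
  have e : (1 / 2 : ℝ) ^ ((1 : ℝ) / 3 + 1) = t * (1 / 2) := by
    rw [Real.rpow_add (by norm_num), Real.rpow_one, t]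
  rw [e]
  ring

lemma K_lo : 13 / 4 * t ≤ ∫ u in (0 : ℝ)..(1 / 2), f u := by
  have h := intervalIntegral.integral_mono_on_of_le_Ioo (a := 0) (b := 1 / 2) (μ := volume)
    (f := fun u : ℝ => u ^ (-(2 / 3) : ℝ) + 2 / 3 * u ^ ((1 : ℝ) / 3)) (g := f) (by norm_num)
    ((int_p _ (by norm_num) _ _).add ((int_p _ (by norm_num) _ _).const_mul _)) int_f
    (fun u hu => lower hu.1 hu.2.le)
  rw [intervalIntegral.integral_add (int_p _ (by norm_num) _ _)
    ((int_p _ (by norm_num) _ _).const_mul _), intervalIntegral.integral_const_mul, int1, int2] at h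
  linarith

lemma K_hi : ∫ u in (0 : ℝ)..(1 / 2), f u ≤ (3 + 47 / 40 * (3 / 8)) * t := by
  have h := intervalIntegral.integral_mono_on_of_le_Ioo (a := 0) (b := 1 / 2) (μ := volume)
    (f := f) (g := fun u : ℝ => u ^ (-(2 / 3) : ℝ) + 47 / 40 * u ^ ((1 : ℝ) / 3)) (by norm_num)
    int_f ((int_p _ (by norm_num) _ _).add ((int_p _ (by norm_num) _ _).const_mul _))
    (fun u hu => upper hu.1 hu.2.le)
  rw [intervalIntegral.integral_add (int_p _ (by norm_num) _ _)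
    ((int_p _ (by norm_num) _ _).const_mul _), intervalIntegral.integral_const_mul, int1, int2] at h
  linarith

lemma int_sub {a b : ℝ} (ha : 0 ≤ a) (hab : a ≤ b) (hb : b ≤ 1 / 2) :
    IntervalIntegrable f volume a b :=
  int_f.mono_set (by
    rw [uIcc_of_le hab, uIcc_of_le (by norm_num)]
    exact Icc_subset_Icc ha hb)

lemma low_int {a b y : ℝ} (ha : 0 < a) (hab : a ≤ b) (hb : b ≤ 1 / 2) (hy : 0 ≤ y)
    (h : (b * (1 - b)) ^ 2 * y ^ 3 ≤ 1) : (b - a) * y ≤ ∫ u in a..b, f u := by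
  have h2 := intervalIntegral.integral_mono_on_of_le_Ioo (a := a) (b := b) (μ := volume)
    (f := fun _ : ℝ => y) (g := f) hab intervalIntegrable_const (int_sub ha.le hab hb)
    (fun u hu => by
      have h3 : u * (1 - u) ≤ b * (1 - b) := by
        nlinarith [hu.1, hu.2]
      have h4 : 0 ≤ u * (1 - u) := mul_nonneg (ha.le.trans hu.1.le) (by linarith [hu.2])
      refine le_f (ha.trans hu.1) (by linarith [hu.2]) hy (le_trans ?_ h)
      exact mul_le_mul_of_nonneg_right (pow_le_pow_left₀ h4 h3 2) (pow_nonneg hy 3))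
  rwa [intervalIntegral.integral_const, smul_eq_mul] at h2

lemma hi_int {a b y : ℝ} (ha : 0 < a) (hab : a ≤ b) (hb : b ≤ 1 / 2) (hy : 0 ≤ y)
    (h : 1 ≤ (a * (1 - a)) ^ 2 * y ^ 3) : ∫ u in a..b, f u ≤ (b - a) * y := by
  have h2 := intervalIntegral.integral_mono_on_of_le_Ioo (a := a) (b := b) (μ := volume)
    (f := f) (g := fun _ : ℝ => y) hab (int_sub ha.le hab hb) intervalIntegrable_const
    (fun u hu => by
      have h3 : a * (1 - a) ≤ u * (1 - u) := by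
        nlinarith [hu.1, hu.2]
      have h4 : 0 ≤ a * (1 - a) := mul_nonneg ha.le (by linarith [hu.1, hu.2])
      refine f_le (ha.trans hu.1) (by linarith [hu.2]) hy (h.trans ?_)
      exact mul_le_mul_of_nonneg_right (pow_le_pow_left₀ h4 h3 2) (pow_nonneg hy 3))
  rwa [intervalIntegral.integral_const, smul_eq_mul] at h2

lemma J_hi : ∫ u in (1 / 3 : ℝ)..(1 / 2), f u ≤ 0.455 := by
  have h := hi_int (a := 1 / 3) (b := 1 / 2) (y := 2.73) (by norm_num) (by norm_num) (by norm_num)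
    (by norm_num) (by norm_num)
  norm_num at h ⊢
  linarith

lemma J_lo : 0.423 ≤ ∫ u in (1 / 3 : ℝ)..(1 / 2), f u := by
  have h1 := low_int (a := 1 / 3) (b := 5 / 12) (y := 2.56) (by norm_num) (by norm_num)
    (by norm_num) (by norm_num) (by norm_num)
  have h2 := low_int (a := 5 / 12) (b := 1 / 2) (y := 2.519) (by norm_num) (by norm_num)
    (by norm_num) (by norm_num) (by norm_num)
  have h3 := intervalIntegral.integral_add_adjacent_intervals
    (int_sub (a := 1 / 3) (b := 5 / 12) (by norm_num) (by norm_num) (by norm_num))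
    (int_sub (a := 5 / 12) (b := 1 / 2) (by norm_num) (by norm_num) (by norm_num))
  rw [← h3]
  norm_num at h1 h2 ⊢
  linarith

/-- The whole integral is twice the integral over the first half. -/
lemma whole : ∫ u in (0 : ℝ)..1, f u = 2 * ∫ u in (0 : ℝ)..(1 / 2), f u := by
  have h := cardyHalf
  unfold CardyHalfStmt cardy at h
  have hK : 0 < ∫ u in (0 : ℝ)..(1 / 2), f u :=
    lt_of_lt_of_le (mul_pos (by norm_num) t_pos) K_lo
  change (∫ u in (0 : ℝ)..(1 / 2), f u) / (∫ u in (0 : ℝ)..1, f u) = 1 / 2 at h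
  have hI : (∫ u in (0 : ℝ)..1, f u) ≠ 0 := by
    intro h0
    rw [h0, div_zero] at h
    norm_num at h
  field_simp at h
  linarith

end Third

open Third in
/-- Row N. -/
theorem cardyThird : CardyThirdStmt := by
  have hs := intervalIntegral.integral_add_adjacent_intervals
    (int_sub (a := 0) (b := 1 / 3) le_rfl (by norm_num) (by norm_num))
    (int_sub (a := 1 / 3) (b := 1 / 2) (by norm_num) (by norm_num) le_rfl)
  have h1 := K_lo
  have h2 := K_hi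
  have h3 := J_lo
  have h4 := J_hi
  have h5 := t_lo
  have h6 := t_hi
  have hK : 0 < ∫ u in (0 : ℝ)..(1 / 2), f u :=
    lt_of_lt_of_le (mul_pos (by norm_num) t_pos) K_lo
  have hc : cardy (1 / 3) = (∫ u in (0 : ℝ)..(1 / 3), f u) / (∫ u in (0 : ℝ)..1, f u) := rfl
  unfold CardyThirdStmt
  rw [hc, whole, le_div_iff₀ (by linarith), div_le_iff₀ (by linarith)]
  constructor <;> linarith

end P148
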