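import Vale.Agent.P148.Props3

/-!
# P148: three arcs from pairs of arcs (row Y4)
-/

open Set Metric Topology Filter

namespace P148.TThree

theorem connSymm {F A B : Set ℂ} (h : Conn F A B) : Conn F B A := by
  obtain ⟨K, h1, h2, h3, h4⟩ := h
  exact ⟨K, h1, h2, h4, h3⟩

theorem connMono {F A B A' B' : Set ℂ} (h : Conn F A B) (hA : A ⊆ A') (hB : B ⊆ B') :
    Conn F A' B' := by
  obtain ⟨K, h1, h2, h3, h4⟩ := h
  exact ⟨K, h1, h2, h3.mono (inter_subset_inter_right _ hA), h4.mono (inter_subset_inter_right _ hB)⟩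

theorem connCompact {F A B : Set ℂ} (hF : IsCompact F) (h : Conn F A B) :
    ∃ K ⊆ F, IsCompact K ∧ IsConnected K ∧ (K ∩ A).Nonempty ∧ (K ∩ B).Nonempty := by
  obtain ⟨K, h1, h2, h3, h4⟩ := h
  have hc : closure K ⊆ F := closure_minimal h1 hF.isClosed
  exact ⟨closure K, hc, hF.of_isClosed_subset isClosed_closure hc, h2.closure,
    h3.mono (inter_subset_inter_left _ subset_closure),
    h4.mono (inter_subset_inter_left _ subset_closure)⟩

theorem mem_image_iInter {f : ℝ → ℂ} (hf : Continuous f) {K : ℕ → Set ℝ}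
    (hK : ∀ n, IsCompact (K n)) (ha : ∀ n, K (n + 1) ⊆ K n) {z : ℂ} (hz : ∀ n, z ∈ f '' K n) :
    z ∈ f '' ⋂ n, K n := by
  have hcl : IsClosed (f ⁻¹' {z}) := isClosed_singleton.preimage hf
  have hne : (⋂ n, K n ∩ f ⁻¹' {z}).Nonempty := by
    apply IsCompact.nonempty_iInter_of_sequence_nonempty_isCompact_isClosed
    · exact fun n => inter_subset_inter_left _ (ha n)
    · intro n
      obtain ⟨u, hu, rfl⟩ := hz n
      exact ⟨u, hu, rfl⟩
    · exact (hK 0).inter_right hcl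
    · exact fun n => (hK n).isClosed.inter hcl
  obtain ⟨u, hu⟩ := hne
  rw [mem_iInter] at hu
  exact ⟨u, mem_iInter.2 fun n => (hu n).1, (hu 0).2⟩

theorem iInter_arc_right {a s : ℝ} {q : ℕ → ℝ} (hq : Antitone q) (hl : Tendsto q atTop (𝓝 s)) :
    ⋂ n, cArc 0 1 a (q n) ⊆ cArc 0 1 a s := by
  intro z hz
  rw [mem_iInter] at hz
  obtain ⟨u, hu, rfl⟩ := mem_image_iInter (f := fun u : ℝ => 0 + (1 : ℝ) * Complex.exp (u * Complex.I))
    (by fun_prop) (K := fun n => Icc a (q n)) (fun n => isCompact_Icc)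
    (fun n => Icc_subset_Icc_right (hq n.le_succ)) hz
  rw [mem_iInter] at hu
  exact ⟨u, ⟨(hu 0).1, ge_of_tendsto' hl fun n => (hu n).2⟩, rfl⟩

theorem iInter_arc_left {s b : ℝ} {q : ℕ → ℝ} (hq : Monotone q) (hl : Tendsto q atTop (𝓝 s)) :
    ⋂ n, cArc 0 1 (q n) b ⊆ cArc 0 1 s b := by
  intro z hz
  rw [mem_iInter] at hz
  obtain ⟨u, hu, rfl⟩ := mem_image_iInter (f := fun u : ℝ => 0 + (1 : ℝ) * Complex.exp (u * Complex.I))
    (by fun_prop) (K := fun n => Icc (q n) b) (fun n => isCompact_Icc)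
    (fun n => Icc_subset_Icc_left (hq n.le_succ)) hz
  rw [mem_iInter] at hu
  exact ⟨u, ⟨le_of_tendsto' hl fun n => (hu n).1, (hu 0).2⟩, rfl⟩

/-- Closedness of crossings in the right end of the first arc. -/
theorem conn_right (hL : LimStmt) {F B : Set ℂ} (hF : IsCompact F) (hB : IsClosed B)
    {a s t : ℝ} (hst : s < t) (h : ∀ r, s < r → r < t → Conn F (cArc 0 1 a r) B) :
    Conn F (cArc 0 1 a s) B := by
  obtain ⟨q, hq1, hq2, hq3⟩ := exists_seq_strictAnti_tendsto' hst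
  exact connSymm (connMono (hL F B (fun n => cArc 0 1 a (q n)) hF hB
    (fun n => isCompact_cArc _ _ _ _) (fun m n hmn => cArc_mono le_rfl (hq1.antitone hmn))
    (fun n => connSymm (h (q n) (hq2 n).1 (hq2 n).2))) subset_rfl
    (iInter_arc_right hq1.antitone hq3))

/-- Closedness of crossings in the left end of the first arc. -/
theorem conn_left (hL : LimStmt) {F C : Set ℂ} (hF : IsCompact F) (hC : IsClosed C)
    {s t b : ℝ} (hst : s < t) (h : ∀ r, s < r → r < t → Conn F (cArc 0 1 r b) C) :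
    Conn F (cArc 0 1 t b) C := by
  obtain ⟨q, hq1, hq2, hq3⟩ := exists_seq_strictMono_tendsto' hst
  exact connSymm (connMono (hL F C (fun n => cArc 0 1 (q n) b) hF hC
    (fun n => isCompact_cArc _ _ _ _) (fun m n hmn => cArc_mono (hq1.monotone hmn) le_rfl)
    (fun n => connSymm (h (q n) (hq2 n).1 (hq2 n).2))) subset_rfl
    (iInter_arc_left hq1.monotone hq3))

theorem pt_period (t : ℝ) : (0 : ℂ) + (1 : ℝ) * Complex.exp (((t + 2 * Real.pi : ℝ) : ℂ) * Complex.I)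
    = 0 + (1 : ℝ) * Complex.exp ((t : ℂ) * Complex.I) := by
  congr 2
  push_cast
  rw [add_mul, Complex.exp_add]
  rw [show (2 * (Real.pi : ℂ)) * Complex.I = 2 * Real.pi * Complex.I from rfl,
    Complex.exp_two_pi_mul_I, mul_one]

end P148.TThree

namespace P148

open TThree

/-- Y4: three arcs from pairs of arcs. -/
theorem three_of (hM : MeetStmt) (hL : LimStmt) : ThreeStmt := by
  intro τ₀ τ₁ τ₂ h01 h12 h20 F hF hFs
  set A := cArc 0 1 τ₀ τ₁ with hA
  set B := cArc 0 1 τ₁ τ₂ with hB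
  set C := cArc 0 1 τ₂ (τ₀ + 2 * Real.pi) with hC
  have hBc : IsClosed B := (isCompact_cArc _ _ _ _).isClosed
  have hCc : IsClosed C := (isCompact_cArc _ _ _ _).isClosed
  constructor
  · intro hn
    by_contra hcon
    push Not at hcon
    set S : Set ℝ := {r | r ∈ Icc τ₀ τ₁ ∧ (Conn F (cArc 0 1 τ₀ r) B ∨ r = τ₁)} with hS
    have hne : S.Nonempty := ⟨τ₁, ⟨h01.le, le_rfl⟩, Or.inr rfl⟩
    have hbb : BddBelow S := ⟨τ₀, fun r hr => hr.1.1⟩
    set s := sInf S with hs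
    have hs0 : τ₀ ≤ s := le_csInf hne fun r hr => hr.1.1
    have hs1 : s ≤ τ₁ := csInf_le hbb ⟨⟨h01.le, le_rfl⟩, Or.inr rfl⟩
    have he : s < τ₁ → Conn F (cArc 0 1 τ₀ s) B := by
      intro hlt
      apply conn_right hL hF hBc hlt
      intro r h1 h2
      obtain ⟨x, hx, hxr⟩ := exists_lt_of_csInf_lt hne h1
      rcases hx.2 with h | h
      · exact connMono h (cArc_mono le_rfl hxr.le) subset_rfl
      · exact absurd hxr (by rw [h]; exact not_lt.2 h2.le)
    have hf : τ₀ < s → Conn F (cArc 0 1 s τ₁) C := by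
      intro hlt
      apply conn_left hL hF hCc hlt
      intro r h1 h2
      obtain ⟨q, hq1, hq2⟩ := exists_rat_btwn h2
      have hq3 : (q : ℝ) < τ₁ := hq2.trans_le hs1
      have hne' : ¬ Conn F (cArc 0 1 τ₀ q) B := fun h =>
        absurd (csInf_le hbb (show (q : ℝ) ∈ S from ⟨⟨(h1.trans hq1).le, hq3.le⟩, Or.inl h⟩))
          (not_le.2 hq2)
      exact connMono (hcon q (h1.trans hq1) hq3 hne') (cArc_mono hq1.le le_rfl) subset_rfl
    rcases hs0.eq_or_lt with h0 | h0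
    · obtain ⟨K, k1, k2, k3, k4⟩ := he (h0 ▸ h01)
      rw [← h0] at k3
      obtain ⟨z, hz1, u, hu, hz⟩ := k3
      have hu' : u = τ₀ := le_antisymm hu.2 hu.1
      subst hu'
      refine hn ⟨K, k1, k2, ⟨z, hz1, u, ⟨le_rfl, h01.le⟩, hz⟩, k4, ⟨z, hz1, u + 2 * Real.pi,
        ⟨h20.le, le_rfl⟩, ?_⟩⟩
      rw [← hz]
      exact pt_period u
    rcases hs1.eq_or_lt with h1 | h1
    · obtain ⟨K, k1, k2, k3, k4⟩ := hf h0
      rw [h1] at k3
      obtain ⟨z, hz1, u, hu, hz⟩ := k3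
      have hu' : u = τ₁ := le_antisymm hu.2 hu.1
      subst hu'
      exact hn ⟨K, k1, k2, ⟨z, hz1, u, ⟨h01.le, le_rfl⟩, hz⟩, ⟨z, hz1, u, ⟨le_rfl, h12.le⟩, hz⟩, k4⟩
    · obtain ⟨K, k1, kc, k2, k3, k4⟩ := connCompact hF (he h1)
      obtain ⟨L, l1, lc, l2, l3, l4⟩ := connCompact hF (hf h0)
      obtain ⟨z, hz⟩ := hM τ₀ s τ₁ τ₂ h0 h1 h12 h20 K L kc lc (k1.trans hFs) (l1.trans hFs)
        k2 l2 k3 k4 l3 l4
      refine hn ⟨K ∪ L, union_subset k1 l1, IsConnected.union ⟨z, hz⟩ k2 l2, ?_, ?_, ?_⟩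
      · exact (meets_mono k3 le_rfl h1.le).mono (inter_subset_inter_left _ subset_union_left)
      · exact k4.mono (inter_subset_inter_left _ subset_union_left)
      · exact l4.mono (inter_subset_inter_left _ subset_union_right)
  · rintro ⟨q, hq1, hq2, he, hf⟩ ⟨K, k1, k2, k3, k4, k5⟩
    rcases meets_union (q : ℝ) k3 with h | h
    · exact he ⟨K, k1, k2, h, k4⟩
    · exact hf ⟨K, k1, k2, h, k5⟩

end P148
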