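import Vale.Agent.P148.Props2

/-!
# P148, row U3: trigonometry of the cross-ratio
-/

open Set

namespace P148

namespace Trig

theorem ptolemy (a b c : ℝ) : Real.sin a * Real.sin c + Real.sin b * Real.sin (a + b + c) =
    Real.sin (a + b) * Real.sin (b + c) := by
  have h := Real.sin_sq_add_cos_sq b
  rw [Real.sin_add (a + b) c, Real.sin_add a b, Real.cos_add a b, Real.sin_add b c]
  have h2 : Real.sin b ^ 2 = 1 - Real.cos b ^ 2 := by linarith
  ring_nf
  rw [h2]
  ring

theorem sin_pos' {a : ℝ} (h0 : 0 < a) (h1 : a < Real.pi) : 0 < Real.sin a :=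
  Real.sin_pos_of_pos_of_lt_pi h0 h1

/-- The bound when `a ≤ c` and `b ≤ d`. -/
theorem key {a b c d : ℝ} (ha : 0 < a) (hb : 0 < b) (hc : 0 < c) (hd : 0 < d)
    (hs : a + b + c + d = Real.pi) (hac : a ≤ c) (hbd : b ≤ d) :
    (b / a + 1) * (Real.sin a * Real.sin c) ≤
      Real.pi * (Real.sin (a + b) * Real.sin (b + c)) := by
  have hpi := Real.pi_pos
  have hsc : 0 < Real.sin c := sin_pos' hc (by linarith)
  have hsab : 0 < Real.sin (a + b) := sin_pos' (by linarith) (by linarith)
  have h1 : (b / a + 1) * Real.sin a ≤ a + b := by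
    have : Real.sin a ≤ a := Real.sin_le ha.le
    calc (b / a + 1) * Real.sin a ≤ (b / a + 1) * a :=
          mul_le_mul_of_nonneg_left this (by positivity)
      _ = a + b := by field_simp; ring
  have h2 : a + b ≤ Real.pi / 2 * Real.sin (a + b) := by
    have := Real.mul_le_sin (x := a + b) (by linarith) (by linarith)
    calc a + b = Real.pi / 2 * (2 / Real.pi * (a + b)) := by field_simp
      _ ≤ Real.pi / 2 * Real.sin (a + b) := mul_le_mul_of_nonneg_left this (by positivity)
  have h3 : Real.sin c ≤ 2 * Real.sin (b + c) := by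
    have hsbc : 0 < Real.sin (b + c) := sin_pos' (by linarith) (by linarith)
    rcases le_total (b + c) (Real.pi / 2) with h | h
    · have : Real.sin c ≤ Real.sin (b + c) :=
        Real.sin_le_sin_of_le_of_le_pi_div_two (by linarith) h (by linarith)
      linarith
    · have e1 : Real.sin (b + c) = Real.sin (a + d) := by
        rw [← Real.sin_pi_sub (a + d)]
        congr 1
        linarith
      have e2 : Real.sin c = Real.sin (b + (a + d)) := by
        rw [← Real.sin_pi_sub (b + (a + d))]
        congr 1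
        linarith
      have hsb : 0 < Real.sin b := sin_pos' hb (by linarith)
      have hsad : 0 < Real.sin (a + d) := by rwa [← e1]
      have e3 : Real.sin (b + (a + d)) ≤ Real.sin b + Real.sin (a + d) := by
        rw [Real.sin_add]
        have c1 := Real.cos_le_one (a + d)
        have c2 := Real.cos_le_one b
        nlinarith
      have e4 : Real.sin b ≤ Real.sin (a + d) :=
        Real.sin_le_sin_of_le_of_le_pi_div_two (by linarith) (by linarith) (by linarith)
      rw [e1, e2]
      linarith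
  calc (b / a + 1) * (Real.sin a * Real.sin c)
      = ((b / a + 1) * Real.sin a) * Real.sin c := by ring
    _ ≤ (Real.pi / 2 * Real.sin (a + b)) * (2 * Real.sin (b + c)) :=
        mul_le_mul (h1.trans h2) h3 hsc.le (by positivity)
    _ = Real.pi * (Real.sin (a + b) * Real.sin (b + c)) := by ring

theorem xr_swap (α β γ : ℝ) : xr γ β α = xr α β γ := by
  unfold xr
  rw [mul_comm (Real.sin (γ / 2)), add_comm γ β, add_comm β α,
    mul_comm (Real.sin ((β + γ) / 2))]

theorem xr_opp {α β γ δ : ℝ} (hs : α + β + γ + δ = 2 * Real.pi) : xr α δ γ = xr α β γ := by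
  unfold xr
  have e1 : Real.sin ((α + δ) / 2) = Real.sin ((β + γ) / 2) := by
    rw [← Real.sin_pi_sub ((β + γ) / 2)]
    congr 1
    linarith
  have e2 : Real.sin ((δ + γ) / 2) = Real.sin ((α + β) / 2) := by
    rw [← Real.sin_pi_sub ((α + β) / 2)]
    congr 1
    linarith
  rw [e1, e2, mul_comm (Real.sin ((β + γ) / 2))]

theorem den_pos {α β γ δ : ℝ} (ha : 0 < α) (hb : 0 < β) (hc : 0 < γ) (hd : 0 < δ)
    (hs : α + β + γ + δ = 2 * Real.pi) :
    0 < Real.sin ((α + β) / 2) * Real.sin ((β + γ) / 2) :=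
  mul_pos (sin_pos' (by linarith) (by linarith)) (sin_pos' (by linarith) (by linarith))

theorem xr_pos {α β γ δ : ℝ} (ha : 0 < α) (hb : 0 < β) (hc : 0 < γ) (hd : 0 < δ)
    (hs : α + β + γ + δ = 2 * Real.pi) : 0 < xr α β γ :=
  div_pos (mul_pos (sin_pos' (by linarith) (by linarith)) (sin_pos' (by linarith) (by linarith)))
    (den_pos ha hb hc hd hs)

theorem xr_compl {α β γ δ : ℝ} (ha : 0 < α) (hb : 0 < β) (hc : 0 < γ) (hd : 0 < δ)
    (hs : α + β + γ + δ = 2 * Real.pi) : xr β γ δ = 1 - xr α β γ := by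
  have hden := den_pos ha hb hc hd hs
  have hp := ptolemy (α / 2) (β / 2) (γ / 2)
  have e1 : Real.sin ((γ + δ) / 2) = Real.sin ((α + β) / 2) := by
    rw [← Real.sin_pi_sub ((α + β) / 2)]
    congr 1
    linarith
  have e2 : Real.sin (δ / 2) = Real.sin (α / 2 + β / 2 + γ / 2) := by
    rw [← Real.sin_pi_sub (α / 2 + β / 2 + γ / 2)]
    congr 1
    linarith
  have e3 : α / 2 + β / 2 = (α + β) / 2 := by ring
  have e4 : β / 2 + γ / 2 = (β + γ) / 2 := by ring
  rw [e3, e4] at hp
  rw [e3] at e2
  unfold xr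
  rw [e1, e2, mul_comm (Real.sin ((β + γ) / 2)) (Real.sin ((α + β) / 2)), eq_sub_iff_add_eq,
    ← add_div, div_eq_one_iff_eq hden.ne', add_comm]
  exact hp

theorem bound {α β γ δ : ℝ} (ha : 0 < α) (hb : 0 < β) (hc : 0 < γ) (hd : 0 < δ)
    (hs : α + β + γ + δ = 2 * Real.pi) (hac : α ≤ γ) (hbd : β ≤ δ) :
    β / α + 1 ≤ Real.pi / xr α β γ := by
  have hden := den_pos ha hb hc hd hs
  have hx := xr_pos ha hb hc hd hs
  have hk := key (a := α / 2) (b := β / 2) (c := γ / 2) (d := δ / 2) (by linarith) (by linarith)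
    (by linarith) (by linarith) (by linarith) (by linarith) (by linarith)
  have e3 : α / 2 + β / 2 = (α + β) / 2 := by ring
  have e4 : β / 2 + γ / 2 = (β + γ) / 2 := by ring
  have e5 : β / 2 / (α / 2) = β / α := by field_simp
  rw [e3, e4, e5] at hk
  rw [le_div_iff₀ hx]
  unfold xr
  rw [mul_div_assoc', div_le_iff₀ hden]
  exact hk

end Trig

open Trig

/-- U3. -/
theorem trig : TrigStmt := by
  intro α β γ δ ha hb hc hd hs
  have hx := xr_pos ha hb hc hd hs
  have hco := xr_compl ha hb hc hd hs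
  have hy : 0 < xr β γ δ := by
    have := xr_pos hb hc hd ha (by linarith)
    exact this
  refine ⟨hx, by linarith, hco, ?_⟩
  rcases le_total α γ with h1 | h1 <;> rcases le_total β δ with h2 | h2
  · rw [min_eq_left h1, min_eq_left h2]
    exact bound ha hb hc hd hs h1 h2
  · rw [min_eq_left h1, min_eq_right h2, ← xr_opp hs]
    exact bound ha hd hc hb (by linarith) h1 h2
  · rw [min_eq_right h1, min_eq_left h2, ← xr_swap]
    exact bound hc hb ha hd (by linarith) h1 h2
  · rw [min_eq_right h1, min_eq_right h2, ← xr_swap, ← xr_opp (by linarith : γ + β + α + δ = _)]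
    exact bound hc hd ha hb (by linarith) h1 h2

end P148
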